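import Vale.Agent.P363.Base

/-!
P363: the interfaces of the kernel `exp (-k |x|) / (4 π |x|)` and of local regularity for weak
solutions of the Poisson equation on `ℝ³`.
-/

noncomputable section

namespace Vale.Agent.P363

open MeasureTheory Filter Metric
open scoped BigOperators Topology ENNReal

/-- The kernel of `k² - Δ`; for `k = 0` the Newton kernel. -/
def yuk (k : ℝ) (x : Space) : ℝ := Real.exp (-(k * ‖x‖)) / (4 * Real.pi * ‖x‖)

/-- Its derivative in the direction `a`. -/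
def yukGrad (k : ℝ) (a : Fin 3) (x : Space) : ℝ :=
  -((1 + k * ‖x‖) * Real.exp (-(k * ‖x‖)) * x a) / (4 * Real.pi * ‖x‖ ^ 3)

/-- Integrability of the kernel and of its derivative: powers below `3` and below `3 / 2` near
the origin, and all powers at infinity. -/
def YukBoundsStmt : Prop :=
  (∀ k x, 0 ≤ k → 0 ≤ yuk k x) ∧
  (∀ (k : ℝ) (a : Fin 3) (x : Space), x ≠ 0 →
    DifferentiableAt ℝ (yuk k) x ∧ deriv3 a (yuk k) x = yukGrad k a x) ∧
  (∀ k q : ℝ, 0 < k → 1 ≤ q → q < 3 → MemLp (yuk k) (ENNReal.ofReal q)) ∧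
  (∀ k q : ℝ, 0 < k → 1 ≤ q → q < 3 / 2 → ∀ a, MemLp (yukGrad k a) (ENNReal.ofReal q))

/-- The kernel inverts `k² - Δ` on test functions. -/
def YukTestStmt : Prop :=
  ∀ (k : ℝ), 0 ≤ k → ∀ (φ : Space → ℝ), IsBump Set.univ φ → ∀ x,
    ∫ y, yuk k (x - y) * (k ^ 2 * φ y - lap φ y) = φ x

/-- Weak solutions of `Δ f = h` on all of space are potentials. For positive `k` any growth below
`exp (k |x|)` in the mean is allowed. -/
def YukRepStmt : Prop :=
  ∀ (k : ℝ) (f h : Space → ℝ), 0 ≤ k → WeakPoisson Set.univ f h →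
    ((0 < k ∧ Integrable (fun x => Real.exp (-(k * ‖x‖)) * f x) ∧
        Integrable (fun x => Real.exp (-(k * ‖x‖)) * h x)) ∨
      (HasCompactSupport f ∧ HasCompactSupport h)) →
    f =ᵐ[volume] fun x => ∫ y, yuk k (x - y) * (k ^ 2 * f y - h y)

/-- Weak subsolutions are below their potentials. -/
def YukSubStmt : Prop :=
  ∀ (k : ℝ) (f h : Space → ℝ), 0 ≤ k → WeakSubPoisson Set.univ f h →
    ((0 < k ∧ Integrable (fun x => Real.exp (-(k * ‖x‖)) * f x) ∧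
        Integrable (fun x => Real.exp (-(k * ‖x‖)) * h x)) ∨
      (HasCompactSupport f ∧ HasCompactSupport h)) →
    f ≤ᵐ[volume] fun x => ∫ y, yuk k (x - y) * (k ^ 2 * f y - h y)

/-- The size of the data of an equation on a ball. -/
def ballData (p : ℝ≥0∞) (x₀ : Space) (R : ℝ) (f h : Space → ℝ) : ℝ :=
  (∫ x in ball x₀ R, |f x|) + (eLpNorm h p (volume.restrict (ball x₀ R))).toReal

/-- `Δ f ∈ L^p`, `p > 3 / 2`, gives a Hölder continuous representative. -/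
def LocalHolderStmt : Prop :=
  ∀ p : ℝ, 3 / 2 < p → ∃ α ∈ Set.Ioc (0 : ℝ) 1, ∀ r R : ℝ, 0 < r → r < R →
    ∃ C : ℝ, ∀ (x₀ : Space) (f h : Space → ℝ), WeakPoisson (ball x₀ R) f h →
      IntegrableOn f (ball x₀ R) → MemLp h (ENNReal.ofReal p) (volume.restrict (ball x₀ R)) →
      ∃ g : Space → ℝ, Continuous g ∧ f =ᵐ[volume.restrict (ball x₀ r)] g ∧
        (∀ x ∈ ball x₀ r, |g x| ≤ C * ballData (ENNReal.ofReal p) x₀ R f h) ∧
        ∀ x ∈ ball x₀ r, ∀ y ∈ ball x₀ r,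
          |g x - g y| ≤ C * ballData (ENNReal.ofReal p) x₀ R f h * ‖x - y‖ ^ α

/-- `Δ f ∈ L^p`, `p > 3`, gives a `C^1` representative with Hölder derivatives. -/
def LocalC1Stmt : Prop :=
  ∀ p : ℝ, 3 < p → ∃ α ∈ Set.Ioc (0 : ℝ) 1, ∀ r R : ℝ, 0 < r → r < R →
    ∃ C : ℝ, ∀ (x₀ : Space) (f h : Space → ℝ), WeakPoisson (ball x₀ R) f h →
      IntegrableOn f (ball x₀ R) → MemLp h (ENNReal.ofReal p) (volume.restrict (ball x₀ R)) →
      ∃ g : Space → ℝ, ContDiff ℝ 1 g ∧ f =ᵐ[volume.restrict (ball x₀ r)] g ∧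
        ∀ x ∈ ball x₀ r, |g x| ≤ C * ballData (ENNReal.ofReal p) x₀ R f h ∧
          ∀ a, |deriv3 a g x| ≤ C * ballData (ENNReal.ofReal p) x₀ R f h ∧
            ∀ y ∈ ball x₀ r, |deriv3 a g x - deriv3 a g y| ≤
              C * ballData (ENNReal.ofReal p) x₀ R f h * ‖x - y‖ ^ α

/-- `Δ f ∈ L^p` gives a weak gradient in `L^q` for `1 / q > 1 / p - 1 / 3`. -/
def LocalW1Stmt : Prop :=
  ∀ p q : ℝ, 1 ≤ p → p ≤ q → 1 / p - 1 / 3 < 1 / q → ∀ r R : ℝ, 0 < r → r < R →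
    ∃ C : ℝ, ∀ (x₀ : Space) (f h : Space → ℝ), WeakPoisson (ball x₀ R) f h →
      IntegrableOn f (ball x₀ R) → MemLp h (ENNReal.ofReal p) (volume.restrict (ball x₀ R)) →
      ∃ G : Fin 3 → Space → ℝ, HasWeakGrad (ball x₀ r) f G ∧
        ∀ a, MemLp (G a) (ENNReal.ofReal q) (volume.restrict (ball x₀ r)) ∧
          (eLpNorm (G a) (ENNReal.ofReal q) (volume.restrict (ball x₀ r))).toReal ≤
            C * ballData (ENNReal.ofReal p) x₀ R f h

/-- The second derivatives of a test function have the mean square of its Laplacian. -/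
def HessTestStmt : Prop :=
  ∀ φ : Space → ℝ, IsBump Set.univ φ →
    ∑ a, ∑ b, ∫ x, deriv3 b (deriv3 a φ) x ^ 2 = ∫ x, lap φ x ^ 2

/-- `Δ f ∈ L^2` gives weak second derivatives in `L^2`. -/
def LocalHessStmt : Prop :=
  ∀ r R : ℝ, 0 < r → r < R → ∃ C : ℝ, ∀ (x₀ : Space) (f h : Space → ℝ),
    WeakPoisson (ball x₀ R) f h → IntegrableOn f (ball x₀ R) →
      MemLp h 2 (volume.restrict (ball x₀ R)) →
      ∃ (G : Fin 3 → Space → ℝ) (H : Fin 3 → Fin 3 → Space → ℝ),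
        HasWeakGrad (ball x₀ r) f G ∧ ∀ a, HasWeakGrad (ball x₀ r) (G a) (H a) ∧
          ∀ b, MemLp (H a b) 2 (volume.restrict (ball x₀ r)) ∧
            (eLpNorm (H a b) 2 (volume.restrict (ball x₀ r))).toReal ≤ C * ballData 2 x₀ R f h

end Vale.Agent.P363
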