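import Vale.Agent.P363.Tool.MaxPrinciple

/-!
P363: positivity of nonnegative supersolutions and the boundary point lemma, by an exponential
barrier on an annulus.
-/

noncomputable section

namespace Vale.Agent.P363

open MeasureTheory Metric Filter
open scoped BigOperators Topology

/-- The barrier `exp (-α |x - p|²) - exp (-α r²)`. -/
def hopfBar (p : Space) (α r : ℝ) (x : Space) : ℝ :=
  Real.exp (-α * ‖x - p‖ ^ 2) - Real.exp (-α * r ^ 2)

lemma contDiff_hopfBar (p : Space) (α r : ℝ) : ContDiff ℝ 2 (hopfBar p α r) :=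
  ((contDiff_const.mul ((contDiff_id.sub contDiff_const).norm_sq ℝ)).exp).sub contDiff_const

lemma lap_hopfBar (p : Space) (α r : ℝ) (x : Space) :
    lap (hopfBar p α r) x =
      (4 * α ^ 2 * ‖x - p‖ ^ 2 - 6 * α) * Real.exp (-α * ‖x - p‖ ^ 2) := by
  have h := lap_radial p (φ := fun t => Real.exp (-α * t) - Real.exp (-α * r ^ 2))
    (φ1 := fun t => -α * Real.exp (-α * t)) (φ2 := fun t => α ^ 2 * Real.exp (-α * t)) isOpen_univ
    (fun t _ => (((hasDerivAt_id t).const_mul (-α)).exp.sub_const _).congr_deriv (by simp; ring))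
    (fun t _ => ((((hasDerivAt_id t).const_mul (-α)).exp.const_mul (-α))).congr_deriv
      (by simp; ring)) (Set.mem_univ (‖x - p‖ ^ 2))
  exact h.trans (by ring)

/-- A positive supersolution on an annulus stays above a multiple of the barrier. -/
theorem annulus_lower {p : Space} {s r C : ℝ} {f h : Space → ℝ} (hs : 0 < s) (hsr : s < r)
    (hcont : ContinuousOn f (closedBall p r)) (hsub : WeakSubPoisson (ball p r) (-f) (-h))
    (hh : ∀ᵐ x, x ∈ ball p r → h x ≤ C * f x) (h0 : ∀ x ∈ closedBall p r, 0 ≤ f x)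
    (hpos : ∀ x ∈ sphere p s, 0 < f x) :
    ∃ α > 0, ∃ c > 0, ∀ x, s ≤ dist x p → dist x p ≤ r → c * hopfBar p α r x ≤ f x := by
  set C' := max C 0
  set α := (6 + C') / (4 * s ^ 2) + 1
  have hC' : 0 ≤ C' := le_max_right _ _
  have hα : 0 < α := by positivity
  have hα1 : 6 + C' ≤ 4 * s ^ 2 * α := by
    have : 4 * s ^ 2 * α = (6 + C') + 4 * s ^ 2 := by
      simp only [α]; field_simp
    nlinarith [sq_nonneg s]
  obtain ⟨m, hm, hmin⟩ : ∃ m > 0, ∀ x ∈ sphere p s, m ≤ f x := by
    have hne : (sphere p s).Nonempty := NormedSpace.sphere_nonempty.2 hs.le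
    obtain ⟨x₀, hx₀, hx⟩ := (isCompact_sphere p s).exists_isMinOn hne
      (hcont.mono (sphere_subset_closedBall.trans (closedBall_subset_closedBall hsr.le)))
    exact ⟨f x₀, hpos x₀ hx₀, fun x hx' => hx hx'⟩
  set e := Real.exp (-α * s ^ 2) - Real.exp (-α * r ^ 2)
  have he : 0 < e := sub_pos.2 (Real.exp_lt_exp.2 (by
    nlinarith [mul_lt_mul_of_pos_left (pow_lt_pow_left₀ hsr hs.le two_ne_zero) hα]))
  refine ⟨α, hα, m / e, div_pos hm he, ?_⟩
  set A : Set Space := ball p r \ closedBall p s
  have hA : IsOpen A := isOpen_ball.sdiff isClosed_closedBall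
  have hcl : closure A ⊆ {x | s ≤ dist x p ∧ dist x p ≤ r} :=
    closure_minimal (fun x hx => ⟨(not_le.1 hx.2).le, (mem_ball.1 hx.1).le⟩)
      ((isClosed_le continuous_const (continuous_id.dist continuous_const)).inter
        (isClosed_le (continuous_id.dist continuous_const) continuous_const))
  set c := m / e
  have hc : 0 < c := div_pos hm he
  have hb : ContDiff ℝ 2 fun x => c * hopfBar p α r x := contDiff_const.mul (contDiff_hopfBar p α r)
  have hw := ((WeakPoisson.of_contDiffOn hA (f := fun x => c * hopfBar p α r x)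
    hb.contDiffOn).toSub).add (hsub.mono (V := A) fun x hx => hx.1)
  have hz : ∀ x ∈ closure A, c * hopfBar p α r x + (-f) x ≤ 0 := by
    refine maxCont A _ _ hA ?_ hw ?_ (fun x hx => ?_) fun ε _ => ⟨‖p‖ + r + 1, fun x hx hR => ?_⟩
    · refine hb.continuous.continuousOn.add (hcont.mono fun x hx => ?_).neg
      exact (hcl hx).2
    · filter_upwards [hh] with x hx hxA hwx
      obtain ⟨h1, h2⟩ := hxA
      have hd : dist x p = ‖x - p‖ := dist_eq_norm x p
      rw [mem_ball, hd] at h1
      rw [mem_closedBall, hd, not_le] at h2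
      have hρ : s ^ 2 ≤ ‖x - p‖ ^ 2 := pow_le_pow_left₀ hs.le h2.le 2
      have hbx : hopfBar p α r x ≤ Real.exp (-α * ‖x - p‖ ^ 2) :=
        sub_le_self _ (Real.exp_pos _).le
      have hlap : C' * hopfBar p α r x ≤ lap (hopfBar p α r) x := by
        rw [lap_hopfBar]
        have h5 : C' ≤ 4 * α ^ 2 * ‖x - p‖ ^ 2 - 6 * α := by
          have h6 : α * (6 + C') ≤ α * (4 * ‖x - p‖ ^ 2 * α) := by
            refine mul_le_mul_of_nonneg_left (hα1.trans ?_) hα.le
            exact mul_le_mul_of_nonneg_right (by linarith) hα.le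
          have h7 : C' ≤ α * C' := by
            refine le_mul_of_one_le_left hC' ?_
            simp only [α]
            have : 0 ≤ (6 + C') / (4 * s ^ 2) := by positivity
            linarith
          linarith
        exact (mul_le_mul_of_nonneg_left hbx hC').trans
          (mul_le_mul_of_nonneg_right h5 (Real.exp_pos _).le)
      have hhx : h x ≤ C' * f x :=
        (hx (by rw [mem_ball, hd]; exact h1)).trans (mul_le_mul_of_nonneg_right (le_max_left _ _)
          (h0 x (by rw [mem_closedBall, hd]; exact h1.le)))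
      rw [lap_const_mul c isOpen_univ (contDiff_hopfBar p α r).contDiffOn (Set.mem_univ x)]
      simp only [Pi.neg_apply] at hwx ⊢
      nlinarith [mul_le_mul_of_nonneg_left hlap hc.le, mul_nonneg hC' hwx.le]
    · obtain ⟨h1, h2⟩ := hcl hx.1
      rcases h2.eq_or_lt with he' | hlt
      · have : hopfBar p α r x = 0 := by
          rw [hopfBar, ← dist_eq_norm, he', sub_self]
        simp only [this, mul_zero, Pi.neg_apply, zero_add, neg_nonpos]
        exact h0 x (mem_closedBall.2 he'.le)
      · have hs' : dist x p = s := by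
          by_contra hne
          exact hx.2 (hA.interior_eq.symm ▸ ⟨mem_ball.2 hlt, fun h =>
            hne (le_antisymm (mem_closedBall.1 h) h1)⟩)
        have : c * hopfBar p α r x = m := by
          simp only [hopfBar, ← dist_eq_norm, hs']
          exact div_mul_cancel₀ _ he.ne'
        simp only [this, Pi.neg_apply]
        linarith [hmin x (mem_sphere.2 hs')]
    · exfalso
      have h1 := mem_ball.1 hx.1
      rw [dist_eq_norm] at h1
      linarith [norm_le_norm_sub_add x p]
  intro x h1 h2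
  rcases h2.eq_or_lt with he' | hlt
  · have : hopfBar p α r x = 0 := by
      rw [hopfBar, ← dist_eq_norm, he', sub_self]
    rw [this, mul_zero]
    exact h0 x (mem_closedBall.2 he'.le)
  rcases h1.eq_or_lt with hs' | hgt
  · have : c * hopfBar p α r x = m := by
      simp only [hopfBar, ← dist_eq_norm, ← hs']
      exact div_mul_cancel₀ _ he.ne'
    rw [this]
    exact hmin x (mem_sphere.2 hs'.symm)
  · have := hz x (subset_closure ⟨mem_ball.2 hlt, fun h => hgt.not_ge (mem_closedBall.1 h)⟩)
    simp only [Pi.neg_apply] at this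
    linarith

/-- Nonnegative supersolutions vanish identically or nowhere. -/
theorem positive : PositiveStmt := by
  intro U f h C hU hconn hf h0 hsub hh
  set S := {x | x ∈ U ∧ 0 < f x}
  have hS : IsOpen S := hf.isOpen_inter_preimage hU isOpen_Ioi
  by_cases hne : (U ∩ S).Nonempty
  swap
  · refine Or.inl fun x hx => le_antisymm (not_lt.1 fun hlt => hne ⟨x, hx, hx, hlt⟩) (h0 x hx)
  refine Or.inr fun x hx => ((hconn.subset_of_closure_inter_subset hS hne ?_) hx).2
  rintro y ⟨hy, hyU⟩
  obtain ⟨ρ, hρ, hρU⟩ := Metric.isOpen_iff.1 hU y hyU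
  obtain ⟨p, hp, hpy⟩ := Metric.mem_closure_iff.1 hy (ρ / 4) (by linarith)
  have hball : closedBall p (ρ / 2) ⊆ U := fun z hz => hρU (mem_ball.2 (by
    have := mem_closedBall.1 hz
    linarith [dist_triangle z p y, dist_comm p y]))
  obtain ⟨s₀, hs₀, hs₀S⟩ := Metric.isOpen_iff.1 hS p hp
  set s := min (s₀ / 2) (ρ / 4)
  have hs : 0 < s := lt_min (by linarith) (by linarith)
  have hsp : closedBall p s ⊆ S := fun z hz => hs₀S (mem_ball.2 (by
    have := mem_closedBall.1 hz
    linarith [min_le_left (s₀ / 2) (ρ / 4)]))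
  rcases le_or_gt (dist y p) s with hle | hgt
  · exact hsp (mem_closedBall.2 hle)
  obtain ⟨α, hα, c, hc, hlow⟩ := annulus_lower (C := C) hs
    (show s < ρ / 2 by linarith [min_le_right (s₀ / 2) (ρ / 4)]) (hf.mono hball)
    (hsub.mono (ball_subset_closedBall.trans hball))
    (hh.mono fun z hz hzb => hz (hball (ball_subset_closedBall hzb)))
    (fun z hz => h0 z (hball hz)) fun z hz => (hsp (sphere_subset_closedBall hz)).2
  have hd : dist y p < ρ / 2 := by linarith [hpy]
  refine ⟨hyU, lt_of_lt_of_le (mul_pos hc (sub_pos.2 (Real.exp_lt_exp.2 ?_)))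
    (hlow y hgt.le hd.le)⟩
  rw [← dist_eq_norm]
  nlinarith [mul_lt_mul_of_pos_left (pow_lt_pow_left₀ hd dist_nonneg two_ne_zero) hα]

/-- The boundary point lemma. -/
theorem hopf : HopfStmt := by
  intro p r f h C hr hcont hsub hh hpos y hy _
  have h0 : ∀ x ∈ closedBall p r, 0 ≤ f x := fun x hx => by
    rw [← closure_ball p hr.ne'] at hcont hx
    exact le_on_closure (fun z hz => (hpos z hz).le) continuousOn_const hcont hx
  have hr2 : r / 2 < r := by linarith
  obtain ⟨α, hα, c, hc, hlow⟩ := annulus_lower (C := C) (half_pos hr) hr2 hcont hsub hh h0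
    fun x hx => hpos x (mem_ball.2 (by rw [mem_sphere.1 hx]; exact hr2))
  obtain ⟨x₀, hx₀, hmin⟩ := (isCompact_closedBall p (r / 2)).exists_isMinOn
    ⟨p, mem_closedBall_self (by linarith)⟩ (hcont.mono (closedBall_subset_closedBall hr2.le))
  have hm : 0 < f x₀ := hpos x₀ (mem_ball.2 (lt_of_le_of_lt (mem_closedBall.1 hx₀) hr2))
  set c' := min (c * (Real.exp (-α * r ^ 2) * (α * r ^ 2))) (f x₀)
  have hc' : 0 < c' := lt_min (by positivity) hm
  have hdist : ∀ t : ℝ, t ≤ 1 → dist (y + t • (p - y)) p = (1 - t) * r := fun t ht => by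
    rw [dist_eq_norm, show y + t • (p - y) - p = (1 - t) • (y - p) by module, norm_smul,
      Real.norm_eq_abs, abs_of_nonneg (by linarith), ← dist_eq_norm, mem_sphere.1 hy]
  have hgrow : ∀ t ∈ Set.Icc (0 : ℝ) 1, c' * t ≤ f (y + t • (p - y)) := by
    rintro t ⟨ht0, ht1⟩
    set x := y + t • (p - y)
    have hd := hdist t ht1
    rcases le_or_gt t (1 / 2) with ht | ht
    · refine le_trans ?_ (hlow x (by rw [hd]; nlinarith) (by rw [hd]; nlinarith))
      have hbar : Real.exp (-α * r ^ 2) * (α * r ^ 2) * t ≤ hopfBar p α r x := by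
        rw [hopfBar, ← dist_eq_norm, hd]
        have e : -α * ((1 - t) * r) ^ 2 = -α * r ^ 2 + α * r ^ 2 * (t * (2 - t)) := by ring
        rw [e, Real.exp_add]
        have h1 := Real.add_one_le_exp (α * r ^ 2 * (t * (2 - t)))
        have h2 : α * r ^ 2 * t ≤ α * r ^ 2 * (t * (2 - t)) :=
          mul_le_mul_of_nonneg_left (le_mul_of_one_le_right ht0 (by linarith)) (by positivity)
        nlinarith [mul_le_mul_of_nonneg_left (by linarith :
          α * r ^ 2 * t + 1 ≤ Real.exp (α * r ^ 2 * (t * (2 - t)))) (Real.exp_pos (-α * r ^ 2)).le]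
      calc c' * t ≤ c * (Real.exp (-α * r ^ 2) * (α * r ^ 2)) * t :=
            mul_le_mul_of_nonneg_right (min_le_left _ _) ht0
        _ ≤ c * hopfBar p α r x := by
            rw [mul_assoc]; exact mul_le_mul_of_nonneg_left hbar hc.le
    · have hx : x ∈ closedBall p (r / 2) := by
        rw [mem_closedBall, hd]; nlinarith
      calc c' * t ≤ c' * 1 := mul_le_mul_of_nonneg_left ht1 hc'.le
        _ ≤ f x₀ := by rw [mul_one]; exact min_le_right _ _
        _ ≤ f x := hmin hx
  refine ⟨⟨c', hc', hgrow⟩, fun L hL hfy => lt_of_lt_of_le hc' ?_⟩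
  have hline : HasDerivAt (fun t : ℝ => f (y + t • (p - y))) (L (p - y)) 0 := by
    have h1 : HasDerivAt (fun t : ℝ => y + t • (p - y)) (p - y) 0 := by
      simpa using ((hasDerivAt_id (0 : ℝ)).smul_const (p - y)).const_add y
    have h2 : HasFDerivAt f L ((fun t : ℝ => y + t • (p - y)) 0) := by simpa using hL
    exact h2.comp_hasDerivAt (f := fun t : ℝ => y + t • (p - y)) 0 h1
  refine ge_of_tendsto hline.tendsto_slope_zero_right ?_
  filter_upwards [Ioo_mem_nhdsGT (show (0 : ℝ) < 1 by norm_num)] with t ht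
  simp only [zero_add, zero_smul, add_zero, hfy, sub_zero, smul_eq_mul]
  rw [le_inv_mul_iff₀ ht.1, mul_comm]
  exact hgrow t ⟨ht.1.le, ht.2.le⟩

end Vale.Agent.P363
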