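import Vale.Agent.P363.Tool.Weak.Testing

/-!
P363: the weak derivative toolkit.
-/
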