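import Vale.Agent.P363.Tool.YukKernel

/-!
P363: the kernel of `k² - Δ` inverts `k² - Δ` on test functions.
-/

noncomputable section

namespace Vale.Agent.P363.Yuk

open MeasureTheory Filter Metric
open scoped BigOperators Topology ENNReal

lemma rho_scale {ε : ℝ} (hε : 0 < ε) (u : Space) : rho ε (ε • u) = ε * rho 1 u := by
  rw [rho, rho, norm_smul, Real.norm_eq_abs, abs_of_pos hε,
    show (ε * ‖u‖) ^ 2 + ε ^ 2 = ε ^ 2 * (‖u‖ ^ 2 + 1 ^ 2) by ring,
    Real.sqrt_mul (sq_nonneg ε), Real.sqrt_sq hε.le]

lemma poly_exp_le {t : ℝ} (ht : 0 ≤ t) : (3 + 3 * t + t ^ 2) * Real.exp (-t) ≤ 3 := by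
  have h := Real.quadratic_le_exp_of_nonneg ht
  rw [Real.exp_neg, ← div_eq_mul_inv, div_le_iff₀ (Real.exp_pos t)]
  nlinarith

/-- The limit profile. -/
def profile (u : Space) : ℝ := 3 / (4 * Real.pi * rho 1 u ^ 5)

lemma continuous_rho (ε : ℝ) : Continuous (rho ε) := by unfold rho; fun_prop

lemma continuous_bumpKer (k : ℝ) {ε : ℝ} (hε : ε ≠ 0) : Continuous (bumpKer k ε) := by
  have := continuous_rho ε
  refine Continuous.div (by fun_prop) (by fun_prop) fun x => ?_
  have := rho_pos hε x
  positivity

lemma hasDerivAt_mass (y : ℝ) :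
    HasDerivAt (fun t => t ^ 3 / √(1 + t ^ 2) ^ 3) (3 * y ^ 2 / √(1 + y ^ 2) ^ 5) y := by
  have hp : 0 < √(1 + y ^ 2) := Real.sqrt_pos.2 (by positivity)
  have hs : √(1 + y ^ 2) ^ 2 = 1 + y ^ 2 := Real.sq_sqrt (by positivity)
  have h := (hasDerivAt_pow 3 y).div ((((hasDerivAt_pow 2 y).const_add 1).sqrt
    (by positivity)).pow 3) (by simp [hp.ne'])
  refine h.congr_deriv ?_
  simp only [Pi.pow_apply]
  field_simp
  push_cast
  rw [show √(1 + y ^ 2) ^ 4 = (√(1 + y ^ 2) ^ 2) ^ 2 by ring, hs]
  ring

lemma tendsto_mass : Tendsto (fun t : ℝ => t ^ 3 / √(1 + t ^ 2) ^ 3) atTop (𝓝 1) := by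
  have h0 : Tendsto (fun t : ℝ => √((t ^ 2)⁻¹ + 1)) atTop (𝓝 (√(0 + 1))) := by
    refine (Real.continuous_sqrt.tendsto _).comp ?_
    exact ((tendsto_pow_atTop two_ne_zero).inv_tendsto_atTop).add_const 1
  have h := (h0.inv₀ (by simp)).pow 3
  simp only [zero_add, Real.sqrt_one, inv_one, one_pow] at h
  refine h.congr' ?_
  filter_upwards [eventually_gt_atTop 0] with t ht
  rw [show (t ^ 2)⁻¹ + 1 = (1 + t ^ 2) / t ^ 2 by field_simp,
    Real.sqrt_div (by positivity), Real.sqrt_sq ht.le, inv_div, div_pow]

lemma integral_profile : ∫ u, profile u = 1 := by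
  have e : profile = fun u : Space => (fun r : ℝ => 3 / (4 * Real.pi * √(r ^ 2 + 1 ^ 2) ^ 5)) ‖u‖ :=
    rfl
  rw [e, integral_fun_norm_addHaar (volume : Measure Space), finrank_space]
  have hI : ∫ y in Set.Ioi (0 : ℝ), y ^ (3 - 1) • (3 / (4 * Real.pi * √(y ^ 2 + 1 ^ 2) ^ 5)) =
      (4 * Real.pi)⁻¹ := by
    rw [show (fun y : ℝ => y ^ (3 - 1) • (3 / (4 * Real.pi * √(y ^ 2 + 1 ^ 2) ^ 5))) =
      fun y => (4 * Real.pi)⁻¹ * (3 * y ^ 2 / √(1 + y ^ 2) ^ 5) from funext fun y => by
        rw [smul_eq_mul, add_comm (y ^ 2)]; simp only [one_pow, Nat.add_one_sub_one]; field_simp,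
      integral_const_mul, integral_Ioi_of_hasDerivAt_of_nonneg' (fun y _ => hasDerivAt_mass y)
        (fun y _ => by positivity) tendsto_mass]
    simp
  rw [hI, measureReal_def, EuclideanSpace.volume_ball_fin_three]
  rw [ENNReal.toReal_mul, ENNReal.toReal_ofReal (by positivity), ENNReal.toReal_pow,
    ENNReal.toReal_ofReal zero_le_one]
  simp only [nsmul_eq_mul, smul_eq_mul]
  field_simp
  ring

lemma integrable_profile : Integrable profile := by
  by_contra h
  have := integral_profile
  rw [integral_undef h] at this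
  exact zero_ne_one this

lemma scaled_eq (k : ℝ) {ε : ℝ} (hε : 0 < ε) (u : Space) :
    ε ^ 3 * bumpKer k ε (ε • u) =
      (3 + 3 * (k * (ε * rho 1 u)) + (k * (ε * rho 1 u)) ^ 2) *
        Real.exp (-(k * (ε * rho 1 u))) / (4 * Real.pi * rho 1 u ^ 5) := by
  have := rho_pos one_ne_zero u
  rw [bumpKer, rho_scale hε]
  field_simp

/-- The regularisations tend to the point mass. -/
theorem tendsto_bumpKer {k : ℝ} (hk : 0 ≤ k) {φ : Space → ℝ} (hφ : Continuous φ)
    (hc : HasCompactSupport φ) :
    Tendsto (fun n : ℕ => ∫ z, bumpKer k (1 / (n + 1)) z * φ z) atTop (𝓝 (φ 0)) := by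
  obtain ⟨M, hM⟩ := hφ.bounded_above_of_compact_support hc
  have key : ∀ n : ℕ, ∫ z, bumpKer k (1 / (n + 1)) z * φ z =
      ∫ u, ((1 / (n + 1) : ℝ)) ^ 3 * bumpKer k (1 / (n + 1)) ((1 / (n + 1) : ℝ) • u) *
        φ ((1 / (n + 1) : ℝ) • u) := by
    intro n
    set ε : ℝ := 1 / (n + 1) with hεd
    have hε : 0 < ε := by positivity
    simp only [mul_assoc]
    rw [integral_const_mul,
      Measure.integral_comp_smul volume (fun z => bumpKer k ε z * φ z) ε, finrank_space,
      smul_eq_mul, abs_of_pos (by positivity : (0 : ℝ) < (ε ^ 3)⁻¹), ← mul_assoc,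
      mul_inv_cancel₀ (by positivity : (ε ^ 3 : ℝ) ≠ 0), one_mul]
  simp only [key]
  have h1 : Tendsto (fun n : ℕ => (1 / (n + 1) : ℝ)) atTop (𝓝 0) :=
    tendsto_one_div_add_atTop_nhds_zero_nat
  rw [show φ 0 = ∫ u, profile u * φ 0 by rw [integral_mul_const, integral_profile, one_mul]]
  refine tendsto_integral_of_dominated_convergence (fun u => profile u * M) (fun n => ?_)
    (integrable_profile.mul_const M) (fun n => ae_of_all _ fun u => ?_) (ae_of_all _ fun u => ?_)
  · have hne : (1 / (n + 1) : ℝ) ≠ 0 := by positivity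
    exact (((continuous_bumpKer k hne).comp (continuous_const_smul _)).const_mul _ |>.mul
      (hφ.comp (continuous_const_smul _))).aestronglyMeasurable
  · have hr := rho_pos one_ne_zero u
    rw [scaled_eq k (by positivity) u, norm_mul]
    refine mul_le_mul ?_ (hM _) (norm_nonneg _) ?_
    · rw [Real.norm_eq_abs, abs_of_nonneg (by positivity), profile]
      gcongr
      exact poly_exp_le (by positivity)
    · unfold profile; positivity
  · refine Tendsto.mul ?_ ((hφ.tendsto 0).comp ?_)
    · simp only [fun n : ℕ => scaled_eq k (show (0 : ℝ) < 1 / (n + 1) by positivity) u]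
      have hC : Continuous fun t : ℝ => (3 + 3 * (k * (t * rho 1 u)) + (k * (t * rho 1 u)) ^ 2) *
          Real.exp (-(k * (t * rho 1 u))) / (4 * Real.pi * rho 1 u ^ 5) := by fun_prop
      have := (hC.tendsto 0).comp h1
      simpa [profile, Function.comp_def] using this
    · simpa using h1.smul_const u

lemma isBump_deriv {U : Set Space} {η : Space → ℝ} (h : IsBump U η) (a : Fin 3) :
    IsBump U (deriv3 a η) :=
  ⟨(h.smooth.fderiv_right le_rfl).clm_apply contDiff_const,
    h.compact.fderiv_apply (𝕜 := ℝ) (unit3 a),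
    (tsupport_fderiv_apply_subset ℝ _).trans h.supp⟩

lemma continuous_lap {U : Set Space} {η : Space → ℝ} (h : IsBump U η) : Continuous (lap η) := by
  unfold lap
  exact continuous_finsetSum _ fun a _ => (isBump_deriv (isBump_deriv h a) a).smooth.continuous

lemma hasCompactSupport_lap {U : Set Space} {η : Space → ℝ} (h : IsBump U η) :
    HasCompactSupport (lap η) := by
  refine h.compact.mono' fun x hx => ?_
  by_contra hn
  refine hx (Finset.sum_eq_zero fun a _ => ?_)
  exact image_eq_zero_of_notMem_tsupport fun hm =>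
    hn ((tsupport_fderiv_apply_subset ℝ _) ((tsupport_fderiv_apply_subset ℝ _) hm))

/-- Integration by parts twice against a test function. -/
lemma integral_mul_lap {g : Space → ℝ} (hg : ContDiff ℝ 2 g) {U : Set Space} {η : Space → ℝ}
    (h : IsBump U η) : ∫ x, g x * lap η x = ∫ x, lap g x * η x := by
  have hg1 : ∀ a, ContDiff ℝ 1 (deriv3 a g) := fun a =>
    (hg.fderiv_right (by norm_num)).clm_apply contDiff_const
  have hg2 : ∀ a, Continuous (deriv3 a (deriv3 a g)) := fun a =>
    (((hg1 a).fderiv_right (m := 0) (by norm_num)).clm_apply contDiff_const).continuous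
  have hη : ∀ a, IsBump U (deriv3 a η) := isBump_deriv h
  have hη2 : ∀ a, IsBump U (deriv3 a (deriv3 a η)) := fun a => isBump_deriv (hη a) a
  simp only [lap, Finset.mul_sum, Finset.sum_mul]
  have i1 : ∀ a, Integrable fun x => g x * deriv3 a (deriv3 a η) x := fun a =>
    (hg.continuous.mul (hη2 a).smooth.continuous).integrable_of_hasCompactSupport
      (hη2 a).compact.mul_left
  have i2 : ∀ a, Integrable fun x => deriv3 a (deriv3 a g) x * η x := fun a =>
    ((hg2 a).mul h.smooth.continuous).integrable_of_hasCompactSupport h.compact.mul_left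
  rw [integral_finsetSum _ fun a _ => i1 a, integral_finsetSum _ fun a _ => i2 a]
  refine Finset.sum_congr rfl fun a _ => ?_
  have s1 : ∫ x, g x * deriv3 a (deriv3 a η) x = -∫ x, deriv3 a g x * deriv3 a η x :=
    integral_mul_fderiv_eq_neg_fderiv_mul_of_integrable
      (((hg1 a).continuous.mul (hη a).smooth.continuous).integrable_of_hasCompactSupport
        (hη a).compact.mul_left)
      ((hg.continuous.mul (hη2 a).smooth.continuous).integrable_of_hasCompactSupport
        (hη2 a).compact.mul_left)
      ((hg.continuous.mul (hη a).smooth.continuous).integrable_of_hasCompactSupport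
        (hη a).compact.mul_left)
      (fun x _ => hg.differentiable (by norm_num) x)
      fun x _ => (hη a).smooth.differentiable (by norm_num) x
  have s2 : ∫ x, deriv3 a g x * deriv3 a η x = -∫ x, deriv3 a (deriv3 a g) x * η x :=
    integral_mul_fderiv_eq_neg_fderiv_mul_of_integrable
      (((hg2 a).mul h.smooth.continuous).integrable_of_hasCompactSupport h.compact.mul_left)
      (((hg1 a).continuous.mul (hη a).smooth.continuous).integrable_of_hasCompactSupport
        (hη a).compact.mul_left)
      (((hg1 a).continuous.mul h.smooth.continuous).integrable_of_hasCompactSupport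
        h.compact.mul_left)
      (fun x _ => (hg1 a).differentiable (by norm_num) x)
      fun x _ => h.smooth.differentiable (by norm_num) x
  rw [s1, s2, neg_neg]

/-- The identity at the origin. -/
theorem test_zero {k : ℝ} (hk : 0 ≤ k) {φ : Space → ℝ} (h : IsBump Set.univ φ) :
    ∫ y, yuk k y * (k ^ 2 * φ y - lap φ y) = φ 0 := by
  set q : Space → ℝ := fun y => k ^ 2 * φ y - lap φ y with hq
  have hqc : Continuous q := (h.smooth.continuous.const_mul _).sub (continuous_lap h)
  have hqs : HasCompactSupport q := by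
    refine (h.compact.union (hasCompactSupport_lap h)).of_isClosed_subset isClosed_closure ?_
    refine closure_minimal (fun y hy => ?_) ((isClosed_tsupport φ).union (isClosed_tsupport _))
    by_contra hn
    simp only [Set.mem_union, not_or] at hn
    exact hy (by simp [hq, image_eq_zero_of_notMem_tsupport hn.1,
      image_eq_zero_of_notMem_tsupport hn.2])
  obtain ⟨M, hM⟩ := hqc.bounded_above_of_compact_support hqs
  obtain ⟨R, hR⟩ := hqs.isCompact.isBounded.subset_closedBall (0 : Space)
  have h1 : Tendsto (fun n : ℕ => ∫ y, soft k (1 / (n + 1)) y * q y) atTop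
      (𝓝 (∫ y, yuk k y * q y)) := by
    refine tendsto_integral_of_dominated_convergence
      ((closedBall (0 : Space) R).indicator fun y => ‖(0 : Space) - y‖ ^ (-(1 : ℝ)) * M)
      (fun n => ((contDiff_soft k (by positivity : (1 / (n + 1) : ℝ) ≠ 0)).continuous.mul
        hqc).aestronglyMeasurable)
      ((integrable_indicator_iff measurableSet_closedBall).2
        ((integrableOn_rpow_ball (by norm_num : (1 : ℝ) < 3) 0 R).mul_const M))
      (fun n => ?_) ?_
    · filter_upwards [Measure.ae_ne volume (0 : Space)] with y hy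
      by_cases hmem : y ∈ closedBall (0 : Space) R
      · rw [Set.indicator_of_mem hmem, norm_mul, zero_sub, norm_neg, Real.rpow_neg_one]
        refine mul_le_mul ?_ (hM y) (norm_nonneg _) (by positivity)
        have hr := rho_pos (show (1 / (n + 1) : ℝ) ≠ 0 by positivity) y
        have hle : ‖y‖ ≤ rho (1 / (n + 1)) y :=
          Real.le_sqrt_of_sq_le (le_add_of_nonneg_right (sq_nonneg _))
        have hy0 : 0 < ‖y‖ := norm_pos_iff.2 hy
        rw [Real.norm_eq_abs, soft, abs_of_nonneg (by positivity), div_le_iff₀ (by positivity),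
          inv_mul_eq_div, le_div_iff₀ hy0]
        calc Real.exp (-(k * rho (1 / (n + 1)) y)) * ‖y‖ ≤ 1 * rho (1 / (n + 1)) y :=
              mul_le_mul (Real.exp_le_one_iff.2 (by nlinarith)) hle hy0.le zero_le_one
          _ ≤ _ := by nlinarith [Real.pi_gt_three]
      · rw [Set.indicator_of_notMem hmem, image_eq_zero_of_notMem_tsupport fun hm => hmem (hR hm)]
        simp
    · filter_upwards [Measure.ae_ne volume (0 : Space)] with y hy
      refine Tendsto.mul_const _ ?_
      have hc : ContinuousAt (fun e : ℝ => soft k e y) 0 := by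
        have : rho 0 y ≠ 0 := by rw [rho_zero]; simpa using hy
        have hr : Continuous fun e : ℝ => rho e y := by unfold rho; fun_prop
        refine ContinuousAt.div ?_ ?_ (mul_ne_zero (by positivity) this)
        · exact (hr.const_mul k).neg.rexp.continuousAt
        · exact (hr.const_mul (4 * Real.pi)).continuousAt
      have := hc.tendsto.comp (tendsto_one_div_add_atTop_nhds_zero_nat (𝕜 := ℝ))
      simpa [Function.comp_def, soft, yuk, rho_zero] using this
  have h2 : ∀ n : ℕ, ∫ y, soft k (1 / (n + 1)) y * q y = ∫ y, bumpKer k (1 / (n + 1)) y * φ y := by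
    intro n
    have hne : (1 / (n + 1) : ℝ) ≠ 0 := by positivity
    have hs := contDiff_soft k hne
    have hl : Continuous fun y => lap (soft k (1 / (n + 1))) y := by
      have e : (fun y => lap (soft k (1 / (n + 1))) y) =
          fun y => k ^ 2 * soft k (1 / (n + 1)) y - bumpKer k (1 / (n + 1)) y :=
        funext fun y => by linarith [lap_soft k hne y]
      rw [e]
      exact (hs.continuous.const_mul _).sub (continuous_bumpKer k hne)
    have iA : Integrable fun y => soft k (1 / (n + 1)) y * (k ^ 2 * φ y) :=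
      (hs.continuous.mul (h.smooth.continuous.const_mul (k ^ 2))).integrable_of_hasCompactSupport
      (μ := volume) (h.compact.mul_left.mul_left)
    have iB : Integrable fun y => soft k (1 / (n + 1)) y * lap φ y :=
      (hs.continuous.mul (continuous_lap h)).integrable_of_hasCompactSupport (μ := volume)
      (hasCompactSupport_lap h).mul_left
    have iC : Integrable fun y => lap (soft k (1 / (n + 1))) y * φ y :=
      (hl.mul h.smooth.continuous).integrable_of_hasCompactSupport (μ := volume)
      h.compact.mul_left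
    simp only [hq, mul_sub]
    rw [integral_sub iA iB, integral_mul_lap hs h, ← integral_sub iA iC]
    refine integral_congr_ae (ae_of_all _ fun y => ?_)
    simp only [← lap_soft k hne y]
    ring
  simp only [h2] at h1
  exact tendsto_nhds_unique h1 (tendsto_bumpKer hk h.smooth.continuous h.compact)

lemma deriv3_translate (x : Space) (a : Fin 3) (φ : Space → ℝ) :
    deriv3 a (fun z => φ (z + x)) = fun z => deriv3 a φ (z + x) := by
  funext z
  simp only [deriv3, fderiv_comp_add_right]

lemma isBump_translate {φ : Space → ℝ} (h : IsBump Set.univ φ) (x : Space) :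
    IsBump Set.univ fun z => φ (z + x) :=
  ⟨h.smooth.comp (contDiff_id.add contDiff_const),
    h.compact.comp_homeomorph (Homeomorph.addRight x), Set.subset_univ _⟩

/-- The kernel inverts `k² - Δ` on test functions. -/
theorem yukTest : YukTestStmt := by
  intro k hk φ h x
  have h0 := test_zero hk (isBump_translate h x)
  simp only [lap, deriv3_translate, zero_add] at h0
  rw [← h0, ← integral_add_right_eq_self (fun y => yuk k (x - y) * (k ^ 2 * φ y - lap φ y)) x]
  refine integral_congr_ae (ae_of_all _ fun y => ?_)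
  simp only [lap, sub_add_cancel_right, yuk_neg]

end Vale.Agent.P363.Yuk
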