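import Vale.Agent.P363.Base

/-!
P363: test functions: mollification, Laplacians of radial functions and the second derivative
test.
-/

noncomputable section

namespace Vale.Agent.P363

open MeasureTheory Metric Filter ContinuousLinearMap
open scoped BigOperators Topology Convolution

variable {U U' : Set Space} {f h g : Space → ℝ}

lemma deriv3_eq (a : Fin 3) (f : Space → ℝ) : deriv3 a f = fun x => fderiv ℝ f x (unit3 a) := rfl

lemma contDiff_deriv3 (a : Fin 3) {n m : WithTop ℕ∞} (hf : ContDiff ℝ n f) (h : m + 1 ≤ n) :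
    ContDiff ℝ m (deriv3 a f) :=
  (hf.fderiv_right h).clm_apply contDiff_const

lemma contDiffOn_deriv3 (a : Fin 3) (hU : IsOpen U) {n m : WithTop ℕ∞}
    (hf : ContDiffOn ℝ n f U) (h : m + 1 ≤ n) : ContDiffOn ℝ m (deriv3 a f) U :=
  (hf.fderiv_of_isOpen hU h).clm_apply contDiffOn_const

lemma tsupport_deriv3 (a : Fin 3) (f : Space → ℝ) : tsupport (deriv3 a f) ⊆ tsupport f :=
  tsupport_fderiv_apply_subset ℝ (unit3 a)

lemma hasCompactSupport_deriv3 (a : Fin 3) (hf : HasCompactSupport f) :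
    HasCompactSupport (deriv3 a f) :=
  hf.fderiv_apply ℝ (unit3 a)

lemma IsBump.mono {η : Space → ℝ} (hη : IsBump U' η) (h : U' ⊆ U) : IsBump U η :=
  ⟨hη.smooth, hη.compact, hη.supp.trans h⟩

lemma continuous_lap (hf : ContDiff ℝ 2 f) : Continuous (lap f) :=
  continuous_finsetSum _ fun a _ => (contDiff_deriv3 a (m := 0)
    (contDiff_deriv3 a (m := 1) hf (by norm_num)) (by norm_num)).continuous

lemma tsupport_lap (f : Space → ℝ) : tsupport (lap f) ⊆ tsupport f := by
  refine closure_minimal (fun x hx => ?_) (isClosed_tsupport f)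
  by_contra hn
  refine hx ?_
  simp only [lap]
  refine Finset.sum_eq_zero fun a _ => image_eq_zero_of_notMem_tsupport fun h => hn ?_
  exact tsupport_deriv3 a f (tsupport_deriv3 a _ h)

lemma hasCompactSupport_lap (hf : HasCompactSupport f) : HasCompactSupport (lap f) :=
  hf.of_isClosed_subset (isClosed_tsupport _) (tsupport_lap f)

lemma IsBump.contDiff {η : Space → ℝ} (hη : IsBump U η) (n : ℕ) : ContDiff ℝ n η :=
  hη.smooth.of_le (WithTop.coe_le_coe.2 le_top)

lemma IsBump.lap_continuous {η : Space → ℝ} (hη : IsBump U η) : Continuous (lap η) :=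
  continuous_lap (hη.contDiff 2)

/-- The Laplacian of a radial function. -/
lemma lap_radial (p : Space) {φ φ1 φ2 : ℝ → ℝ} {S : Set ℝ} (hS : IsOpen S)
    (h1 : ∀ t ∈ S, HasDerivAt φ (φ1 t) t) (h2 : ∀ t ∈ S, HasDerivAt φ1 (φ2 t) t) {x : Space}
    (hx : ‖x - p‖ ^ 2 ∈ S) :
    lap (fun y => φ (‖y - p‖ ^ 2)) x =
      4 * ‖x - p‖ ^ 2 * φ2 (‖x - p‖ ^ 2) + 6 * φ1 (‖x - p‖ ^ 2) := by
  have hsq : ∀ y : Space, HasFDerivAt (fun z : Space => ‖z - p‖ ^ 2) (2 • (innerSL ℝ (y - p))) y :=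
    fun y => by simpa using ((hasFDerivAt_id y).sub_const p).norm_sq
  have hin : ∀ (y : Space) (a : Fin 3), inner ℝ y (unit3 a) = y a := fun y a => by
    simp [unit3, EuclideanSpace.inner_single_right]
  have hd : ∀ y : Space, ‖y - p‖ ^ 2 ∈ S → ∀ a,
      deriv3 a (fun z => φ (‖z - p‖ ^ 2)) y = φ1 (‖y - p‖ ^ 2) * (2 * (y a - p a)) := by
    intro y hy a
    have e : HasFDerivAt (fun z : Space => φ (‖z - p‖ ^ 2))
        (φ1 (‖y - p‖ ^ 2) • (2 • innerSL ℝ (y - p))) y := (h1 _ hy).comp_hasFDerivAt y (hsq y)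
    rw [deriv3, e.fderiv]
    simp [hin]
  have hnh : ∀ᶠ y in 𝓝 x, ‖y - p‖ ^ 2 ∈ S :=
    (((continuous_id.sub continuous_const).norm.pow 2).continuousAt.preimage_mem_nhds
      (hS.mem_nhds hx))
  have hdd : ∀ a, deriv3 a (deriv3 a fun z => φ (‖z - p‖ ^ 2)) x =
      φ2 (‖x - p‖ ^ 2) * (2 * (x a - p a)) * (2 * (x a - p a)) + φ1 (‖x - p‖ ^ 2) * 2 := by
    intro a
    have he : deriv3 a (fun z => φ (‖z - p‖ ^ 2)) =ᶠ[𝓝 x]
        fun y => φ1 (‖y - p‖ ^ 2) * (2 * (y a - p a)) := hnh.mono fun y hy => hd y hy a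
    have hc : HasFDerivAt (fun y : Space => 2 * (y a - p a))
        ((2 : ℝ) • (EuclideanSpace.proj a : Space →L[ℝ] ℝ)) x :=
      ((EuclideanSpace.proj a : Space →L[ℝ] ℝ).hasFDerivAt.sub_const (p a)).const_mul 2
    have e : HasFDerivAt (fun y : Space => φ1 (‖y - p‖ ^ 2) * (2 * (y a - p a)))
        (φ1 (‖x - p‖ ^ 2) • ((2 : ℝ) • (EuclideanSpace.proj a : Space →L[ℝ] ℝ)) +
          (2 * (x a - p a)) • (φ2 (‖x - p‖ ^ 2) • (2 • innerSL ℝ (x - p)))) x :=
      ((h2 _ hx).comp_hasFDerivAt x (hsq x)).mul hc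
    rw [show deriv3 a (deriv3 a fun z => φ (‖z - p‖ ^ 2)) x =
        fderiv ℝ (deriv3 a fun z => φ (‖z - p‖ ^ 2)) x (unit3 a) from rfl, he.fderiv_eq,
      e.fderiv]
    simp [hin]
    simp [unit3]
    ring
  have hn : ‖x - p‖ ^ 2 = ∑ a : Fin 3, (x a - p a) ^ 2 := by
    simp [EuclideanSpace.norm_sq_eq, sq_abs]
  simp only [lap, hdd]
  rw [hn]
  simp only [Fin.sum_univ_three]
  ring

lemma lap_normSq (p x : Space) : lap (fun y => ‖y - p‖ ^ 2) x = 6 := by
  rw [lap_radial p (φ := fun t => t) (φ1 := fun _ => 1) (φ2 := fun _ => 0) isOpen_univ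
    (fun t _ => hasDerivAt_id t) (fun t _ => hasDerivAt_const t 1) (Set.mem_univ _)]
  ring

/-- The second derivative test. -/
lemma lap_nonpos_of_isLocalMax {x₀ : Space} (hU : IsOpen U) (hx : x₀ ∈ U)
    (hg : ContDiffOn ℝ 2 g U) (hm : IsLocalMax g x₀) : lap g x₀ ≤ 0 := by
  refine Finset.sum_nonpos fun a _ => ?_
  by_contra hpos
  rw [not_le] at hpos
  set u : ℝ → ℝ := fun t => g (x₀ + t • unit3 a)
  have hline : ∀ t : ℝ, HasDerivAt (fun t : ℝ => x₀ + t • unit3 a) (unit3 a) t := fun t => by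
    simpa using ((hasDerivAt_id t).smul_const (unit3 a)).const_add x₀
  have hnh : ∀ᶠ t : ℝ in 𝓝 0, x₀ + t • unit3 a ∈ U :=
    (hline 0).continuousAt.preimage_mem_nhds (hU.mem_nhds (by simpa using hx))
  have hd1 : deriv u =ᶠ[𝓝 0] fun t => deriv3 a g (x₀ + t • unit3 a) := by
    filter_upwards [hnh] with t ht
    exact (((hg.contDiffAt (hU.mem_nhds ht)).differentiableAt two_ne_zero).hasFDerivAt.comp_hasDerivAt
      t (hline t)).deriv
  have hdd : deriv (deriv u) 0 = deriv3 a (deriv3 a g) x₀ := by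
    rw [hd1.deriv_eq]
    have h1 : DifferentiableAt ℝ (deriv3 a g) (x₀ + (0 : ℝ) • unit3 a) := by
      simpa using ((contDiffOn_deriv3 a hU (m := 1) hg (by norm_num)).contDiffAt
        (hU.mem_nhds hx)).differentiableAt one_ne_zero
    have e : HasDerivAt (fun t : ℝ => deriv3 a g (x₀ + t • unit3 a))
        (fderiv ℝ (deriv3 a g) (x₀ + (0 : ℝ) • unit3 a) (unit3 a)) 0 :=
      (h1.hasFDerivAt).comp_hasDerivAt (f := fun t : ℝ => x₀ + t • unit3 a) 0 (hline 0)
    rw [e.deriv]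
    simp [deriv3]
  have hcont : ContinuousAt u 0 :=
    ContinuousAt.comp (by simpa using (hg.continuousOn.continuousAt (hU.mem_nhds hx)))
      (hline 0).continuousAt
  have hmax : IsLocalMax u 0 :=
    IsLocalMax.comp_continuous (b := (0 : ℝ)) (g := fun t : ℝ => x₀ + t • unit3 a)
      (by simpa using hm) (hline 0).continuousAt
  have hmin := isLocalMin_of_deriv_deriv_pos (hdd ▸ hpos) hmax.deriv_eq_zero hcont
  have hconst : u =ᶠ[𝓝 0] fun _ => u 0 := by
    filter_upwards [hmax, hmin] with t h1 h2 using le_antisymm h1 h2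
  have : deriv (deriv u) 0 = 0 := by
    rw [(hconst.deriv.trans (Eventually.of_forall fun t => deriv_const t (u 0))).deriv_eq]
    exact deriv_const _ _
  linarith [hdd ▸ this]

/-- The convolution of `F` with `ρ`. -/
def conv3 (ρ F : Space → ℝ) (x : Space) : ℝ := ∫ y, F y * ρ (x - y)

lemma conv3_eq (ρ F : Space → ℝ) :
    conv3 ρ F = F ⋆[ContinuousLinearMap.mul ℝ ℝ, volume] ρ := by
  funext x
  simp [conv3, convolution_def]

lemma contDiff_conv3 {ρ F : Space → ℝ} {n : ℕ∞} (hρ : ContDiff ℝ n ρ) (hc : HasCompactSupport ρ)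
    (hF : LocallyIntegrable F) : ContDiff ℝ n (conv3 ρ F) := by
  rw [conv3_eq]
  exact hc.contDiff_convolution_right _ hF hρ

lemma deriv3_conv3 (a : Fin 3) {ρ F : Space → ℝ} (hρ : ContDiff ℝ 1 ρ) (hc : HasCompactSupport ρ)
    (hF : LocallyIntegrable F) (x : Space) :
    deriv3 a (conv3 ρ F) x = conv3 (deriv3 a ρ) F x := by
  rw [deriv3, conv3_eq, (hc.hasFDerivAt_convolution_right _ hF hρ x).fderiv,
    convolution_precompR_apply (ContinuousLinearMap.mul ℝ ℝ) hF (hc.fderiv ℝ)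
      (hρ.continuous_fderiv one_ne_zero) x (unit3 a), conv3_eq]
  rfl

lemma integrable_conv3 {ρ F : Space → ℝ} (hρ : Continuous ρ) (hc : HasCompactSupport ρ)
    (hF : LocallyIntegrable F) (x : Space) : Integrable fun y => F y * ρ (x - y) := by
  exact hc.convolutionExists_right (ContinuousLinearMap.mul ℝ ℝ) hF hρ x

lemma lap_conv3 {ρ F : Space → ℝ} (hρ : ContDiff ℝ 2 ρ) (hc : HasCompactSupport ρ)
    (hF : LocallyIntegrable F) (x : Space) : lap (conv3 ρ F) x = conv3 (lap ρ) F x := by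
  have h1 := hρ.of_le (show (1 : WithTop ℕ∞) ≤ 2 by norm_num)
  have hd : ∀ a, deriv3 a (conv3 ρ F) = conv3 (deriv3 a ρ) F := fun a =>
    funext fun y => deriv3_conv3 a h1 hc hF y
  simp only [lap, hd]
  simp only [deriv3_conv3 _ (contDiff_deriv3 _ (m := 1) hρ (by norm_num))
    (hasCompactSupport_deriv3 _ hc) hF, conv3, lap, Finset.mul_sum]
  rw [integral_finsetSum]
  exact fun a _ => integrable_conv3 (contDiff_deriv3 a (m := 0)
    (contDiff_deriv3 a (m := 1) hρ (by norm_num)) (by norm_num)).continuous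
    (hasCompactSupport_deriv3 a (hasCompactSupport_deriv3 a hc)) hF x

lemma deriv3_comp_sub (a : Fin 3) {f : Space → ℝ} (hf : Differentiable ℝ f) (x y : Space) :
    deriv3 a (fun z => f (x - z)) y = -deriv3 a f (x - y) := by
  have h : HasFDerivAt (fun z => f (x - z))
      ((fderiv ℝ f (x - y)).comp (-ContinuousLinearMap.id ℝ Space)) y :=
    (hf (x - y)).hasFDerivAt.comp y ((hasFDerivAt_id y).const_sub x)
  rw [deriv3, h.fderiv]
  simp [deriv3]

lemma lap_comp_sub {f : Space → ℝ} (hf : ContDiff ℝ 2 f) (x y : Space) :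
    lap (fun z => f (x - z)) y = lap f (x - y) := by
  refine Finset.sum_congr rfl fun a _ => ?_
  have h1 : deriv3 a (fun z => f (x - z)) = fun z => -deriv3 a f (x - z) :=
    funext fun z => deriv3_comp_sub a (hf.differentiable two_ne_zero) x z
  have hd : Differentiable ℝ fun z => -deriv3 a f z :=
    ((contDiff_deriv3 a (m := 1) hf (by norm_num)).differentiable one_ne_zero).neg
  rw [h1, deriv3_comp_sub a (f := fun z => -deriv3 a f z) hd x y]
  simp only [deriv3_eq, fderiv_fun_neg, neg_apply, neg_neg]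

/-- The translated kernel is a test function in a set containing the ball around `x`. -/
lemma isBump_comp_sub {ρ : Space → ℝ} {δ : ℝ} (hρ : ContDiff ℝ ((⊤ : ℕ∞) : WithTop ℕ∞) ρ)
    (hs : tsupport ρ ⊆ closedBall 0 δ) {x : Space} (hx : closedBall x δ ⊆ U) :
    IsBump U fun y => ρ (x - y) := by
  have hsupp : tsupport (fun y => ρ (x - y)) ⊆ closedBall x δ := by
    refine closure_minimal (fun y hy => ?_) isClosed_closedBall
    have := hs (subset_tsupport ρ hy)
    rw [mem_closedBall, dist_zero_right] at this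
    rwa [mem_closedBall, dist_eq_norm, norm_sub_rev]
  exact ⟨hρ.comp (contDiff_const.sub contDiff_id),
    (isCompact_closedBall x δ).of_isClosed_subset (isClosed_tsupport _) hsupp, hsupp.trans hx⟩

/-- The normalised bump of radius `δ`. -/
def mol (δ : ℝ) (hδ : 0 < δ) : ContDiffBump (0 : Space) :=
  ⟨δ / 2, δ, half_pos hδ, half_lt_self hδ⟩

/-- The mollifier. -/
def molFun (δ : ℝ) (hδ : 0 < δ) : Space → ℝ := (mol δ hδ).normed volume

lemma molFun_smooth {δ : ℝ} (hδ : 0 < δ) :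
    ContDiff ℝ ((⊤ : ℕ∞) : WithTop ℕ∞) (molFun δ hδ) :=
  (mol δ hδ).contDiff_normed

lemma molFun_nonneg {δ : ℝ} (hδ : 0 < δ) (x : Space) : 0 ≤ molFun δ hδ x :=
  (mol δ hδ).nonneg_normed x

lemma molFun_tsupport {δ : ℝ} (hδ : 0 < δ) : tsupport (molFun δ hδ) ⊆ closedBall 0 δ :=
  ((mol δ hδ).tsupport_normed_eq).subset

lemma integral_molFun {δ : ℝ} (hδ : 0 < δ) (x : Space) : ∫ y, molFun δ hδ (x - y) = 1 :=
  (integral_sub_left_eq_self (molFun δ hδ) volume x).trans (mol δ hδ).integral_normed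

lemma tendsto_conv3_mol {F : Space → ℝ} (hF : LocallyIntegrable F) {δ : ℕ → ℝ}
    (hδ : ∀ n, 0 < δ n) (h0 : Tendsto δ atTop (𝓝 0)) :
    ∀ᵐ x, Tendsto (fun n => conv3 (molFun (δ n) (hδ n)) F x) atTop (𝓝 (F x)) := by
  have h := ContDiffBump.ae_convolution_tendsto_right_of_locallyIntegrable (μ := volume)
    (φ := fun n => mol (δ n) (hδ n)) (l := atTop) (K := 2) h0
    (Eventually.of_forall fun n => by simp [mol]; linarith [hδ n]) hF
  filter_upwards [h] with x hx
  refine hx.congr fun n => ?_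
  rw [conv3, convolution_def, ← integral_sub_left_eq_self _ volume x]
  simp [molFun, mul_comm]

end Vale.Agent.P363
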