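import Vale.Agent.P363.Tool.YukKernel
import Vale.Agent.P363.Tool.Test

/-!
P363: potentials of the kernel of `k² - Δ`: bounds, Fubini and derivatives.
-/

noncomputable section

namespace Vale.Agent.P363.Yuk

open MeasureTheory Filter Metric
open scoped BigOperators Topology ENNReal

/-- The potential of `q`. -/
def pot (k : ℝ) (q : Space → ℝ) (x : Space) : ℝ := ∫ y, yuk k (x - y) * q y

lemma pot_eq_conv3 (k : ℝ) (φ : Space → ℝ) : pot k φ = conv3 φ (yuk k) := by
  funext x
  rw [pot, conv3, ← integral_sub_left_eq_self (fun y => yuk k (x - y) * φ y) volume x]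
  simp only [sub_sub_cancel]

/-- A bound, uniform in `x`, of the integral of `|x - y|^(-s)` over a set. -/
lemma setIntegral_rpow_le {s : ℝ} (hs0 : 0 ≤ s) (hs : s < 3) :
    ∃ A, 0 ≤ A ∧ ∀ (x : Space) (S : Set Space), MeasurableSet S → volume S < ∞ →
      IntegrableOn (fun y => ‖x - y‖ ^ (-s)) S ∧
        ∫ y in S, ‖x - y‖ ^ (-s) ≤ A + volume.real S := by
  set F : Space → ℝ := (closedBall (0 : Space) 1).indicator fun z => ‖z‖ ^ (-s) with hF
  have hFi : Integrable F := by
    refine (integrable_indicator_iff measurableSet_closedBall).2 ?_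
    have := integrableOn_rpow_ball hs (0 : Space) 1
    simpa using this
  have hF0 : ∀ z, 0 ≤ F z :=
    Set.indicator_nonneg fun z _ => Real.rpow_nonneg (norm_nonneg _) _
  refine ⟨∫ z, F z, integral_nonneg hF0, fun x S hS hfin => ?_⟩
  have hpt : ∀ z : Space, ‖z‖ ^ (-s) ≤ F z + 1 := fun z => by
    by_cases hz : z ∈ closedBall (0 : Space) 1
    · rw [hF, Set.indicator_of_mem hz]; linarith
    · rw [hF, Set.indicator_of_notMem hz, zero_add]
      simp only [mem_closedBall, dist_zero_right, not_le] at hz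
      exact Real.rpow_le_one_of_one_le_of_nonpos hz.le (neg_nonpos.2 hs0)
  have hFx : IntegrableOn (fun y => F (x - y)) S := (hFi.comp_sub_left x).integrableOn
  have hb : IntegrableOn (fun y => F (x - y) + 1) S := hFx.add (integrableOn_const hfin.ne)
  have hi : IntegrableOn (fun y => ‖x - y‖ ^ (-s)) S := by
    refine hb.mono' (((measurable_const.sub measurable_id).norm.pow_const (-s)).aestronglyMeasurable)
      (ae_of_all _ fun y => ?_)
    rw [Real.norm_eq_abs, abs_of_nonneg (Real.rpow_nonneg (norm_nonneg _) _)]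
    exact hpt _
  refine ⟨hi, (setIntegral_mono hi hb fun y => hpt (x - y)).trans ?_⟩
  rw [integral_add hFx (integrableOn_const hfin.ne), setIntegral_const, smul_eq_mul, mul_one]
  gcongr
  exact (setIntegral_le_integral (hFi.comp_sub_left x) (ae_of_all _ fun y => hF0 _)).trans_eq
    (integral_sub_left_eq_self F volume x)

lemma norm_le_add_norm_sub (x y : Space) : ‖x‖ ≤ ‖x - y‖ + ‖y‖ := norm_le_norm_sub_add x y

lemma ker_bound {k : ℝ} (hk : 0 ≤ k) (R : ℝ) :
    ∃ C, 0 ≤ C ∧ ∀ x : Space, IntegrableOn (fun y => yuk k (x - y)) (closedBall 0 R) ∧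
      ∫ y in closedBall (0 : Space) R, yuk k (x - y) ≤ C * Real.exp (-(k * ‖x‖)) := by
  obtain ⟨A, hA, h⟩ := setIntegral_rpow_le zero_le_one (by norm_num : (1 : ℝ) < 3)
  refine ⟨Real.exp (k * R) * (A + volume.real (closedBall (0 : Space) R)), by positivity,
    fun x => ?_⟩
  obtain ⟨hi, hle⟩ := h x (closedBall 0 R) measurableSet_closedBall measure_closedBall_lt_top
  have hpt : ∀ y ∈ closedBall (0 : Space) R, yuk k (x - y) ≤
      Real.exp (k * R) * Real.exp (-(k * ‖x‖)) * ‖x - y‖ ^ (-(1 : ℝ)) := by
    intro y hy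
    rw [mem_closedBall, dist_zero_right] at hy
    refine (yuk_le k _).trans ?_
    rw [Real.rpow_neg_one, mul_comm _ (‖x - y‖⁻¹), ← Real.exp_add]
    refine mul_le_mul_of_nonneg_left (Real.exp_le_exp.2 ?_) (inv_nonneg.2 (norm_nonneg _))
    nlinarith [norm_le_add_norm_sub x y]
  have hm : Measurable fun y => yuk k (x - y) :=
    (measurable_yuk k).comp (measurable_const.sub measurable_id)
  have hint : IntegrableOn (fun y => yuk k (x - y)) (closedBall 0 R) := by
    refine (hi.const_mul (Real.exp (k * R) * Real.exp (-(k * ‖x‖)))).mono' hm.aestronglyMeasurable ?_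
    filter_upwards [ae_restrict_mem measurableSet_closedBall] with y hy
    rw [Real.norm_eq_abs, abs_of_nonneg (yuk_nonneg k _)]
    exact hpt y hy
  refine ⟨hint, (setIntegral_mono_on hint (hi.const_mul _) measurableSet_closedBall hpt).trans ?_⟩
  rw [integral_const_mul]
  refine (mul_le_mul_of_nonneg_left hle (by positivity)).trans (le_of_eq ?_)
  ring

/-- The potential of a bounded function with compact support decays like the kernel. -/
lemma pot_decay {k : ℝ} (hk : 0 ≤ k) {φ : Space → ℝ} (hφ : Continuous φ)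
    (hc : HasCompactSupport φ) : ∃ C, ∀ x, |pot k φ x| ≤ C * Real.exp (-(k * ‖x‖)) := by
  obtain ⟨M, hM⟩ := hφ.bounded_above_of_compact_support hc
  obtain ⟨R, hR⟩ := hc.isCompact.isBounded.subset_closedBall (0 : Space)
  obtain ⟨C, hC0, hC⟩ := ker_bound hk R
  refine ⟨C * M, fun x => ?_⟩
  obtain ⟨hi, hle⟩ := hC x
  have h0 : ∀ y, y ∉ closedBall (0 : Space) R → yuk k (x - y) * φ y = 0 := fun y hy => by
    rw [image_eq_zero_of_notMem_tsupport fun hm => hy (hR hm), mul_zero]
  have hM0 : 0 ≤ M := (norm_nonneg _).trans (hM 0)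
  rw [pot, ← setIntegral_eq_integral_of_forall_compl_eq_zero h0, ← Real.norm_eq_abs]
  refine (norm_integral_le_of_norm_le (hi.mul_const M) (ae_of_all _ fun y => ?_)).trans ?_
  · rw [norm_mul, Real.norm_eq_abs, abs_of_nonneg (yuk_nonneg k _)]
    exact mul_le_mul_of_nonneg_left (hM y) (yuk_nonneg k _)
  · rw [integral_mul_const]
    refine (mul_le_mul_of_nonneg_right hle hM0).trans (le_of_eq ?_)
    ring

lemma locallyIntegrable_yuk {k : ℝ} (hk : 0 ≤ k) : LocallyIntegrable (yuk k) := by
  rw [locallyIntegrable_iff]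
  intro K hK
  obtain ⟨R, hR⟩ := hK.isBounded.subset_closedBall (0 : Space)
  obtain ⟨C, -, hC⟩ := ker_bound hk R
  have := (hC 0).1
  simp only [zero_sub, yuk_neg] at this
  exact this.mono_set hR

lemma contDiff_pot {k : ℝ} (hk : 0 ≤ k) {φ : Space → ℝ} (h : IsBump Set.univ φ) :
    ContDiff ℝ ((⊤ : ℕ∞) : WithTop ℕ∞) (pot k φ) := by
  rw [pot_eq_conv3]
  exact contDiff_conv3 h.smooth h.compact (locallyIntegrable_yuk hk)

lemma deriv3_pot {k : ℝ} (hk : 0 ≤ k) {φ : Space → ℝ} (h : IsBump Set.univ φ) (a : Fin 3) :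
    deriv3 a (pot k φ) = pot k (deriv3 a φ) := by
  funext x
  rw [pot_eq_conv3, pot_eq_conv3]
  exact deriv3_conv3 a (h.contDiff 1) h.compact (locallyIntegrable_yuk hk) x

lemma lap_pot {k : ℝ} (hk : 0 ≤ k) {φ : Space → ℝ} (h : IsBump Set.univ φ) (x : Space) :
    lap (pot k φ) x = pot k (lap φ) x := by
  rw [pot_eq_conv3, pot_eq_conv3]
  exact lap_conv3 (h.contDiff 2) h.compact (locallyIntegrable_yuk hk) x

/-- Weighted integrability gives a locally integrable potential, and Fubini holds. -/
lemma pot_dual {k : ℝ} (hk : 0 ≤ k) {q : Space → ℝ}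
    (hq : Integrable fun x => Real.exp (-(k * ‖x‖)) * q x) :
    LocallyIntegrable (pot k q) ∧ ∀ φ : Space → ℝ, Continuous φ → HasCompactSupport φ →
      ∫ x, pot k q x * φ x = ∫ y, q y * pot k φ y := by
  have hqm : AEStronglyMeasurable q volume := by
    have hm := (Measurable.aestronglyMeasurable (μ := volume)
      (show Measurable fun x : Space => Real.exp (k * ‖x‖) by fun_prop)).mul hq.aestronglyMeasurable
    refine hm.congr (ae_of_all _ fun x => ?_)
    simp only [Pi.mul_apply]
    rw [← mul_assoc, ← Real.exp_add, add_neg_cancel, Real.exp_zero, one_mul]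
  have key : ∀ R : ℝ, Integrable (fun p : Space × Space => yuk k (p.1 - p.2) * q p.2)
      ((volume.restrict (closedBall (0 : Space) R)).prod volume) := by
    intro R
    obtain ⟨C, hC0, hC⟩ := ker_bound hk R
    have hm : AEStronglyMeasurable (fun p : Space × Space => yuk k (p.1 - p.2) * q p.2)
        ((volume.restrict (closedBall (0 : Space) R)).prod volume) :=
      ((measurable_yuk k).comp (measurable_fst.sub measurable_snd)).aestronglyMeasurable.mul
        hqm.comp_snd
    have hsym : ∀ x y : Space, yuk k (x - y) = yuk k (y - x) := fun x y => by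
      rw [← yuk_neg k (x - y), neg_sub]
    refine (integrable_prod_iff' hm).2 ⟨ae_of_all _ fun y => ?_, ?_⟩
    · simp only [hsym _ y]
      exact (hC y).1.mul_const _
    · refine (hq.norm.const_mul C).mono' hm.norm.prod_swap.integral_prod_right' (ae_of_all _ fun y => ?_)
      rw [Real.norm_eq_abs, abs_of_nonneg (integral_nonneg fun _ => norm_nonneg _)]
      simp only [norm_mul, Real.norm_eq_abs, abs_of_nonneg (yuk_nonneg k _), integral_mul_const,
        hsym _ y, abs_of_nonneg (Real.exp_pos _).le]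
      rw [← mul_assoc]
      exact mul_le_mul_of_nonneg_right (hC y).2 (abs_nonneg _)
  refine ⟨?_, fun φ hφ hc => ?_⟩
  · rw [locallyIntegrable_iff]
    intro K hK
    obtain ⟨R, hR⟩ := hK.isBounded.subset_closedBall (0 : Space)
    have hI : IntegrableOn (pot k q) (closedBall 0 R) volume := (key R).integral_prod_left
    exact hI.mono_set hR
  obtain ⟨M, hM⟩ := hφ.bounded_above_of_compact_support hc
  obtain ⟨R, hR⟩ := hc.isCompact.isBounded.subset_closedBall (0 : Space)
  have hz : ∀ x, x ∉ closedBall (0 : Space) R → φ x = 0 := fun x hx =>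
    image_eq_zero_of_notMem_tsupport fun hm => hx (hR hm)
  have h2 : Integrable (fun p : Space × Space => yuk k (p.1 - p.2) * q p.2 * φ p.1)
      ((volume.restrict (closedBall (0 : Space) R)).prod volume) :=
    (key R).mul_bdd (c := M) (hφ.measurable.comp measurable_fst).aestronglyMeasurable
      (ae_of_all _ fun p => hM _)
  rw [← setIntegral_eq_integral_of_forall_compl_eq_zero (s := closedBall (0 : Space) R)
    fun x hx => by rw [hz x hx, mul_zero]]
  simp only [pot, ← integral_mul_const]
  rw [integral_integral_swap h2]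
  refine integral_congr_ae (ae_of_all _ fun y => ?_)
  dsimp only
  rw [setIntegral_eq_integral_of_forall_compl_eq_zero fun x hx => by rw [hz x hx, mul_zero],
    ← integral_const_mul]
  refine integral_congr_ae (ae_of_all _ fun x => ?_)
  dsimp only
  rw [← yuk_neg k (x - y), neg_sub]
  ring

end Vale.Agent.P363.Yuk
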