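import Vale.Agent.P363.Tool.YukPot
import Vale.Agent.P363.Tool.YukTest
import Vale.Agent.P363.Tool.Weak.Poisson

/-!
P363: weak solutions and subsolutions of `Δ f = h` on all of space and their potentials.
-/

noncomputable section

namespace Vale.Agent.P363.Yuk

open MeasureTheory Filter Metric
open scoped BigOperators Topology ENNReal

lemma deriv3_prod {f g : Space → ℝ} {x : Space} (hf : DifferentiableAt ℝ f x)
    (hg : DifferentiableAt ℝ g x) (a : Fin 3) :
    deriv3 a (fun y => f y * g y) x = deriv3 a f x * g x + f x * deriv3 a g x := by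
  simp only [deriv3, fderiv_fun_mul hf hg]
  simp; ring

lemma lap_prod {f g : Space → ℝ} (hf : ContDiff ℝ 2 f) (hg : ContDiff ℝ 2 g) (x : Space) :
    lap (fun y => f y * g y) x =
      lap f x * g x + 2 * (∑ a, deriv3 a f x * deriv3 a g x) + f x * lap g x := by
  have hd : ∀ {u : Space → ℝ}, ContDiff ℝ 2 u → ∀ a, Differentiable ℝ (deriv3 a u) := fun hu a =>
    (contDiff_deriv3 a (m := 1) hu (by norm_num)).differentiable one_ne_zero
  have h1 := hf.differentiable two_ne_zero
  have h2 := hg.differentiable two_ne_zero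
  have e : ∀ a, deriv3 a (fun y => f y * g y) =
      fun y => deriv3 a f y * g y + f y * deriv3 a g y :=
    fun a => funext fun y => deriv3_prod (h1 y) (h2 y) a
  have e2 : ∀ a, deriv3 a (deriv3 a fun y => f y * g y) x =
      deriv3 a (deriv3 a f) x * g x + deriv3 a f x * deriv3 a g x +
        (deriv3 a f x * deriv3 a g x + f x * deriv3 a (deriv3 a g) x) := by
    intro a
    rw [e a, ← deriv3_prod (hd hf a x) (h2 x), ← deriv3_prod (h1 x) (hd hg a x)]
    show fderiv ℝ (fun y => deriv3 a f y * g y + f y * deriv3 a g y) x (unit3 a) =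
      fderiv ℝ (fun y => deriv3 a f y * g y) x (unit3 a) +
        fderiv ℝ (fun y => f y * deriv3 a g y) x (unit3 a)
    rw [fderiv_fun_add ((hd hf a x).fun_mul (h2 x)) ((h1 x).fun_mul (hd hg a x))]
    rfl
  simp only [lap, e2, Finset.sum_add_distrib, ← Finset.sum_mul, ← Finset.mul_sum]
  ring

lemma deriv3_comp_smul {b : Space → ℝ} (hb : Differentiable ℝ b) (c : ℝ) (a : Fin 3) :
    deriv3 a (fun y => b (c • y)) = fun y => c * deriv3 a b (c • y) := by
  funext y
  have h : HasFDerivAt (fun z => b (c • z))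
      ((fderiv ℝ b (c • y)).comp (c • ContinuousLinearMap.id ℝ Space)) y :=
    (hb _).hasFDerivAt.comp y ((hasFDerivAt_id y).const_smul c)
  rw [deriv3, h.fderiv]
  simp [deriv3]

/-- The fixed cutoff. -/
def cut : ContDiffBump (0 : Space) := ⟨1, 2, one_pos, one_lt_two⟩

lemma contDiff_cut : ContDiff ℝ ((⊤ : ℕ∞) : WithTop ℕ∞) (cut : Space → ℝ) := cut.contDiff

lemma deriv3_cut_zero {z : Space} (hz : ‖z‖ < 1) (a : Fin 3) :
    deriv3 a (cut : Space → ℝ) z = 0 ∧ deriv3 a (deriv3 a (cut : Space → ℝ)) z = 0 := by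
  have hz' : z ∈ ball (0 : Space) 1 := by simpa using hz
  have h1 : ∀ w ∈ ball (0 : Space) 1, deriv3 a (cut : Space → ℝ) w = 0 := by
    intro w hw
    have e : (cut : Space → ℝ) =ᶠ[𝓝 w] fun _ => (1 : ℝ) := by
      filter_upwards [isOpen_ball.mem_nhds hw] with u hu
      exact cut.one_of_mem_closedBall (ball_subset_closedBall hu)
    rw [deriv3, e.fderiv_eq]
    simp
  refine ⟨h1 z hz', ?_⟩
  have e : deriv3 a (cut : Space → ℝ) =ᶠ[𝓝 z] fun _ => (0 : ℝ) := by
    filter_upwards [isOpen_ball.mem_nhds hz'] with u hu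
    exact h1 u hu
  rw [deriv3, e.fderiv_eq]
  simp

/-- Test functions tending to a function with decay. -/
lemma exists_cut_seq {k : ℝ} {ψ : Space → ℝ} (hψ : ContDiff ℝ ((⊤ : ℕ∞) : WithTop ℕ∞) ψ)
    {C : ℝ} (hb : ∀ x, |ψ x| ≤ C * Real.exp (-(k * ‖x‖)))
    (hb1 : ∀ x a, |deriv3 a ψ x| ≤ C * Real.exp (-(k * ‖x‖)))
    (hb2 : ∀ x, |lap ψ x| ≤ C * Real.exp (-(k * ‖x‖))) (h0 : ∀ x, 0 ≤ ψ x) :
    ∃ (η : ℕ → Space → ℝ) (D : ℝ), (∀ n, IsBump Set.univ (η n) ∧ ∀ x, 0 ≤ η n x) ∧
      (∀ n x, |η n x| ≤ D * Real.exp (-(k * ‖x‖)) ∧ |lap (η n) x| ≤ D * Real.exp (-(k * ‖x‖))) ∧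
      ∀ x, (∀ᶠ n in atTop, η n x = ψ x) ∧ ∀ᶠ n in atTop, lap (η n) x = lap ψ x := by
  set c : ℕ → ℝ := fun n => 1 / (n + 1) with hc
  have hcp : ∀ n, 0 < c n ∧ c n ≤ 1 := fun n => by
    refine ⟨by positivity, ?_⟩
    rw [hc]
    simp only
    rw [div_le_one (by positivity)]
    linarith [(n.cast_nonneg : (0 : ℝ) ≤ n)]
  have hb0 := contDiff_cut.differentiable (by simp)
  have hb1' : ∀ a, ContDiff ℝ ((⊤ : ℕ∞) : WithTop ℕ∞) (deriv3 a (cut : Space → ℝ)) := fun a =>
    contDiff_deriv3 a contDiff_cut le_rfl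
  have hsc : ∀ a, HasCompactSupport (deriv3 a (cut : Space → ℝ)) := fun a =>
    hasCompactSupport_deriv3 a cut.hasCompactSupport
  choose B1 hB1 using fun a => (hb1' a).continuous.bounded_above_of_compact_support (hsc a)
  choose B2 hB2 using fun a => (contDiff_deriv3 a (hb1' a) (m := ((⊤ : ℕ∞) : WithTop ℕ∞))
    le_rfl).continuous.bounded_above_of_compact_support (hasCompactSupport_deriv3 a (hsc a))
  have hC : 0 ≤ C := nonneg_of_mul_nonneg_left ((abs_nonneg _).trans (hb 0)) (Real.exp_pos _)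
  set η : ℕ → Space → ℝ := fun n x => cut (c n • x) * ψ x with hη
  have hl : ∀ n, lap (η n) = fun x =>
      (∑ a, c n ^ 2 * deriv3 a (deriv3 a (cut : Space → ℝ)) (c n • x)) * ψ x +
        2 * (∑ a, c n * deriv3 a (cut : Space → ℝ) (c n • x) * deriv3 a ψ x) +
          cut (c n • x) * lap ψ x := by
    intro n
    funext x
    have hs : ContDiff ℝ 2 fun y : Space => cut (c n • y) :=
      (cut.contDiff).comp (contDiff_const_smul _)
    rw [hη, lap_prod hs (hψ.of_le (WithTop.coe_le_coe.2 le_top : ((2 : ℕ) : WithTop ℕ∞) ≤ _)) x]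
    simp only [lap, deriv3_comp_smul hb0]
    congr 2
    congr 1
    refine Finset.sum_congr rfl fun a _ => ?_
    have hd : Differentiable ℝ (deriv3 a (cut : Space → ℝ)) := (hb1' a).differentiable (by simp)
    have hdd : DifferentiableAt ℝ (fun y => deriv3 a (cut : Space → ℝ) (c n • y)) x :=
      (hd _).comp x ((contDiff_const_smul (c n) : ContDiff ℝ 1 fun z : Space => c n • z).differentiable
        one_ne_zero x)
    rw [sq, mul_assoc, ← congrFun (deriv3_comp_smul hd (c n) a) x]
    show fderiv ℝ (fun y => c n * deriv3 a (cut : Space → ℝ) (c n • y)) x (unit3 a) =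
      c n * fderiv ℝ (fun y => deriv3 a (cut : Space → ℝ) (c n • y)) x (unit3 a)
    rw [fderiv_const_mul hdd]
    rfl
  set K := (∑ a, B2 a) + 2 * (∑ a, B1 a) + 1 with hK
  have hB1n : ∀ a, 0 ≤ B1 a := fun a => (norm_nonneg _).trans (hB1 a 0)
  have hB2n : ∀ a, 0 ≤ B2 a := fun a => (norm_nonneg _).trans (hB2 a 0)
  have hKp : 0 ≤ ∑ a, B1 a := Finset.sum_nonneg fun a _ => hB1n a
  have hKq : 0 ≤ ∑ a, B2 a := Finset.sum_nonneg fun a _ => hB2n a
  refine ⟨η, K * C, fun n => ⟨⟨?_, ?_, Set.subset_univ _⟩, fun x =>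
    mul_nonneg cut.nonneg (h0 x)⟩, fun n x => ?_, fun x => ?_⟩
  · exact (contDiff_cut.comp (contDiff_const_smul _)).mul hψ
  · exact (cut.hasCompactSupport.comp_homeomorph
      (Homeomorph.smulOfNeZero (c n) (hcp n).1.ne')).mul_right
  · have hcut : |cut (c n • x)| ≤ 1 := abs_le.2 ⟨by linarith [cut.nonneg (x := c n • x)], cut.le_one⟩
    have hE : 0 ≤ C * Real.exp (-(k * ‖x‖)) := mul_nonneg hC (Real.exp_pos _).le
    constructor
    · rw [hη, abs_mul]
      refine (mul_le_mul hcut (hb x) (abs_nonneg _) zero_le_one).trans ?_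
      rw [mul_assoc]
      exact mul_le_mul_of_nonneg_right (by linarith) hE
    rw [hl n]
    refine (abs_add_le _ _).trans ((add_le_add (abs_add_le _ _) le_rfl).trans ?_)
    rw [abs_mul, abs_mul, abs_mul, abs_two]
    have a1 : |∑ a, c n ^ 2 * deriv3 a (deriv3 a (cut : Space → ℝ)) (c n • x)| ≤ ∑ a, B2 a := by
      refine (Finset.abs_sum_le_sum_abs _ _).trans (Finset.sum_le_sum fun a _ => ?_)
      rw [abs_mul, abs_of_nonneg (sq_nonneg (c n))]
      exact (mul_le_of_le_one_left (abs_nonneg _) (pow_le_one₀ (hcp n).1.le (hcp n).2)).trans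
        (hB2 a _)
    have a2 : |∑ a, c n * deriv3 a (cut : Space → ℝ) (c n • x) * deriv3 a ψ x| ≤
        (∑ a, B1 a) * (C * Real.exp (-(k * ‖x‖))) := by
      rw [Finset.sum_mul]
      refine (Finset.abs_sum_le_sum_abs _ _).trans (Finset.sum_le_sum fun a _ => ?_)
      rw [abs_mul, abs_mul, abs_of_pos (hcp n).1]
      exact mul_le_mul ((mul_le_of_le_one_left (abs_nonneg _) (hcp n).2).trans (hB1 a _)) (hb1 x a)
        (abs_nonneg _) (hB1n a)
    have p1 := mul_le_mul a1 (hb x) (abs_nonneg _) hKq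
    have p3 := mul_le_mul hcut (hb2 x) (abs_nonneg _) zero_le_one
    rw [hK]
    nlinarith
  · obtain ⟨N, hN⟩ := exists_nat_gt ‖x‖
    have hev : ∀ n, N ≤ n → ‖c n • x‖ < 1 := fun n hn => by
      rw [norm_smul, Real.norm_eq_abs, abs_of_pos (hcp n).1, hc]
      simp only
      rw [one_div, inv_mul_eq_div, div_lt_one (by positivity)]
      have : (N : ℝ) ≤ n := by exact_mod_cast hn
      linarith
    have e1 : ∀ n, N ≤ n → cut (c n • x) = 1 := fun n hn =>
      cut.one_of_mem_closedBall (by rw [mem_closedBall, dist_zero_right]; exact (hev n hn).le)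
    refine ⟨eventually_atTop.2 ⟨N, fun n hn => ?_⟩, eventually_atTop.2 ⟨N, fun n hn => ?_⟩⟩
    · simp [hη, e1 n hn]
    · rw [hl n]
      simp [(deriv3_cut_zero (hev n hn) _).1, (deriv3_cut_zero (hev n hn) _).2, e1 n hn]

/-- The weak subequation tested with the potential of a nonnegative test function. -/
lemma sub_dual {k : ℝ} (hk : 0 ≤ k) {f h : Space → ℝ} (he : WeakSubPoisson Set.univ f h)
    (hf : Integrable fun x => Real.exp (-(k * ‖x‖)) * f x)
    (hh : Integrable fun x => Real.exp (-(k * ‖x‖)) * h x) {φ : Space → ℝ}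
    (hφ : IsBump Set.univ φ) (h0 : ∀ x, 0 ≤ φ x) :
    ∫ x, f x * φ x ≤ ∫ x, (k ^ 2 * f x - h x) * pot k φ x := by
  set ψ := pot k φ with hψ
  have hψs : ContDiff ℝ ((⊤ : ℕ∞) : WithTop ℕ∞) ψ := contDiff_pot hk hφ
  obtain ⟨C0, hC0⟩ := pot_decay hk hφ.smooth.continuous hφ.compact
  choose C1 hC1 using fun a => pot_decay hk (isBump_deriv hφ a).smooth.continuous
    (isBump_deriv hφ a).compact
  obtain ⟨C2, hC2⟩ := pot_decay hk hφ.lap_continuous (Yuk.hasCompactSupport_lap hφ)
  set E : Space → ℝ := fun x => Real.exp (-(k * ‖x‖))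
  set C := |C0| + (∑ a, |C1 a|) + |C2| with hC
  have hE : ∀ x, 0 ≤ E x := fun x => (Real.exp_pos _).le
  have n1 : 0 ≤ ∑ a, |C1 a| := Finset.sum_nonneg fun a _ => abs_nonneg _
  have b0 : ∀ x, |ψ x| ≤ C * E x := fun x => (hC0 x).trans (mul_le_mul_of_nonneg_right
    (by rw [hC]; linarith [le_abs_self C0, abs_nonneg C2]) (hE x))
  have b1 : ∀ x a, |deriv3 a ψ x| ≤ C * E x := fun x a => by
    rw [hψ, deriv3_pot hk hφ a]
    refine (hC1 a x).trans (mul_le_mul_of_nonneg_right ?_ (hE x))
    rw [hC]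
    linarith [le_abs_self (C1 a), abs_nonneg C0, abs_nonneg C2,
      Finset.single_le_sum (f := fun a => |C1 a|) (fun a _ => abs_nonneg _) (Finset.mem_univ a)]
  have b2 : ∀ x, |lap ψ x| ≤ C * E x := fun x => by
    rw [hψ, lap_pot hk hφ]
    exact (hC2 x).trans (mul_le_mul_of_nonneg_right
      (by rw [hC]; linarith [le_abs_self C2, abs_nonneg C0]) (hE x))
  obtain ⟨η, D, hη, hbd, hlim⟩ := exists_cut_seq hψs b0 b1 b2 fun x =>
    integral_nonneg fun y => mul_nonneg (yuk_nonneg k _) (h0 y)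
  have meas : ∀ {u : Space → ℝ}, Integrable (fun x => E x * u x) →
      AEStronglyMeasurable u volume := by
    intro u hu
    refine ((Measurable.aestronglyMeasurable (μ := volume)
      (show Measurable fun x : Space => Real.exp (k * ‖x‖) by fun_prop)).mul
      hu.aestronglyMeasurable).congr (ae_of_all _ fun x => ?_)
    simp only [Pi.mul_apply, E]
    rw [← mul_assoc, ← Real.exp_add, add_neg_cancel, Real.exp_zero, one_mul]
  have dct : ∀ (u : Space → ℝ), Integrable (fun x => E x * u x) → ∀ (w : ℕ → Space → ℝ)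
      (w' : Space → ℝ), (∀ n, Continuous (w n)) → (∀ n x, |w n x| ≤ D * E x) →
      (∀ x, ∀ᶠ n in atTop, w n x = w' x) →
      Tendsto (fun n => ∫ x, u x * w n x) atTop (𝓝 (∫ x, u x * w' x)) := by
    intro u hu w w' hw hwb hwl
    refine tendsto_integral_of_dominated_convergence (fun x => D * |E x * u x|)
      (fun n => (meas hu).mul (hw n).aestronglyMeasurable) (hu.abs.const_mul D)
      (fun n => ae_of_all _ fun x => ?_) (ae_of_all _ fun x => ?_)
    · rw [norm_mul, Real.norm_eq_abs, Real.norm_eq_abs, abs_mul (E x), abs_of_nonneg (hE x)]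
      calc |u x| * |w n x| ≤ |u x| * (D * E x) :=
            mul_le_mul_of_nonneg_left (hwb n x) (abs_nonneg _)
        _ = D * (E x * |u x|) := by ring
    · exact (tendsto_const_nhds (x := w' x)).congr' ((hwl x).mono fun n hn => hn.symm) |>.const_mul _
  have t1 := dct h hh η ψ (fun n => (hη n).1.smooth.continuous) (fun n x => (hbd n x).1)
    fun x => (hlim x).1
  have t2 := dct f hf (fun n => lap (η n)) (lap ψ) (fun n => (hη n).1.lap_continuous)
    (fun n x => (hbd n x).2) fun x => (hlim x).2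
  have main : ∫ x, h x * ψ x ≤ ∫ x, f x * lap ψ x :=
    le_of_tendsto_of_tendsto' t1 t2 fun n => he.2.2 _ (hη n).1 (hη n).2
  have ib : ∀ (u : Space → ℝ), Integrable (fun x => E x * u x) → ∀ w : Space → ℝ, Continuous w →
      (∀ x, |w x| ≤ C * E x) → Integrable fun x => u x * w x := by
    intro u hu w hw hwb
    refine (hu.abs.const_mul C).mono' ((meas hu).mul hw.aestronglyMeasurable)
      (ae_of_all _ fun x => ?_)
    rw [norm_mul, Real.norm_eq_abs, Real.norm_eq_abs, abs_mul (E x), abs_of_nonneg (hE x)]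
    calc |u x| * |w x| ≤ |u x| * (C * E x) := mul_le_mul_of_nonneg_left (hwb x) (abs_nonneg _)
      _ = C * (E x * |u x|) := by ring
  have hψc : Continuous ψ := hψs.continuous
  have hlc : Continuous (lap ψ) := Vale.Agent.P363.continuous_lap
    (hψs.of_le (WithTop.coe_le_coe.2 le_top : ((2 : ℕ) : WithTop ℕ∞) ≤ _))
  have hid : ∀ x, k ^ 2 * ψ x - lap ψ x = φ x := by
    intro x
    rw [hψ, lap_pot hk hφ, pot, pot, ← integral_const_mul,
      ← integral_sub ?_ ?_, ← yukTest k hk φ hφ x]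
    · exact integral_congr_ae (ae_of_all _ fun y => by ring)
    · have := integrable_conv3 hφ.smooth.continuous hφ.compact (locallyIntegrable_yuk hk) x
      refine (this.comp_sub_left x).const_mul (k ^ 2) |>.congr (ae_of_all _ fun y => ?_)
      simp
    · have := integrable_conv3 hφ.lap_continuous (Yuk.hasCompactSupport_lap hφ)
        (locallyIntegrable_yuk hk) x
      simpa using this.comp_sub_left x
  have j1 := (ib f hf ψ hψc b0).const_mul (k ^ 2)
  have j2 := ib f hf (lap ψ) hlc b2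
  have j3 := ib h hh ψ hψc b0
  have el : ∫ x, f x * φ x = (∫ x, k ^ 2 * (f x * ψ x)) - ∫ x, f x * lap ψ x := by
    rw [← integral_sub j1 j2]
    exact integral_congr_ae (ae_of_all _ fun x => by simp only [← hid x]; ring)
  have er : ∫ x, (k ^ 2 * f x - h x) * ψ x = (∫ x, k ^ 2 * (f x * ψ x)) - ∫ x, h x * ψ x := by
    rw [← integral_sub j1 j3]
    exact integral_congr_ae (ae_of_all _ fun x => by ring)
  rw [el, er]
  linarith

/-- The two admissible growth conditions give weighted integrability. -/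
lemma weighted {k : ℝ} (hk : 0 ≤ k) {u : Space → ℝ} (hl : LocallyIntegrableOn u Set.univ)
    (hc : HasCompactSupport u) : Integrable fun x => Real.exp (-(k * ‖x‖)) * u x := by
  have hu : Integrable u :=
    (integrableOn_iff_integrable_of_support_subset (subset_tsupport u)).1
      (hl.integrableOn_compact_subset (Set.subset_univ _) hc)
  refine hu.bdd_mul (c := 1) (by fun_prop) (ae_of_all _ fun x => ?_)
  rw [Real.norm_eq_abs, abs_of_pos (Real.exp_pos _), Real.exp_le_one_iff, neg_nonpos]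
  positivity

theorem sub_of_weighted {k : ℝ} (hk : 0 ≤ k) {f h : Space → ℝ}
    (he : WeakSubPoisson Set.univ f h)
    (hf : Integrable fun x => Real.exp (-(k * ‖x‖)) * f x)
    (hh : Integrable fun x => Real.exp (-(k * ‖x‖)) * h x) :
    f ≤ᵐ[volume] pot k fun y => k ^ 2 * f y - h y := by
  have hq : Integrable fun x => Real.exp (-(k * ‖x‖)) * (k ^ 2 * f x - h x) := by
    refine ((hf.const_mul (k ^ 2)).sub hh).congr (ae_of_all _ fun x => ?_)
    simp only [Pi.sub_apply]; ring
  obtain ⟨hP, hdual⟩ := pot_dual hk hq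
  have hfl : LocallyIntegrable f := locallyIntegrableOn_univ.1 he.1
  set F : Space → ℝ := fun x => pot k (fun y => k ^ 2 * f y - h y) x - f x
  have hF : LocallyIntegrable F := hP.sub hfl
  have hpos : ∀ φ, IsBump Set.univ φ → (∀ x, 0 ≤ φ x) → 0 ≤ ∫ x, F x * φ x := by
    intro φ hφ h0
    have i1 := integrable_mul_of_tsupport (U := Set.univ) (locallyIntegrableOn_univ.2 hP) hφ.smooth.continuous
      hφ.compact (Set.subset_univ _)
    have i2 := integrable_mul_of_tsupport he.1 hφ.smooth.continuous hφ.compact (Set.subset_univ _)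
    simp only [F, sub_mul]
    rw [integral_sub i1 i2, hdual φ hφ.smooth.continuous hφ.compact]
    linarith [sub_dual hk he hf hh hφ h0]
  have hd : ∀ n : ℕ, (0 : ℝ) < 1 / (n + 1) := fun n => by positivity
  filter_upwards [tendsto_conv3_mol hF hd tendsto_one_div_add_atTop_nhds_zero_nat] with x hx
  have : 0 ≤ F x := ge_of_tendsto' hx fun n =>
    hpos _ (isBump_comp_sub (molFun_smooth (hd n)) (molFun_tsupport (hd n)) (Set.subset_univ _))
      fun y => molFun_nonneg (hd n) _
  simp only [F] at this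
  linarith

/-- Weak subsolutions are below their potentials. -/
theorem yukSub : YukSubStmt := by
  intro k f h hk he hg
  rcases hg with ⟨-, hf, hh⟩ | ⟨hf, hh⟩
  · exact sub_of_weighted hk he hf hh
  · exact sub_of_weighted hk he (weighted hk he.1 hf) (weighted hk he.2.1 hh)

/-- Weak solutions are potentials. -/
theorem yukRep : YukRepStmt := by
  intro k f h hk he hg
  have hs : WeakSubPoisson Set.univ f h := he.toSub
  have hs' : WeakSubPoisson Set.univ (fun x => -f x) (fun x => -h x) := by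
    refine ⟨he.1.neg, he.2.1.neg, fun η hη _ => ?_⟩
    simp only [neg_mul, integral_neg]
    linarith [he.2.2 η hη]
  have hg' : ((0 < k ∧ Integrable (fun x => Real.exp (-(k * ‖x‖)) * -f x) ∧
        Integrable (fun x => Real.exp (-(k * ‖x‖)) * -h x)) ∨
      (HasCompactSupport (fun x => -f x) ∧ HasCompactSupport fun x => -h x)) := by
    rcases hg with ⟨h1, h2, h3⟩ | ⟨h2, h3⟩
    · exact Or.inl ⟨h1, by simp only [mul_neg]; exact h2.neg, by simp only [mul_neg]; exact h3.neg⟩
    · exact Or.inr ⟨HasCompactSupport.neg h2, HasCompactSupport.neg h3⟩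
  filter_upwards [yukSub k f h hk hs hg, yukSub k _ _ hk hs' hg'] with x h1 h2
  refine le_antisymm h1 ?_
  have e : ∫ y, yuk k (x - y) * (k ^ 2 * -f y - -h y) =
      -∫ y, yuk k (x - y) * (k ^ 2 * f y - h y) := by
    rw [← integral_neg]
    exact integral_congr_ae (ae_of_all _ fun y => by ring)
  rw [e] at h2
  linarith

end Vale.Agent.P363.Yuk
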