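import Vale.Agent.P363.Tool.YukW1
import Mathlib.Analysis.Normed.Lp.SmoothApprox

/-!
P363: the mean square of second derivatives, and local second derivatives in `L^2` for weak
solutions of the Poisson equation.
-/

noncomputable section

namespace Vale.Agent.P363.Yuk

open MeasureTheory Filter Metric
open scoped BigOperators Topology ENNReal

lemma deriv3_comm {u : Space → ℝ} (hu : ContDiff ℝ 2 u) (a b : Fin 3) :
    deriv3 b (deriv3 a u) = deriv3 a (deriv3 b u) := by
  funext x
  have hd : Differentiable ℝ (fderiv ℝ u) :=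
    (hu.fderiv_right (m := 1) (by norm_num)).differentiable one_ne_zero
  have e : ∀ c v, fderiv ℝ (fun y => fderiv ℝ u y (unit3 c)) x v =
      fderiv ℝ (fderiv ℝ u) x v (unit3 c) := fun c v => by
    rw [fderiv_clm_apply (hd x) (differentiableAt_const _)]
    simp
  simp only [deriv3_eq, e]
  exact hu.contDiffAt.isSymmSndFDerivAt (by simp) _ _

lemma ibp_bump {f g : Space → ℝ} (hf : IsBump Set.univ f) (hg : IsBump Set.univ g) (a : Fin 3) :
    ∫ x, f x * deriv3 a g x = -∫ x, deriv3 a f x * g x :=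
  (HasWeakGrad.of_contDiffOn isOpen_univ (hf.contDiff 1).contDiffOn).2.2 g hg a

/-- The second derivatives of a test function have the mean square of its Laplacian. -/
theorem hessTest : HessTestStmt := by
  intro φ hφ
  set L := fun a => deriv3 a (deriv3 a φ) with hL
  have hb1 : ∀ a, IsBump Set.univ (deriv3 a φ) := isBump_deriv hφ
  have hb2 : ∀ a b, IsBump Set.univ (deriv3 b (deriv3 a φ)) := fun a b => isBump_deriv (hb1 a) b
  have key : ∀ a b, ∫ x, deriv3 b (deriv3 a φ) x ^ 2 = ∫ x, L a x * L b x := fun a b => by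
    simp only [sq]
    rw [ibp_bump (hb2 a b) (hb1 a) b]
    have e : deriv3 b (deriv3 b (deriv3 a φ)) = deriv3 a (L b) := by
      rw [deriv3_comm (hφ.contDiff 2) a b, deriv3_comm ((hb1 b).contDiff 2) a b]
    rw [e]
    have h := ibp_bump (hb2 b b) (hb1 a) a
    rw [show (∫ x, deriv3 a (L b) x * deriv3 a φ x) = -∫ x, L b x * L a x from by
      simp only [hL] at h ⊢; linarith [h], neg_neg]
    simp only [mul_comm]
  simp only [key]
  have hi : ∀ a b, Integrable fun x => L a x * L b x := fun a b =>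
    (hb2 a a).integrable_mul (U := Set.univ) ((hb2 b b).smooth.continuous.locallyIntegrable.locallyIntegrableOn _)
      |>.congr (ae_of_all _ fun x => mul_comm _ _)
  have e : ∀ x, lap φ x ^ 2 = ∑ a, ∑ b, L a x * L b x := fun x => by
    rw [sq, lap, Finset.sum_mul_sum]
  simp only [e]
  rw [integral_finsetSum _ fun a _ => integrable_finsetSum _ fun b _ => hi a b]
  exact Finset.sum_congr rfl fun a _ => (integral_finsetSum _ fun b _ => hi a b).symm

lemma eLpNorm_two {μ : Measure Space} {f : Space → ℝ} (hf : MemLp f 2 μ) :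
    eLpNorm f 2 μ = ENNReal.ofReal (√(∫ x, f x ^ 2 ∂μ)) := by
  rw [hf.eLpNorm_eq_integral_rpow_norm two_ne_zero (by norm_num)]
  congr 1
  simp only [ENNReal.toReal_ofNat, Real.rpow_two, Real.norm_eq_abs, sq_abs]
  rw [Real.sqrt_eq_rpow]
  norm_num

/-- A second derivative is controlled by the Laplacian. -/
lemma hess_le_lap {ψ : Space → ℝ} (hψ : IsBump Set.univ ψ) (a b : Fin 3) :
    eLpNorm (deriv3 b (deriv3 a ψ)) 2 volume ≤ eLpNorm (lap ψ) 2 volume := by
  have hb := isBump_deriv (isBump_deriv hψ a) b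
  rw [eLpNorm_two (hb.smooth.continuous.memLp_of_hasCompactSupport hb.compact),
    eLpNorm_two (hψ.lap.smooth.continuous.memLp_of_hasCompactSupport hψ.lap.compact)]
  refine ENNReal.ofReal_le_ofReal (Real.sqrt_le_sqrt ?_)
  rw [← hessTest ψ hψ]
  have h0 : ∀ a b, 0 ≤ ∫ x, deriv3 b (deriv3 a ψ) x ^ 2 := fun _ _ =>
    integral_nonneg fun _ => sq_nonneg _
  exact (Finset.single_le_sum (f := fun b => ∫ x, deriv3 b (deriv3 a ψ) x ^ 2)
    (fun b _ => h0 a b) (Finset.mem_univ b)).trans
    (Finset.single_le_sum (f := fun a => ∑ b, ∫ x, deriv3 b (deriv3 a ψ) x ^ 2)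
      (fun a _ => Finset.sum_nonneg fun b _ => h0 a b) (Finset.mem_univ a))

lemma pot_sub_bump {φ φ' : Space → ℝ} (h : IsBump Set.univ φ) (h' : IsBump Set.univ φ') :
    pot 0 (fun y => φ y - φ' y) = fun x => pot 0 φ x - pot 0 φ' x := by
  funext x
  have hi : ∀ {u : Space → ℝ}, IsBump Set.univ u → Integrable fun y => yuk 0 (x - y) * u y := by
    intro u hu
    obtain ⟨R, hR⟩ := hu.compact.isCompact.isBounded.subset_closedBall (0 : Space)
    obtain ⟨C, -, hC⟩ := pot_holder (by norm_num : (3 / 2 : ℝ) < 2)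
      (by norm_num : (0 : ℝ) < 1 / 4) (by norm_num) (by norm_num) R
    exact (hC 0 u (src_of_bump hu hR) x).1
  rw [pot, pot, pot, ← integral_sub (hi h) (hi h')]
  simp only [mul_sub]

/-- The bound of second derivatives of potentials of test functions. -/
lemma hess_pot {R : ℝ} (hR : 0 < R) :
    ∃ C : ℝ≥0∞, C ≠ ∞ ∧ ∀ (x₀ : Space) (φ : Space → ℝ), IsBump Set.univ φ →
      tsupport φ ⊆ closedBall x₀ (R + 1) → ∀ a b,
        eLpNorm (deriv3 b (potGrad φ a)) 2 (volume.restrict (ball x₀ R)) ≤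
          C * eLpNorm φ 2 volume := by
  let β : ContDiffBump (0 : Space) := ⟨R, R + 1, hR, by linarith⟩
  have hβs : ContDiff ℝ ((⊤ : ℕ∞) : WithTop ℕ∞) (β : Space → ℝ) := β.contDiff
  have hβb : IsBump Set.univ (β : Space → ℝ) := ⟨hβs, β.hasCompactSupport, Set.subset_univ _⟩
  have hM : ∀ {u : Space → ℝ}, IsBump Set.univ u → ∃ M, 0 ≤ M ∧ ∀ z, |u z| ≤ M := fun {u} hu => by
    obtain ⟨M, hM⟩ := hu.smooth.continuous.bounded_above_of_compact_support hu.compact
    exact ⟨M, (norm_nonneg _).trans (hM 0), hM⟩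
  choose M1 hM10 hM1 using fun a => hM (isBump_deriv hβb a)
  obtain ⟨M2, hM20, hM2⟩ := hM hβb.lap
  obtain ⟨C0, hC0, hp0⟩ := pot_holder (by norm_num : (3 / 2 : ℝ) < 2)
    (by norm_num : (0 : ℝ) < 1 / 4) (by norm_num) (by norm_num) (R + 2)
  obtain ⟨A, hA, hy⟩ := young (p := 2) (q := 2) (by norm_num) le_rfl (by norm_num) (R + 2)
  set V := volume (ball (0 : Space) (R + 2)) ^ (2 : ℝ≥0∞).toReal⁻¹
  have hV : V ≠ ∞ := ENNReal.rpow_ne_top_of_nonneg (by simp) measure_ball_lt_top.ne
  refine ⟨1 + (∑ a, ENNReal.ofReal (2 * M1 a) * A) + ENNReal.ofReal M2 * (V * ENNReal.ofReal C0),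
    ?_, fun x₀ φ hφ hs a b => ?_⟩
  · refine ENNReal.add_ne_top.2 ⟨ENNReal.add_ne_top.2 ⟨by simp, ?_⟩,
      ENNReal.mul_ne_top ENNReal.ofReal_ne_top (ENNReal.mul_ne_top hV ENNReal.ofReal_ne_top)⟩
    exact ENNReal.sum_ne_top.2 fun a _ => ENNReal.mul_ne_top ENNReal.ofReal_ne_top hA
  have hs' : tsupport φ ⊆ closedBall x₀ (R + 2) :=
    hs.trans (closedBall_subset_closedBall (by linarith))
  have hsrc : Src 2 x₀ (R + 2) φ := src_of_bump hφ hs'
  set θ := fun z => β (z - x₀) with hθ
  set w := pot 0 φ with hw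
  have hθs : ContDiff ℝ ((⊤ : ℕ∞) : WithTop ℕ∞) θ := hβs.comp (contDiff_id.sub contDiff_const)
  have hθc : HasCompactSupport θ := by
    refine HasCompactSupport.intro (isCompact_closedBall x₀ (R + 1)) fun z hz => ?_
    refine β.zero_of_le_dist ?_
    rw [mem_closedBall, dist_eq_norm] at hz
    rw [dist_zero_right]
    show R + 1 ≤ ‖z - x₀‖
    linarith
  have hws : ContDiff ℝ ((⊤ : ℕ∞) : WithTop ℕ∞) w := contDiff_pot le_rfl hφ
  have hψ : IsBump Set.univ fun z => θ z * w z :=
    ⟨hθs.mul hws, hθc.mul_right, Set.subset_univ _⟩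
  have heq : Set.EqOn (deriv3 b (potGrad φ a)) (deriv3 b (deriv3 a fun z => θ z * w z))
      (ball x₀ R) := fun x hx => by
    rw [potGrad_bump hφ, ← hw]
    have e : w =ᶠ[𝓝 x] fun z => θ z * w z := by
      filter_upwards [isOpen_ball.mem_nhds hx] with z hz
      have h1 : β (z - x₀) = 1 := β.one_of_mem_closedBall (by
        rw [mem_ball, dist_eq_norm] at hz
        show z - x₀ ∈ closedBall (0 : Space) R
        rw [mem_closedBall, dist_zero_right]
        exact hz.le)
      simp only [hθ, h1, one_mul]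
    have e1 : deriv3 a w =ᶠ[𝓝 x] deriv3 a fun z => θ z * w z := by
      filter_upwards [e.fderiv (𝕜 := ℝ)] with z hz
      simp only [deriv3, hz]
    simp only [deriv3]
    rw [← e1.fderiv_eq]
  refine (eLpNorm_congr_ae ?_).trans_le ((eLpNorm_mono_measure _ Measure.restrict_le_self).trans
    ((hess_le_lap hψ a b).trans ?_))
  · filter_upwards [ae_restrict_mem measurableSet_ball] with x hx using heq hx
  set B := ball x₀ (R + 2)
  set G : Space → ℝ := fun x => |φ x| + (∑ c, 2 * M1 c * |potGrad φ c x|) + M2 * |w x|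
  have hlap : ∀ x, ‖lap (fun z => θ z * w z) x‖ ≤ ‖B.indicator G x‖ := by
    intro x
    by_cases hx : x ∈ B
    · rw [Set.indicator_of_mem hx, lap_prod (hθs.of_le (WithTop.coe_le_coe.2 le_top :
        ((2 : ℕ) : WithTop ℕ∞) ≤ _)) (hws.of_le (WithTop.coe_le_coe.2 le_top :
        ((2 : ℕ) : WithTop ℕ∞) ≤ _))]
      have hlw : lap w x = -φ x := by
        rw [hw, lap_pot le_rfl hφ, pot, ← yukTest 0 le_rfl φ hφ x, ← integral_neg]
        exact integral_congr_ae (ae_of_all _ fun z => by ring)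
      have hdw : ∀ c, deriv3 c w x = potGrad φ c x := fun c => by rw [potGrad_bump hφ, hw]
      have htr : ∀ (c : Fin 3) (g : Space → ℝ),
          deriv3 c (fun z => g (z - x₀)) = fun z => deriv3 c g (z - x₀) := fun c g => by
        funext z; simp only [deriv3, fderiv_comp_sub]
      have hd : ∀ c, deriv3 c θ x = deriv3 c (β : Space → ℝ) (x - x₀) := fun c => by
        simp only [hθ, htr]
      have hl : lap θ x = lap (β : Space → ℝ) (x - x₀) := by
        simp only [hθ, lap, htr]
      rw [hlw, hl]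
      simp only [hdw, hd, Real.norm_eq_abs]
      have hθ1 : |θ x| ≤ 1 := abs_le.2 ⟨by linarith [β.nonneg (x := x - x₀)], β.le_one⟩
      refine le_trans ?_ (le_abs_self _)
      have h1 : |∑ c, deriv3 c (β : Space → ℝ) (x - x₀) * potGrad φ c x| ≤
          ∑ c, M1 c * |potGrad φ c x| := by
        refine (Finset.abs_sum_le_sum_abs _ _).trans (Finset.sum_le_sum fun c _ => ?_)
        rw [abs_mul]
        exact mul_le_mul_of_nonneg_right (hM1 c _) (abs_nonneg _)
      have h2 : |lap (β : Space → ℝ) (x - x₀) * w x| ≤ M2 * |w x| := by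
        rw [abs_mul]; exact mul_le_mul_of_nonneg_right (hM2 _) (abs_nonneg _)
      have h3 : |θ x * -φ x| ≤ |φ x| := by
        rw [abs_mul, abs_neg]; exact mul_le_of_le_one_left (abs_nonneg _) hθ1
      simp only [G, mul_assoc, ← Finset.mul_sum]
      refine (abs_add_three _ _ _).trans ?_
      rw [abs_mul (2 : ℝ), abs_two]
      linarith
    · rw [Set.indicator_of_notMem hx, norm_zero, norm_le_zero_iff]
      refine image_eq_zero_of_notMem_tsupport fun hm => hx ?_
      have h1 := tsupport_lap _ hm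
      have h2 : tsupport θ ⊆ closedBall x₀ (R + 1) := by
        refine closure_minimal (fun z hz => ?_) isClosed_closedBall
        by_contra hn
        refine hz (β.zero_of_le_dist ?_)
        rw [mem_closedBall, dist_eq_norm] at hn
        rw [dist_zero_right]
        show R + 1 ≤ ‖z - x₀‖
        linarith
      exact closedBall_subset_ball (by linarith) (h2 (tsupport_mul_subset_left h1))
  refine (eLpNorm_mono hlap).trans ?_
  rw [eLpNorm_indicator_eq_eLpNorm_restrict measurableSet_ball]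
  have hgm : ∀ c, AEStronglyMeasurable (potGrad φ c) (volume.restrict B) := fun c => by
    rw [potGrad_bump hφ]
    exact ((contDiff_deriv3 c hws (le_refl (((⊤ : ℕ∞) : WithTop ℕ∞) + 1))).continuous).aestronglyMeasurable
  have hφm : AEStronglyMeasurable (fun x => |φ x|) (volume.restrict B) :=
    hφ.smooth.continuous.abs.aestronglyMeasurable
  have hsm : ∀ c, AEStronglyMeasurable (fun x => 2 * M1 c * |potGrad φ c x|) (volume.restrict B) :=
    fun c => ((hgm c).norm.const_mul _)
  have hwm : AEStronglyMeasurable (fun x => M2 * |w x|) (volume.restrict B) :=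
    (hws.continuous.abs.const_mul M2).aestronglyMeasurable
  have h12 : AEStronglyMeasurable (fun x => |φ x| + ∑ c, 2 * M1 c * |potGrad φ c x|)
      (volume.restrict B) := hφm.add (Finset.aestronglyMeasurable_fun_sum _ fun c _ => hsm c)
  refine (eLpNorm_add_le h12 hwm one_le_two).trans ?_
  rw [add_mul, add_mul, one_mul, Finset.sum_mul]
  refine add_le_add ((eLpNorm_add_le hφm (Finset.aestronglyMeasurable_fun_sum _ fun c _ => hsm c)
    one_le_two).trans (add_le_add ?_ ?_)) ?_
  · exact (eLpNorm_mono fun x => by simp).trans (eLpNorm_mono_measure _ Measure.restrict_le_self)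
  · rw [show (fun x => ∑ c, 2 * M1 c * |potGrad φ c x|) =
      ∑ c, fun x => 2 * M1 c * |potGrad φ c x| by funext x; simp]
    refine (eLpNorm_sum_le (fun c _ => hsm c) one_le_two).trans (Finset.sum_le_sum fun c _ => ?_)
    have h := hy x₀ φ hφ.smooth.continuous.aestronglyMeasurable hsrc.supp c
    simp only [ENNReal.ofReal_ofNat] at h
    rw [mul_assoc]
    refine le_trans ?_ (mul_le_mul' le_rfl h)
    exact eLpNorm_le_mul_eLpNorm_of_ae_le_mul (ae_of_all _ fun x => by
      rw [Real.norm_eq_abs, Real.norm_eq_abs, abs_mul, abs_abs,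
        abs_of_nonneg (mul_nonneg zero_le_two (hM10 c))]) 2
  · have hb : ∀ x, ‖M2 * |w x|‖ ≤ M2 * (C0 * srcNorm 2 φ) := fun x => by
      rw [Real.norm_eq_abs, abs_mul, abs_abs, abs_of_nonneg hM20]
      exact mul_le_mul_of_nonneg_left (hp0 x₀ φ hsrc x).2.1 hM20
    refine (eLpNorm_le_of_ae_bound (ae_of_all _ hb)).trans_eq ?_
    rw [Measure.restrict_apply_univ, Measure.addHaar_ball_center, ENNReal.ofReal_mul hM20,
      ENNReal.ofReal_mul hC0, srcNorm, ENNReal.ofReal_toReal hsrc.mem.eLpNorm_ne_top,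
      ENNReal.ofReal_ofNat]
    ring

/-- Test functions approximating a source in mean square. -/
lemma exists_bump_approx {R : ℝ} (hR : 0 < R) {x₀ : Space} {Q : Space → ℝ} (hQ : MemLp Q 2)
    (h0 : ∀ y, y ∉ closedBall x₀ R → Q y = 0) {ε : ℝ} (hε : 0 < ε) :
    ∃ φ : Space → ℝ, IsBump Set.univ φ ∧ tsupport φ ⊆ closedBall x₀ (R + 1) ∧
      (eLpNorm (fun y => φ y - Q y) 2 volume).toReal ≤ ε := by
  obtain ⟨g, hgc, hgs, hg⟩ := hQ.exist_eLpNorm_sub_le (by norm_num) one_le_two hε
  let β : ContDiffBump x₀ := ⟨R, R + 1, hR, by linarith⟩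
  refine ⟨fun y => β y * g y, ⟨β.contDiff.mul hgs, hgc.mul_left, Set.subset_univ _⟩,
    tsupport_mul_subset_left.trans β.tsupport_eq.subset, ?_⟩
  refine ENNReal.toReal_le_of_le_ofReal hε.le ((eLpNorm_mono fun y => ?_).trans hg)
  simp only [Pi.sub_apply, Real.norm_eq_abs]
  have e : Q y = β y * Q y := by
    by_cases hy : y ∈ closedBall x₀ R
    · rw [β.one_of_mem_closedBall hy, one_mul]
    · rw [h0 y hy, mul_zero]
  conv_lhs => rw [e, ← mul_sub, abs_mul, abs_of_nonneg β.nonneg, abs_sub_comm]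
  exact mul_le_of_le_one_left (abs_nonneg _) β.le_one

/-- The gradient of the potential of a square integrable source has weak derivatives in `L^2`. -/
lemma hess_src {R : ℝ} (hR : 0 < R) :
    ∃ C : ℝ, 0 ≤ C ∧ ∀ (x₀ : Space) (Q : Space → ℝ), Src 2 x₀ R Q → ∀ a,
      ∃ H : Fin 3 → Space → ℝ, HasWeakGrad (ball x₀ R) (potGrad Q a) H ∧
        ∀ b, MemLp (H b) 2 (volume.restrict (ball x₀ R)) ∧
          (eLpNorm (H b) 2 (volume.restrict (ball x₀ R))).toReal ≤ C * srcNorm 2 Q := by
  obtain ⟨C, hC, hh⟩ := hess_pot hR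
  refine ⟨C.toReal, ENNReal.toReal_nonneg, fun x₀ Q hQ a => ?_⟩
  have hQ2 : MemLp Q 2 := by simpa using hQ.mem
  have hQn : srcNorm 2 Q = (eLpNorm Q 2 volume).toReal := by simp [srcNorm]
  set ε : ℕ → ℝ := fun n => (1 / 2) ^ n with hε
  have hε0 : Tendsto ε atTop (𝓝 0) :=
    tendsto_pow_atTop_nhds_zero_of_lt_one (by norm_num) (by norm_num)
  have hεa : Antitone ε := fun m n h => pow_le_pow_of_le_one (by norm_num) (by norm_num) h
  choose φ hφb hφs hφe using fun n : ℕ =>
    exists_bump_approx hR hQ2 hQ.supp (show (0 : ℝ) < ε n by positivity)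
  have hQi : Integrable Q := by
    refine (IntegrableOn.integrable_of_forall_notMem_eq_zero ?_ hQ.supp :)
    have : IsFiniteMeasure (volume.restrict (closedBall x₀ R)) :=
      isFiniteMeasure_restrict.2 measure_closedBall_lt_top.ne
    exact (hQ2.restrict _).integrable one_le_two
  have hφm : ∀ n, MemLp (φ n) 2 := fun n =>
    (hφb n).smooth.continuous.memLp_of_hasCompactSupport (hφb n).compact
  have hd : ∀ n, MemLp (fun y => φ n y - Q y) 2 := fun n => (hφm n).sub hQ2
  have hpd : ∀ n, ContDiff ℝ ((⊤ : ℕ∞) : WithTop ℕ∞) (potGrad (φ n) a) := fun n => by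
    rw [potGrad_bump (hφb n)]
    exact contDiff_deriv3 a (contDiff_pot le_rfl (hφb n)) le_rfl
  set B := ball x₀ R
  have : IsFiniteMeasure (volume.restrict B) := isFiniteMeasure_restrict.2 measure_ball_lt_top.ne
  have hmem : ∀ b n, MemLp (deriv3 b (potGrad (φ n) a)) 2 (volume.restrict B) := fun b n =>
    (LocMemLp.of_continuousOn (U := Set.univ) (contDiff_deriv3 b (hpd n) (le_refl (((⊤ : ℕ∞) : WithTop ℕ∞) + 1))).continuous.continuousOn
      (closedBall x₀ R) (isCompact_closedBall _ _) (Set.subset_univ _)).mono_measure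
        (Measure.restrict_mono ball_subset_closedBall le_rfl)
  let U : Fin 3 → ℕ → Lp ℝ 2 (volume.restrict B) := fun b n => (hmem b n).toLp _
  have hdist : ∀ b n m, dist (U b n) (U b m) ≤ C.toReal * (ε n + ε m) := by
    intro b n m
    have hsb : IsBump Set.univ fun y => φ n y - φ m y :=
      ⟨(hφb n).smooth.sub (hφb m).smooth, (hφb n).compact.sub (hφb m).compact, Set.subset_univ _⟩
    have hss : tsupport (fun y => φ n y - φ m y) ⊆ closedBall x₀ (R + 1) := by
      refine closure_minimal (fun y hy => ?_) isClosed_closedBall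
      by_contra hn
      exact hy (by simp [image_eq_zero_of_notMem_tsupport fun hm => hn (hφs n hm),
        image_eq_zero_of_notMem_tsupport fun hm => hn (hφs m hm)])
    have key : deriv3 b (potGrad (fun y => φ n y - φ m y) a) =
        deriv3 b (potGrad (φ n) a) - deriv3 b (potGrad (φ m) a) := by
      have e : potGrad (fun y => φ n y - φ m y) a =
          fun x => potGrad (φ n) a x - potGrad (φ m) a x := by
        rw [potGrad_bump hsb, pot_sub_bump (hφb n) (hφb m), potGrad_bump (hφb n),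
          potGrad_bump (hφb m)]
        funext x
        rw [deriv3, fderiv_fun_sub ((contDiff_pot le_rfl (hφb n)).differentiable (by simp) x)
          ((contDiff_pot le_rfl (hφb m)).differentiable (by simp) x)]
        rfl
      funext x
      rw [e, deriv3, fderiv_fun_sub ((hpd n).differentiable (by simp) x)
        ((hpd m).differentiable (by simp) x)]
      rfl
    rw [dist_eq_norm, ← MemLp.toLp_sub, Lp.norm_toLp, ← key]
    refine (ENNReal.toReal_mono (ENNReal.mul_ne_top hC
      (hsb.smooth.continuous.memLp_of_hasCompactSupport hsb.compact).eLpNorm_ne_top)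
      (hh x₀ _ hsb hss a b)).trans ?_
    rw [ENNReal.toReal_mul]
    refine mul_le_mul_of_nonneg_left ?_ ENNReal.toReal_nonneg
    have e : (fun y => φ n y - φ m y) = (fun y => φ n y - Q y) - fun y => φ m y - Q y := by
      funext y; simp
    rw [e]
    refine (ENNReal.toReal_mono (ENNReal.add_ne_top.2 ⟨(hd n).eLpNorm_ne_top, (hd m).eLpNorm_ne_top⟩)
      (eLpNorm_sub_le (hd n).1 (hd m).1 one_le_two)).trans ?_
    rw [ENNReal.toReal_add (hd n).eLpNorm_ne_top (hd m).eLpNorm_ne_top]
    exact add_le_add (hφe n) (hφe m)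
  have hcauchy : ∀ b, CauchySeq (U b) := fun b =>
    cauchySeq_of_le_tendsto_0 (fun N => C.toReal * (ε N + ε N))
      (fun n m N hn hm => (hdist b n m).trans (mul_le_mul_of_nonneg_left
        (add_le_add (hεa hn) (hεa hm)) ENNReal.toReal_nonneg))
      (by simpa using (hε0.add hε0).const_mul C.toReal)
  choose L hL using fun b => cauchySeq_tendsto_of_complete (hcauchy b)
  have hnorm : ∀ b, ‖L b‖ ≤ C.toReal * srcNorm 2 Q := fun b => by
    refine le_of_tendsto_of_tendsto (hL b).norm
      (show Tendsto (fun n => C.toReal * (srcNorm 2 Q + ε n)) atTop (𝓝 (C.toReal * srcNorm 2 Q)) by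
        simpa using (tendsto_const_nhds.add hε0).const_mul C.toReal) (Eventually.of_forall fun n => ?_)
    dsimp only [U]
    rw [Lp.norm_toLp]
    refine (ENNReal.toReal_mono (ENNReal.mul_ne_top hC (hφm n).eLpNorm_ne_top)
      (hh x₀ _ (hφb n) (hφs n) a b)).trans ?_
    rw [ENNReal.toReal_mul, hQn]
    refine mul_le_mul_of_nonneg_left ?_ ENNReal.toReal_nonneg
    have e : φ n = Q + fun y => φ n y - Q y := by funext y; simp
    rw [e]
    refine (ENNReal.toReal_mono (ENNReal.add_ne_top.2 ⟨hQ2.eLpNorm_ne_top, (hd n).eLpNorm_ne_top⟩)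
      (eLpNorm_add_le hQ2.1 (hd n).1 one_le_two)).trans ?_
    rw [ENNReal.toReal_add hQ2.eLpNorm_ne_top (hd n).eLpNorm_ne_top]
    exact add_le_add le_rfl (hφe n)
  refine ⟨fun b => L b, ⟨(potGrad_dual hQi a).1.locallyIntegrableOn _, fun b => ?_, ?_⟩,
    fun b => ⟨Lp.memLp (L b), by rw [← Lp.norm_def]; exact hnorm b⟩⟩
  · have h : IntegrableOn (L b : Space → ℝ) B volume := (Lp.memLp (L b)).integrable one_le_two
    exact h.locallyIntegrableOn
  intro η hη b
  have hηu : IsBump Set.univ η := hη.mono (Set.subset_univ _)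
  have hηb := isBump_deriv hηu b
  set P := deriv3 a (pot 0 (deriv3 b η))
  have hid : ∀ n, ∫ y, φ n y * P y = ∫ x, deriv3 b (potGrad (φ n) a) x * η x := fun n => by
    have h1 := (potGrad_dual ((hφb n).smooth.continuous.integrable_of_hasCompactSupport
      (hφb n).compact) a).2 _ hηb
    have h2 := (HasWeakGrad.of_contDiffOn (f := potGrad (φ n) a) isOpen_univ
      ((hpd n).of_le (by simp)).contDiffOn).2.2 η hηu b
    simp only [P]
    linarith
  rw [(potGrad_dual hQi a).2 _ hηb, neg_inj]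
  have hP : ContinuousOn P (closedBall x₀ (R + 1)) :=
    (contDiff_deriv3 a (contDiff_pot le_rfl hηb) (le_refl (((⊤ : ℕ∞) : WithTop ℕ∞) + 1))).continuous.continuousOn
  set v := (closedBall x₀ (R + 1)).indicator P
  have hv : MemLp v 2 := (memLp_indicator_iff_restrict measurableSet_closedBall).2
    (LocMemLp.of_continuousOn hP _ (isCompact_closedBall _ _) subset_rfl)
  have hsupp : ∀ {u : Space → ℝ}, (∀ y, y ∉ closedBall x₀ (R + 1) → u y = 0) →
      ∫ y, v y * u y = ∫ y, u y * P y := fun {u} hu => by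
    refine integral_congr_ae (ae_of_all _ fun y => ?_)
    dsimp only
    by_cases hy : y ∈ closedBall x₀ (R + 1)
    · rw [show v y = P y from Set.indicator_of_mem hy _, mul_comm]
    · rw [hu y hy]; simp
  have hL2 : Tendsto (fun n => ∫ x, (φ n x - Q x) ^ 2) atTop (𝓝 0) := by
    refine squeeze_zero (fun n => integral_nonneg fun x => sq_nonneg _) (fun n => ?_)
      (show Tendsto (fun n => ε n ^ 2) atTop (𝓝 0) by simpa using hε0.pow 2)
    have := hφe n
    rw [eLpNorm_two (hd n), ENNReal.toReal_ofReal (Real.sqrt_nonneg _),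
      Real.sqrt_le_iff] at this
    exact this.2
  have t1 : Tendsto (fun n => ∫ y, φ n y * P y) atTop (𝓝 (∫ y, Q y * P y)) := by
    have h := tendsto_integral_mul_of_L2 hv hφm hQ2 hL2
    rw [hsupp fun y hy => hQ.supp y fun hm =>
      hy (closedBall_subset_closedBall (by linarith) hm)] at h
    refine h.congr fun n => hsupp fun y hy => ?_
    exact image_eq_zero_of_notMem_tsupport fun hm => hy (hφs n hm)
  have hη2 : MemLp η 2 (volume.restrict B) :=
    (hηu.smooth.continuous.memLp_of_hasCompactSupport hηu.compact).restrict _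
  have hin : ∀ u : Lp ℝ 2 (volume.restrict B), inner ℝ (hη2.toLp η) u = ∫ x, u x * η x := by
    intro u
    rw [L2.inner_def, ← setIntegral_eq_integral_of_forall_compl_eq_zero (s := B)
      (f := fun x => u x * η x) fun x hx => by
        rw [image_eq_zero_of_notMem_tsupport fun hm => hx (hη.supp hm), mul_zero]]
    refine integral_congr_ae ?_
    filter_upwards [hη2.coeFn_toLp] with x hx
    simp [hx]
  have t2 : Tendsto (fun n => ∫ y, φ n y * P y) atTop (𝓝 (∫ x, L b x * η x)) := by
    have h := (tendsto_const_nhds (x := hη2.toLp η)).inner (𝕜 := ℝ) (hL b)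
    rw [hin] at h
    refine h.congr fun n => ?_
    rw [hin, hid, ← setIntegral_eq_integral_of_forall_compl_eq_zero (s := B)
      (f := fun x => U b n x * η x) fun x hx => by
        rw [image_eq_zero_of_notMem_tsupport fun hm => hx (hη.supp hm), mul_zero],
      ← setIntegral_eq_integral_of_forall_compl_eq_zero (s := B)
      (f := fun x => deriv3 b (potGrad (φ n) a) x * η x) fun x hx => by
        rw [image_eq_zero_of_notMem_tsupport fun hm => hx (hη.supp hm), mul_zero]]
    refine integral_congr_ae ?_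
    filter_upwards [(hmem b n).coeFn_toLp] with x hx
    simp only [U, hx]
  exact tendsto_nhds_unique t1 t2

/-- `Δ f ∈ L^2` gives weak second derivatives in `L^2`. -/
theorem localHess : LocalHessStmt := by
  intro r R hr hrR
  obtain ⟨CS, hCS, hsplit⟩ := local_split hr hrR
  obtain ⟨CH, hCH, hhess⟩ := hess_src (hr.trans hrR)
  set V := (volume (ball (0 : Space) r) ^ (2 : ℝ≥0∞).toReal⁻¹).toReal
  refine ⟨V * CS + CH, fun x₀ f h he hf hh => ?_⟩
  have hh' : MemLp h (ENNReal.ofReal 2) (volume.restrict (ball x₀ R)) := by simpa using hh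
  obtain ⟨u, S, hS, hum, hub, hu0, hfe, hSb⟩ :=
    hsplit x₀ f h he hf (integrableOn_of_memLp one_le_two hh')
  obtain ⟨hsrc, hn⟩ := src_of_cut (f := f) hh' hum hub hu0
  simp only [ENNReal.ofReal_ofNat] at hn
  have hA' := integral_le_ballData 2 x₀ R f h
  set DA := ∫ y in ball x₀ R, |f y|
  have hDA : 0 ≤ DA := integral_nonneg fun _ => abs_nonneg _
  set D := ballData 2 x₀ R f h
  have hui : Integrable u := by
    refine ((integrableOn_of_memLp one_le_two hh').integrable_indicator measurableSet_ball).abs.mono'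
      hum (ae_of_all _ fun y => ?_)
    simpa using hub y
  choose H hH hHn using fun a => hhess x₀ u hsrc a
  have hsub : ball x₀ r ⊆ ball x₀ R := ball_subset_ball hrR.le
  have hSa : ∀ a, ContDiff ℝ ((⊤ : ℕ∞) : WithTop ℕ∞) (deriv3 a S) := fun a =>
    contDiff_deriv3 a hS le_rfl
  refine ⟨fun a x => deriv3 a S x - potGrad u a x,
    fun a b x => deriv3 b (deriv3 a S) x - H a b x, ?_, fun a => ⟨?_, fun b => ?_⟩⟩
  · exact HasWeakGrad.congr_ae isOpen_ball
      ((HasWeakGrad.of_contDiffOn isOpen_ball (hS.of_le (by simp)).contDiffOn).sub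
        ((hasWeakGrad_pot hui).mono (Set.subset_univ _))) hfe.symm fun _ => EventuallyEq.rfl
  · exact (HasWeakGrad.of_contDiffOn isOpen_ball ((hSa a).of_le (by simp)).contDiffOn).sub
      ((hH a).mono hsub)
  have hm1 : AEStronglyMeasurable (deriv3 b (deriv3 a S)) (volume.restrict (ball x₀ r)) :=
    (contDiff_deriv3 b (hSa a) (le_refl (((⊤ : ℕ∞) : WithTop ℕ∞) + 1))).continuous.aestronglyMeasurable
  have hm2 : MemLp (H a b) 2 (volume.restrict (ball x₀ r)) :=
    (hHn a b).1.mono_measure (Measure.restrict_mono hsub le_rfl)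
  have hVfin : volume (ball (0 : Space) r) ^ (2 : ℝ≥0∞).toReal⁻¹ ≠ ∞ :=
    ENNReal.rpow_ne_top_of_nonneg (by simp) measure_ball_lt_top.ne
  have hSq : eLpNorm (deriv3 b (deriv3 a S)) 2 (volume.restrict (ball x₀ r)) ≤
      volume (ball (0 : Space) r) ^ (2 : ℝ≥0∞).toReal⁻¹ * ENNReal.ofReal (CS * DA) := by
    refine (eLpNorm_le_of_ae_bound (C := CS * DA)
      (ae_of_all _ fun x => ((hSb x).2 a).2 b)).trans_eq ?_
    rw [Measure.restrict_apply_univ, Measure.addHaar_ball_center]
  have hfin : volume (ball (0 : Space) r) ^ (2 : ℝ≥0∞).toReal⁻¹ * ENNReal.ofReal (CS * DA) ≠ ∞ :=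
    ENNReal.mul_ne_top hVfin ENNReal.ofReal_ne_top
  have htot : eLpNorm (fun x => deriv3 b (deriv3 a S) x - H a b x) 2 (volume.restrict (ball x₀ r)) ≤
      _ := (eLpNorm_sub_le hm1 hm2.1 one_le_two).trans (add_le_add hSq le_rfl)
  refine ⟨⟨hm1.sub hm2.1, htot.trans_lt (ENNReal.add_lt_top.2 ⟨hfin.lt_top, hm2.2⟩)⟩, ?_⟩
  refine (ENNReal.toReal_mono (ENNReal.add_ne_top.2 ⟨hfin, hm2.eLpNorm_ne_top⟩) htot).trans ?_
  rw [ENNReal.toReal_add hfin hm2.eLpNorm_ne_top, ENNReal.toReal_mul,
    ENNReal.toReal_ofReal (mul_nonneg hCS hDA), add_mul]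
  refine add_le_add ?_ ?_
  · rw [mul_assoc]
    exact mul_le_mul_of_nonneg_left (mul_le_mul_of_nonneg_left hA' hCS) ENNReal.toReal_nonneg
  · refine le_trans ?_ ((hHn a b).2.trans (mul_le_mul_of_nonneg_left hn hCH))
    exact ENNReal.toReal_mono (hHn a b).1.eLpNorm_ne_top
      (eLpNorm_mono_measure _ (Measure.restrict_mono hsub le_rfl))

end Vale.Agent.P363.Yuk
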