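import Vale.Agent.P363.Tool.MaxSpec
import Vale.Agent.P363.Tool.Test
import Vale.Agent.P363.Tool.Weak.Poisson

/-!
P363: the weak maximum principle, by mollification and the second derivative test.
-/

noncomputable section

namespace Vale.Agent.P363

open MeasureTheory Metric Filter
open scoped BigOperators Topology

lemma contDiffAt_deriv3_aux {f : Space → ℝ} {U : Set Space} (hU : IsOpen U)
    (hf : ContDiffOn ℝ 2 f U) {x : Space} (hx : x ∈ U) (a : Fin 3) :
    DifferentiableAt ℝ (deriv3 a f) x :=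
  ((contDiffOn_deriv3 a hU (m := 1) hf (by norm_num)).contDiffAt
    (hU.mem_nhds hx)).differentiableAt one_ne_zero

lemma lap_add {f g : Space → ℝ} {U : Set Space} (hU : IsOpen U) (hf : ContDiffOn ℝ 2 f U)
    (hg : ContDiffOn ℝ 2 g U) {x : Space} (hx : x ∈ U) :
    lap (fun y => f y + g y) x = lap f x + lap g x := by
  rw [lap, lap, lap, ← Finset.sum_add_distrib]
  refine Finset.sum_congr rfl fun a _ => ?_
  have he : deriv3 a (fun y => f y + g y) =ᶠ[𝓝 x] fun y => deriv3 a f y + deriv3 a g y := by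
    filter_upwards [hU.mem_nhds hx] with y hy
    simp only [deriv3]
    rw [fderiv_fun_add ((hf.contDiffAt (hU.mem_nhds hy)).differentiableAt two_ne_zero)
      ((hg.contDiffAt (hU.mem_nhds hy)).differentiableAt two_ne_zero)]
    rfl
  show fderiv ℝ (deriv3 a fun y => f y + g y) x (unit3 a) = _
  rw [he.fderiv_eq, fderiv_fun_add (contDiffAt_deriv3_aux hU hf hx a)
    (contDiffAt_deriv3_aux hU hg hx a)]
  rfl

lemma lap_const_mul (c : ℝ) {f : Space → ℝ} {U : Set Space} (hU : IsOpen U)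
    (hf : ContDiffOn ℝ 2 f U) {x : Space} (hx : x ∈ U) :
    lap (fun y => c * f y) x = c * lap f x := by
  rw [lap, lap, Finset.mul_sum]
  refine Finset.sum_congr rfl fun a _ => ?_
  have he : deriv3 a (fun y => c * f y) =ᶠ[𝓝 x] fun y => c * deriv3 a f y := by
    filter_upwards [hU.mem_nhds hx] with y hy
    simp only [deriv3]
    rw [fderiv_const_mul ((hf.contDiffAt (hU.mem_nhds hy)).differentiableAt two_ne_zero)]
    rfl
  show fderiv ℝ (deriv3 a fun y => c * f y) x (unit3 a) = _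
  rw [he.fderiv_eq, fderiv_const_mul (contDiffAt_deriv3_aux hU hf hx a)]
  rfl

lemma lap_const (c : ℝ) : lap (fun _ : Space => c) = 0 := by
  funext x
  simp [lap, deriv3_eq]

lemma le_of_forall_pos_ae {α : Type*} [MeasurableSpace α] {μ : Measure α} {P : α → Prop}
    {f : α → ℝ} {c k : ℝ} (hk : 0 ≤ k)
    (h : ∀ ε > 0, ∀ᵐ x ∂μ, P x → f x ≤ c + ε * k) : ∀ᵐ x ∂μ, P x → f x ≤ c := by
  have h' : ∀ᵐ x ∂μ, ∀ n : ℕ, P x → f x ≤ c + 1 / ((n : ℝ) + 1) * k :=
    ae_all_iff.2 fun n => h _ Nat.one_div_pos_of_nat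
  filter_upwards [h'] with x hx hP
  refine le_of_forall_pos_le_add fun δ hδ => ?_
  obtain ⟨n, hn⟩ := exists_nat_one_div_lt (show (0 : ℝ) < δ / (k + 1) by positivity)
  have h1 : 1 / ((n : ℝ) + 1) * k ≤ δ := by
    calc 1 / ((n : ℝ) + 1) * k ≤ δ / (k + 1) * k := mul_le_mul_of_nonneg_right hn.le hk
      _ ≤ δ / (k + 1) * (k + 1) := by
          refine mul_le_mul_of_nonneg_left (by linarith) ?_
          positivity
      _ = δ := div_mul_cancel₀ _ (by linarith)
  linarith [hx n hP]

/-- The core estimate: on the compact set the function is almost below the bound outside it. -/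
lemma ae_le_of_compact {U K : Set Space} {f h V : Space → ℝ} (hU : IsOpen U)
    (hsub : WeakSubPoisson U f h) (hV : ContinuousOn V U) (hV0 : ∀ x ∈ U, 0 ≤ V x)
    (hbd : ∀ K, IsCompact K → K ⊆ U → ∃ C, ∀ᵐ x, x ∈ K → |f x| ≤ C)
    (hVh : ∀ᵐ x, x ∈ U → V x * f x ≤ h x) (hK : IsCompact K) (hKU : K ⊆ U) {ε : ℝ} (hε : 0 ≤ ε)
    (hout : ∀ᵐ x, x ∈ U \ K → f x ≤ ε) : ∀ᵐ x, x ∈ K → f x ≤ ε := by
  obtain ⟨δ, hδ, hδU⟩ := hK.exists_cthickening_subset_open hU hKU
  set L := cthickening δ K with hLdef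
  have hL : IsCompact L := hK.cthickening
  obtain ⟨C₀, hC₀⟩ := hbd L hL hδU
  set C := max C₀ 0
  have hC : ∀ᵐ x, x ∈ L → |f x| ≤ C := hC₀.mono fun x hx h => (hx h).trans (le_max_left _ _)
  set K₁ := cthickening (δ / 2) K with hK₁def
  have hK₁ : IsCompact K₁ := hK.cthickening
  have hK₁L : K₁ ⊆ L := cthickening_mono (by linarith) K
  obtain ⟨M, hM⟩ := (hK₁.image (f := fun x : Space => ‖x‖ ^ 2) (by fun_prop)).bddAbove
  set k := max M 0
  set F := L.indicator f
  have hFi : Integrable F :=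
    (integrable_indicator_iff hL.measurableSet).2 (hsub.1.integrableOn_compact_subset hδU hL)
  have hFl : LocallyIntegrable F := hFi.locallyIntegrable
  have hball : ∀ (x : Space) (r : ℝ), x ∈ K₁ → r ≤ δ / 2 → closedBall x r ⊆ L := by
    intro x r hx hr y hy
    rw [hK₁def, hK.cthickening_eq_biUnion_closedBall (by linarith)] at hx
    rw [hLdef, hK.cthickening_eq_biUnion_closedBall hδ.le]
    simp only [Set.mem_iUnion, mem_closedBall] at hx hy ⊢
    obtain ⟨z, hz, hxz⟩ := hx
    exact ⟨z, hz, (dist_triangle y x z).trans (by linarith)⟩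
  refine le_of_forall_pos_ae (k := k) (le_max_right _ _) fun ε' hε' => ?_
  obtain ⟨d, hd, hdV⟩ := Metric.uniformContinuousOn_iff.1
    (hL.uniformContinuousOn_of_continuous (hV.mono hδU)) (3 * ε' / (C + 1)) (by positivity)
  set r₀ := min (δ / 8) (d / 2)
  have hr₀ : 0 < r₀ := lt_min (by linarith) (by linarith)
  let η : ℕ → ℝ := fun n => r₀ / ((n : ℝ) + 1)
  have hη : ∀ n, 0 < η n := fun n => div_pos hr₀ (by positivity)
  have hη1 : ∀ n, η n ≤ r₀ := fun n =>
    div_le_self hr₀.le (le_add_of_nonneg_left (Nat.cast_nonneg n))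
  have hη0 : Tendsto η atTop (𝓝 0) := by
    simpa [η, div_eq_mul_inv] using
      (tendsto_one_div_add_atTop_nhds_zero_nat (𝕜 := ℝ)).const_mul r₀
  suffices key : ∀ n, ∀ x ∈ K₁, conv3 (molFun (η n) (hη n)) F x ≤ ε + ε' * k by
    filter_upwards [tendsto_conv3_mol hFl hη hη0] with x hx hxK
    have hxL : x ∈ L := self_subset_cthickening K hxK
    rw [← Set.indicator_of_mem hxL f]
    exact le_of_tendsto hx (Eventually.of_forall fun n =>
      key n x (self_subset_cthickening K hxK))
  intro n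
  set t := η n
  have ht : t ≤ δ / 8 ∧ t ≤ d / 2 :=
    ⟨(hη1 n).trans (min_le_left _ _), (hη1 n).trans (min_le_right _ _)⟩
  set ρ := molFun t (hη n) with hρdef
  have hρs := molFun_smooth (hη n)
  have hρc : HasCompactSupport ρ := (mol t (hη n)).hasCompactSupport_normed
  have hρ2 : ContDiff ℝ 2 ρ := hρs.of_le (WithTop.coe_le_coe.2 le_top)
  have hρb : ∀ x y, ρ (x - y) ≠ 0 → y ∈ closedBall x t := fun x y hne => by
    have := molFun_tsupport (hη n) (subset_tsupport ρ hne)
    rwa [mem_closedBall, dist_zero_right, ← dist_eq_norm, dist_comm] at this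
  set w := conv3 ρ F
  have hw : ContDiff ℝ 2 w := contDiff_conv3 (n := 2) hρ2 hρc hFl
  rcases K₁.eq_empty_or_nonempty with he | hne
  · simp [he]
  obtain ⟨x₀, hx₀, hmax⟩ := hK₁.exists_isMaxOn hne
    (f := fun x => w x + ε' * ‖x‖ ^ 2) ((hw.continuous.add (by fun_prop)).continuousOn)
  have hbx : closedBall x₀ t ⊆ L := hball x₀ t hx₀ (by linarith)
  have hint : ∫ y, ρ (x₀ - y) = 1 := integral_molFun (hη n) x₀
  have hρi : Integrable fun y => ρ (x₀ - y) :=
    ((mol t (hη n)).integrable_normed (μ := volume)).comp_sub_left x₀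
  suffices hw0 : w x₀ ≤ ε by
    intro x hx
    have h1 : w x + ε' * ‖x‖ ^ 2 ≤ w x₀ + ε' * ‖x₀‖ ^ 2 := hmax hx
    have h2 : ‖x₀‖ ^ 2 ≤ k := (hM ⟨x₀, hx₀, rfl⟩).trans (le_max_left _ _)
    nlinarith [sq_nonneg ‖x‖]
  by_cases hin : x₀ ∈ cthickening t K
  swap
  · refine (integral_mono_ae (g := fun y => ε * ρ (x₀ - y))
      (integrable_conv3 hρ2.continuous hρc hFl x₀) (hρi.const_mul ε) ?_).trans_eq
      (by rw [integral_const_mul, hint, mul_one])
    filter_upwards [hout] with y hy
    by_cases h0 : ρ (x₀ - y) = 0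
    · simp [h0]
    refine mul_le_mul_of_nonneg_right ?_ (molFun_nonneg (hη n) _)
    have hyb := hρb _ _ h0
    have hyL := hbx hyb
    simp only [F, Set.indicator_of_mem hyL]
    refine hy ⟨hδU hyL, fun hyK => hin ?_⟩
    exact mem_cthickening_of_dist_le x₀ y t K hyK (by rw [dist_comm]; exact hyb)
  have hloc : IsLocalMax (fun x => w x + ε' * ‖x‖ ^ 2) x₀ := by
    refine hmax.isLocalMax (mem_of_superset (closedBall_mem_nhds x₀ (by linarith : 0 < δ / 4)) ?_)
    rw [hK.cthickening_eq_biUnion_closedBall (hη n).le] at hin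
    intro y hy
    rw [hK₁def, hK.cthickening_eq_biUnion_closedBall (by linarith)]
    simp only [Set.mem_iUnion, mem_closedBall] at hin hy ⊢
    obtain ⟨z, hz, hxz⟩ := hin
    exact ⟨z, hz, (dist_triangle y x₀ z).trans (by linarith)⟩
  have hq : ContDiff ℝ 2 fun x : Space => ε' * ‖x‖ ^ 2 :=
    contDiff_const.mul (contDiff_norm_sq ℝ)
  have hlap0 := lap_nonpos_of_isLocalMax isOpen_univ (Set.mem_univ _)
    (hw.add hq).contDiffOn hloc
  have hnsq : lap (fun x : Space => ‖x‖ ^ 2) x₀ = 6 := by simpa using lap_normSq 0 x₀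
  rw [lap_add isOpen_univ hw.contDiffOn hq.contDiffOn (Set.mem_univ _),
    lap_const_mul ε' isOpen_univ (contDiff_norm_sq ℝ).contDiffOn (Set.mem_univ _), hnsq,
    lap_conv3 hρ2 hρc hFl] at hlap0
  have hbump : IsBump U fun y => ρ (x₀ - y) :=
    isBump_comp_sub hρs (molFun_tsupport (hη n)) (hbx.trans hδU)
  have hd0 := hsub.2.2 _ hbump fun y => molFun_nonneg (hη n) _
  have hcv : conv3 (lap ρ) F x₀ = ∫ y, f y * lap (fun z => ρ (x₀ - z)) y := by
    refine integral_congr_ae (Eventually.of_forall fun y => ?_)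
    simp only [lap_comp_sub hρ2]
    by_cases h0 : lap ρ (x₀ - y) = 0
    · simp [h0]
    · have := molFun_tsupport (hη n) (tsupport_lap ρ (subset_tsupport _ h0))
      rw [mem_closedBall, dist_zero_right, ← dist_eq_norm, dist_comm] at this
      simp only [F, Set.indicator_of_mem (hbx (mem_closedBall.2 this))]
  have hhi : Integrable fun y => h y * ρ (x₀ - y) :=
    integrable_mul_of_tsupport hsub.2.1 hbump.continuous hbump.compact hbump.supp
  set ω := 3 * ε' / (C + 1)
  have hFρ := integrable_conv3 hρ2.continuous hρc hFl x₀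
  have hlow : ∫ y, (V x₀ * (F y * ρ (x₀ - y)) - ω * C * ρ (x₀ - y)) ≤ ∫ y, h y * ρ (x₀ - y) := by
    refine integral_mono_ae ((hFρ.const_mul _).sub (hρi.const_mul _)) hhi ?_
    filter_upwards [hVh, hC] with y hy hyC
    by_cases h0 : ρ (x₀ - y) = 0
    · simp [h0]
    have hyb := hρb _ _ h0
    have hyL := hbx hyb
    simp only [F, Set.indicator_of_mem hyL]
    have h1 : |V y - V x₀| < ω := by
      rw [← Real.dist_eq]
      refine hdV y hyL x₀ (hK₁L hx₀) ?_
      have := mem_closedBall.1 hyb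
      linarith
    have h2 : |V y - V x₀| * |f y| ≤ ω * C :=
      mul_le_mul h1.le (hyC hyL) (abs_nonneg _) (by positivity)
    rw [← abs_mul] at h2
    have h3 : V x₀ * f y - ω * C ≤ h y := by
      linarith [hy (hδU hyL), (abs_le.1 h2).1]
    have := mul_le_mul_of_nonneg_right h3 (molFun_nonneg (hη n) (x₀ - y))
    linarith
  rw [integral_sub (hFρ.const_mul _) (hρi.const_mul _), integral_const_mul, integral_const_mul,
    hint] at hlow
  have hωC : ω * C < 6 * ε' := by
    calc ω * C ≤ ω * (C + 1) := mul_le_mul_of_nonneg_left (by linarith) (by positivity)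
      _ = 3 * ε' := div_mul_cancel₀ _ (by positivity)
      _ < 6 * ε' := by linarith
  have hVw : V x₀ * w x₀ < 0 := by
    have : V x₀ * w x₀ = V x₀ * ∫ y, F y * ρ (x₀ - y) := rfl
    linarith [hcv ▸ hlap0]
  by_contra hpos
  have : 0 ≤ V x₀ * w x₀ := mul_nonneg (hV0 _ (hδU (hK₁L hx₀))) (by linarith)
  linarith

/-- The weak maximum principle. -/
theorem maxPrinciple : MaxPrincipleStmt := by
  intro U f h V hU hsub hV hV0 hbd hVh hsmall
  refine le_of_forall_pos_ae (k := 1) zero_le_one fun ε hε => ?_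
  obtain ⟨K, hK, hKU, hout⟩ := hsmall ε hε
  filter_upwards [ae_le_of_compact hU hsub hV hV0 hbd hVh hK hKU hε.le hout, hout] with x h1 h2 hx
  rw [zero_add, mul_one]
  by_cases hxK : x ∈ K
  · exact h1 hxK
  · exact h2 ⟨hx, hxK⟩

/-- The maximum principle for continuous functions. -/
theorem maxCont : MaxContStmt := by
  intro U f h hU hf hsub hh hfr hdec
  suffices key : ∀ ε > 0, ∀ x ∈ U, f x ≤ ε by
    intro x hx
    by_cases hxU : x ∈ U
    · exact le_of_forall_gt_imp_ge_of_dense fun ε hε => key ε hε x hxU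
    · exact hfr x ⟨hx, by rwa [hU.interior_eq]⟩
  intro ε hε
  set W := {x | x ∈ U ∧ ε < f x}
  have hW : IsOpen W := (hf.mono subset_closure).isOpen_inter_preimage hU isOpen_Ioi
  have hc : WeakSubPoisson U (fun x => f x + -ε) fun x => h x + (0 : Space → ℝ) x := by
    refine hsub.add ?_
    have hp := (WeakPoisson.of_contDiffOn hU (f := fun _ : Space => -ε) contDiffOn_const).toSub
    rwa [lap_const] at hp
  obtain ⟨R, hR⟩ := hdec ε hε
  have hsmall : ∀ ε' : ℝ, ε' > 0 → ∃ K, IsCompact K ∧ K ⊆ W ∧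
      ∀ᵐ x : Space, x ∈ W \ K → f x + -ε ≤ ε' := by
    intro ε' hε'
    refine ⟨closure U ∩ f ⁻¹' Set.Ici (ε + ε'), ?_, ?_, Eventually.of_forall fun x hx => ?_⟩
    · refine (isCompact_closedBall (0 : Space) R).of_isClosed_subset
        (hf.preimage_isClosed_of_isClosed isClosed_closure isClosed_Ici) fun x hx => ?_
      have hxU : x ∈ U := by
        by_contra hn
        have h1 := hfr x ⟨hx.1, by rwa [hU.interior_eq]⟩
        have h2 : ε + ε' ≤ f x := hx.2
        linarith
      rw [mem_closedBall, dist_zero_right]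
      by_contra hn
      have h1 := hR x hxU (le_of_lt (not_le.1 hn))
      have h2 : ε + ε' ≤ f x := hx.2
      linarith
    · intro x hx
      have h2 : ε + ε' ≤ f x := hx.2
      refine ⟨?_, by linarith⟩
      by_contra hn
      linarith [hfr x ⟨hx.1, by rwa [hU.interior_eq]⟩]
    · have h2 : ¬ ε + ε' ≤ f x := fun h => hx.2 ⟨subset_closure hx.1.1, h⟩
      linarith
  have h0 : ∀ᵐ x : Space, x ∈ W → f x + -ε ≤ 0 := by
    refine maxPrinciple W _ _ (fun _ => 0) hW (hc.mono fun x hx => hx.1) continuousOn_const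
      (fun _ _ => le_rfl) (fun K hK hKW => ?_) ?_ hsmall
    · obtain ⟨C, hC⟩ := hK.exists_bound_of_continuousOn
        (((hf.mono subset_closure).add continuousOn_const).mono fun x hx => (hKW hx).1)
      exact ⟨C, Eventually.of_forall fun x hx => hC x hx⟩
    · filter_upwards [hh] with x hx hxW
      have : 0 ≤ h x := hx hxW.1 (hε.trans hxW.2)
      simpa using this
  have hW0 : volume W = 0 := by
    refine measure_mono_null (fun x hx => ?_) (ae_iff.1 h0)
    simp only [Set.mem_ofPred_eq, Classical.not_imp, not_le]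
    exact ⟨hx, by linarith [hx.2]⟩
  intro x hx
  by_contra hn
  have : x ∈ W := ⟨hx, not_le.1 hn⟩
  rw [(hW.measure_eq_zero_iff volume).1 hW0] at this
  exact this

end Vale.Agent.P363
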