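import Vale.Agent.P363.Tool.Weak.Basic

/-!
P363: weak Laplacians of `C¹` functions: Green's identity with `C¹` tests, the flux of a quotient,
and the Laplacian of the length of a vector of functions.
-/

noncomputable section

namespace Vale.Agent.P363

open MeasureTheory Filter Set Metric
open scoped BigOperators Topology ContDiff Convolution

/-- Inner product of classical gradients. -/
def gradDot (f g : Space → ℝ) (x : Space) : ℝ := ∑ a : Fin 3, deriv3 a f x * deriv3 a g x

/-- Continuously differentiable tests supported in a set. -/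
structure IsC1Test (U : Set Space) (φ : Space → ℝ) : Prop where
  smooth : ContDiff ℝ 1 φ
  compact : HasCompactSupport φ
  supp : tsupport φ ⊆ U

theorem IsBump.isC1Test {U : Set Space} {η : Space → ℝ} (h : IsBump U η) : IsC1Test U η :=
  ⟨h.smooth.of_le (by exact_mod_cast le_top), h.compact, h.supp⟩

theorem IsC1Test.continuous_deriv3 {U : Set Space} {φ : Space → ℝ} (h : IsC1Test U φ) (a : Fin 3) :
    Continuous (deriv3 a φ) :=
  (h.smooth.continuous_fderiv one_ne_zero).clm_apply continuous_const

theorem tsupport_deriv3_subset (a : Fin 3) (φ : Space → ℝ) :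
    tsupport (deriv3 a φ) ⊆ tsupport φ :=
  tsupport_fderiv_apply_subset ℝ (unit3 a)

theorem differentiableAt_of_c1 {U : Set Space} (hU : IsOpen U) {f : Space → ℝ}
    (hf : ContDiffOn ℝ 1 f U) {x : Space} (hx : x ∈ U) : DifferentiableAt ℝ f x :=
  (hf.contDiffAt (hU.mem_nhds hx)).differentiableAt one_ne_zero

theorem integrable_gradDot {U : Set Space} (hU : IsOpen U) {f φ : Space → ℝ}
    (hf : ContDiffOn ℝ 1 f U) (hφ : IsC1Test U φ) : Integrable fun x => gradDot f φ x :=
  integrable_finsetSum _ fun a _ => integrable_mul_of_tsupport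
    ((continuousOn_deriv3 hU hf a).locallyIntegrableOn hU.measurableSet)
    (hφ.continuous_deriv3 a) (hφ.compact.fderiv_apply ℝ (unit3 a))
    ((tsupport_deriv3_subset a φ).trans hφ.supp)

/-- Integration by parts of a `C¹` function against a test. -/
theorem integral_mul_deriv3 {U : Set Space} (hU : IsOpen U) {f φ : Space → ℝ}
    (hf : ContDiffOn ℝ 1 f U) (hφ : IsC1Test U φ) (a : Fin 3) :
    ∫ x, f x * deriv3 a φ x = -∫ x, deriv3 a f x * φ x :=
  integral_mul_fderiv_eq_neg_fderiv_mul_of_integrable
    (integrable_mul_of_tsupport ((continuousOn_deriv3 hU hf a).locallyIntegrableOn hU.measurableSet)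
      hφ.smooth.continuous hφ.compact hφ.supp)
    (integrable_mul_of_tsupport (hf.continuousOn.locallyIntegrableOn hU.measurableSet)
      (hφ.continuous_deriv3 a) (hφ.compact.fderiv_apply ℝ (unit3 a))
      ((tsupport_deriv3_subset a φ).trans hφ.supp))
    (integrable_mul_of_tsupport (hf.continuousOn.locallyIntegrableOn hU.measurableSet)
      hφ.smooth.continuous hφ.compact hφ.supp)
    (fun _ hx => differentiableAt_of_c1 hU hf (hφ.supp hx))
    fun x _ => hφ.smooth.differentiable one_ne_zero x

/-- The Dirichlet pairing with a smooth test. -/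
theorem integral_mul_lap_eq_neg_gradDot {U : Set Space} (hU : IsOpen U) {f η : Space → ℝ}
    (hf : ContDiffOn ℝ 1 f U) (hη : IsBump U η) :
    ∫ x, f x * lap η x = -∫ x, gradDot f η x := by
  simp only [lap, gradDot, Finset.mul_sum]
  rw [integral_finsetSum _ fun a _ => integrable_mul_of_tsupport
      (hf.continuousOn.locallyIntegrableOn hU.measurableSet)
      ((hη.deriv a).deriv a).smooth.continuous ((hη.deriv a).deriv a).compact
      ((hη.deriv a).deriv a).supp,
    integral_finsetSum _ fun a _ => integrable_mul_of_tsupport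
      ((continuousOn_deriv3 hU hf a).locallyIntegrableOn hU.measurableSet)
      (hη.deriv a).smooth.continuous (hη.deriv a).compact (hη.deriv a).supp,
    ← Finset.sum_neg_distrib]
  exact Finset.sum_congr rfl fun a _ => integral_mul_deriv3 hU hf (hη.deriv a).isC1Test a

/-- A `C¹` test is a uniform `C¹` limit of smooth tests with supports in a fixed compact set. -/
theorem exists_bump_near {U : Set Space} (hU : IsOpen U) {φ : Space → ℝ} (hφ : IsC1Test U φ) :
    ∃ K : Set Space, IsCompact K ∧ K ⊆ U ∧ tsupport φ ⊆ K ∧ ∀ ε : ℝ, 0 < ε →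
      ∃ ψ, IsBump U ψ ∧ tsupport ψ ⊆ K ∧ (∀ x, |ψ x - φ x| ≤ ε) ∧
        ∀ a x, |deriv3 a ψ x - deriv3 a φ x| ≤ ε := by
  obtain ⟨δ, hδ, hsub⟩ := hφ.compact.isCompact.exists_cthickening_subset_open hU hφ.supp
  refine ⟨cthickening δ (tsupport φ), hφ.compact.isCompact.cthickening, hsub,
    self_subset_cthickening _, fun ε hε => ?_⟩
  obtain ⟨r₀, hr₀, h0⟩ := Metric.uniformContinuous_iff.1
    (hφ.compact.uniformContinuous_of_continuous hφ.smooth.continuous) ε hε
  have h1 : ∀ a : Fin 3, ∃ r > 0, ∀ {x y : Space}, dist x y < r →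
      dist (deriv3 a φ x) (deriv3 a φ y) < ε := fun a => Metric.uniformContinuous_iff.1
    ((hφ.compact.fderiv_apply ℝ (unit3 a)).uniformContinuous_of_continuous
      (hφ.continuous_deriv3 a)) ε hε
  choose r hr hr' using h1
  set R := min δ (min r₀ (min (r 0) (min (r 1) (r 2)))) with hRdef
  have hR : 0 < R := lt_min hδ (lt_min hr₀ (lt_min (hr 0) (lt_min (hr 1) (hr 2))))
  let b : ContDiffBump (0 : Space) := ⟨R / 2, R, by linarith, by linarith⟩
  set ψ := (b.normed volume) ⋆[ContinuousLinearMap.lsmul ℝ ℝ, volume] φ with hψ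
  have hd : ∀ a x, deriv3 a ψ x =
      ((b.normed volume) ⋆[ContinuousLinearMap.lsmul ℝ ℝ, volume] deriv3 a φ) x := fun a x => by
    rw [hψ, deriv3, (hφ.compact.hasFDerivAt_convolution_right _
      b.continuous_normed.locallyIntegrable hφ.smooth x).fderiv,
      convolution_precompR_apply _ b.continuous_normed.locallyIntegrable (hφ.compact.fderiv ℝ)
        (hφ.smooth.continuous_fderiv one_ne_zero)]
    rfl
  have hts : tsupport ψ ⊆ cthickening δ (tsupport φ) := by
    refine closure_minimal ((support_convolution_subset _).trans ?_) isClosed_cthickening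
    rintro _ ⟨u, hu, v, hv, rfl⟩
    refine mem_cthickening_of_dist_le _ v δ _ (subset_tsupport _ hv) ?_
    rw [b.support_normed_eq, mem_ball_zero_iff] at hu
    rw [dist_eq_norm, add_sub_cancel_right]
    exact hu.le.trans (min_le_left _ _)
  refine ⟨ψ, ⟨?_, hφ.compact.isCompact.cthickening.of_isClosed_subset (isClosed_tsupport _) hts,
    hts.trans hsub⟩, hts, fun x => ?_, fun a x => ?_⟩
  · exact b.hasCompactSupport_normed.contDiff_convolution_left _ b.contDiff_normed
      hφ.smooth.continuous.locallyIntegrable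
  · rw [← Real.dist_eq]
    refine b.dist_normed_convolution_le hφ.smooth.continuous.aestronglyMeasurable fun y hy => ?_
    exact (h0 ((mem_ball.1 hy).trans_le ((min_le_right _ _).trans (min_le_left _ _)))).le
  · rw [hd, ← Real.dist_eq]
    refine b.dist_normed_convolution_le (hφ.continuous_deriv3 a).aestronglyMeasurable fun y hy => ?_
    refine (hr' a ((mem_ball.1 hy).trans_le ?_)).le
    fin_cases a
    · exact (min_le_right _ _).trans ((min_le_right _ _).trans (min_le_left _ _))
    · exact (min_le_right _ _).trans ((min_le_right _ _).trans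
        ((min_le_right _ _).trans (min_le_left _ _)))
    · exact (min_le_right _ _).trans ((min_le_right _ _).trans
        ((min_le_right _ _).trans (min_le_right _ _)))

/-- A locally integrable weight separates little between uniformly close tests. -/
theorem abs_integral_mul_sub_le {U K : Set Space} {F p q : Space → ℝ}
    (hF : LocallyIntegrableOn F U) (hK : IsCompact K) (hKU : K ⊆ U) (hp : Continuous p)
    (hq : Continuous q) (hps : tsupport p ⊆ K) (hqs : tsupport q ⊆ K) {ε : ℝ}
    (h : ∀ x, |p x - q x| ≤ ε) :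
    |(∫ x, F x * p x) - ∫ x, F x * q x| ≤ ε * ∫ x in K, |F x| := by
  have hcp : HasCompactSupport p := hK.of_isClosed_subset (isClosed_tsupport _) hps
  have hcq : HasCompactSupport q := hK.of_isClosed_subset (isClosed_tsupport _) hqs
  rw [← integral_sub (integrable_mul_of_tsupport hF hp hcp (hps.trans hKU))
    (integrable_mul_of_tsupport hF hq hcq (hqs.trans hKU)), ← integral_const_mul,
    ← setIntegral_eq_integral_of_forall_compl_eq_zero (s := K) (f := fun x => F x * p x - F x * q x)
      (fun x hx => by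
        rw [image_eq_zero_of_notMem_tsupport fun hh => hx (hps hh),
          image_eq_zero_of_notMem_tsupport fun hh => hx (hqs hh)]
        ring)]
  refine abs_integral_le_integral_abs.trans (integral_mono_of_nonneg
    (.of_forall fun x => abs_nonneg _) ((hF.integrableOn_compact_subset hKU hK).abs.const_mul ε)
    (.of_forall fun x => ?_))
  simp only [← mul_sub, abs_mul, mul_comm ε]
  exact mul_le_mul_of_nonneg_left (h x) (abs_nonneg _)

/-- Green's identity with `C¹` tests. -/
theorem WeakPoisson.green {U : Set Space} (hU : IsOpen U) {f h φ : Space → ℝ}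
    (hw : WeakPoisson U f h) (hf : ContDiffOn ℝ 1 f U) (hφ : IsC1Test U φ) :
    ∫ x, gradDot f φ x = -∫ x, h x * φ x := by
  obtain ⟨K, hK, hKU, hφK, happ⟩ := exists_bump_near hU hφ
  set C := (∑ a : Fin 3, ∫ x in K, |deriv3 a f x|) + ∫ x in K, |h x| with hC
  have hC0 : 0 ≤ C := by positivity
  refine eq_of_forall_dist_le fun δ hδ => ?_
  obtain ⟨ψ, hψ, hψK, h0, h1⟩ := happ (δ / (C + 1)) (by positivity)
  have e : ∫ x, gradDot f ψ x = -∫ x, h x * ψ x := by
    rw [← hw.2.2 ψ hψ, integral_mul_lap_eq_neg_gradDot hU hf hψ, neg_neg]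
  have hI : |(∫ x, gradDot f φ x) - ∫ x, gradDot f ψ x| ≤
      δ / (C + 1) * ∑ a : Fin 3, ∫ x in K, |deriv3 a f x| := by
    simp only [gradDot]
    rw [integral_finsetSum _ fun a _ => integrable_mul_of_tsupport
        ((continuousOn_deriv3 hU hf a).locallyIntegrableOn hU.measurableSet)
        (hφ.continuous_deriv3 a) (hφ.compact.fderiv_apply ℝ (unit3 a))
        ((tsupport_deriv3_subset a φ).trans hφ.supp),
      integral_finsetSum _ fun a _ => integrable_mul_of_tsupport
        ((continuousOn_deriv3 hU hf a).locallyIntegrableOn hU.measurableSet)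
        (hψ.deriv a).smooth.continuous (hψ.deriv a).compact (hψ.deriv a).supp,
      ← Finset.sum_sub_distrib, Finset.mul_sum]
    refine (Finset.abs_sum_le_sum_abs _ _).trans (Finset.sum_le_sum fun a _ => ?_)
    exact abs_integral_mul_sub_le
      ((continuousOn_deriv3 hU hf a).locallyIntegrableOn hU.measurableSet) hK hKU
      (hφ.continuous_deriv3 a) (hψ.deriv a).smooth.continuous
      ((tsupport_deriv3_subset a φ).trans hφK) ((tsupport_deriv3_subset a ψ).trans hψK)
      fun x => by rw [abs_sub_comm]; exact h1 a x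
  have hJ : |(∫ x, h x * φ x) - ∫ x, h x * ψ x| ≤ δ / (C + 1) * ∫ x in K, |h x| :=
    abs_integral_mul_sub_le hw.2.1 hK hKU hφ.smooth.continuous hψ.smooth.continuous hφK hψK
      fun x => by rw [abs_sub_comm]; exact h0 x
  calc dist (∫ x, gradDot f φ x) (-∫ x, h x * φ x)
      = |((∫ x, gradDot f φ x) - ∫ x, gradDot f ψ x) +
          ((∫ x, h x * φ x) - ∫ x, h x * ψ x)| := by rw [Real.dist_eq, e]; ring_nf
    _ ≤ δ / (C + 1) * C := by
        rw [hC, mul_add]; exact (abs_add_le _ _).trans (add_le_add hI hJ)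
    _ ≤ δ := by
        rw [div_mul_eq_mul_div, div_le_iff₀ (by linarith)]
        nlinarith

/-- The converse: a Dirichlet pairing gives a weak equation. -/
theorem weakPoisson_of_green {U : Set Space} (hU : IsOpen U) {f h : Space → ℝ}
    (hf : ContDiffOn ℝ 1 f U) (hh : LocallyIntegrableOn h U)
    (hg : ∀ η, IsBump U η → ∫ x, gradDot f η x = -∫ x, h x * η x) : WeakPoisson U f h :=
  ⟨hf.continuousOn.locallyIntegrableOn hU.measurableSet, hh, fun η hη => by
    rw [integral_mul_lap_eq_neg_gradDot hU hf hη, hg η hη, neg_neg]⟩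

/-- Products of a `C¹` function on `U` with a test are tests. -/
theorem IsC1Test.mul {U : Set Space} (hU : IsOpen U) {f φ : Space → ℝ}
    (hf : ContDiffOn ℝ 1 f U) (hφ : IsC1Test U φ) : IsC1Test U fun x => f x * φ x := by
  refine ⟨contDiff_iff_contDiffAt.2 fun x => ?_, hφ.compact.mul_left, ?_⟩
  · by_cases hx : x ∈ tsupport φ
    · exact (hf.contDiffAt (hU.mem_nhds (hφ.supp hx))).mul hφ.smooth.contDiffAt
    · refine (contDiffAt_const (c := (0 : ℝ))).congr_of_eventuallyEq ?_
      filter_upwards [(isClosed_tsupport φ).isOpen_compl.mem_nhds hx] with y hy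
      rw [image_eq_zero_of_notMem_tsupport hy, mul_zero]
  · exact (tsupport_mul_subset_right).trans hφ.supp

/-- The flux of a quotient: `div (g² ∇(f/g)) = g Δf - f Δg`. -/
theorem ratio_flux {U : Set Space} (hU : IsOpen U) {f g hf' hg' φ : Space → ℝ}
    (hwf : WeakPoisson U f hf') (hf : ContDiffOn ℝ 1 f U)
    (hwg : WeakPoisson U g hg') (hg : ContDiffOn ℝ 1 g U) (hg0 : ∀ x ∈ U, g x ≠ 0)
    (hφ : IsC1Test U φ) :
    ∫ x, g x ^ 2 * gradDot (fun y => f y / g y) φ x =
      -∫ x, (g x * hf' x - f x * hg' x) * φ x := by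
  have t1 := IsC1Test.mul hU hg hφ
  have t2 := IsC1Test.mul hU hf hφ
  have key : ∀ x, g x ^ 2 * gradDot (fun y => f y / g y) φ x =
      gradDot f (fun y => g y * φ y) x - gradDot g (fun y => f y * φ y) x := by
    intro x
    simp only [gradDot, Finset.mul_sum, ← Finset.sum_sub_distrib]
    refine Finset.sum_congr rfl fun a _ => ?_
    by_cases hx : x ∈ tsupport φ
    · have hxU := hφ.supp hx
      have dg := differentiableAt_of_c1 hU hg hxU
      have dq : DifferentiableAt ℝ (fun y => f y / g y) x :=
        differentiableAt_of_c1 hU (hf.div hg hg0) hxU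
      have e : deriv3 a f x =
          deriv3 a (fun y => f y / g y) x * g x + f x / g x * deriv3 a g x := by
        rw [← deriv3_mul dq dg a]
        refine congrArg (fun L : Space →L[ℝ] ℝ => L (unit3 a)) (Filter.EventuallyEq.fderiv_eq ?_)
        filter_upwards [hU.mem_nhds hxU] with y hy
        rw [div_mul_cancel₀ _ (hg0 y hy)]
      rw [deriv3_mul dg (hφ.smooth.differentiable one_ne_zero x),
        deriv3_mul (differentiableAt_of_c1 hU hf hxU) (hφ.smooth.differentiable one_ne_zero x), e]
      have := hg0 x hxU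
      field_simp
      ring
    · rw [deriv3_eq_zero_of_notMem _ hx, deriv3_eq_zero_of_notMem _ (fun h => hx
          (tsupport_mul_subset_right h)), deriv3_eq_zero_of_notMem _ (fun h => hx
          (tsupport_mul_subset_right h))]
      ring
  simp only [key]
  rw [integral_sub (integrable_gradDot hU hf t1) (integrable_gradDot hU hg t2),
    hwf.green hU hf t1, hwg.green hU hg t2, neg_sub_neg]
  rw [← integral_sub (integrable_mul_of_tsupport hwg.2.1 t2.smooth.continuous t2.compact t2.supp)
    (integrable_mul_of_tsupport hwf.2.1 t1.smooth.continuous t1.compact t1.supp), ← integral_neg]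
  refine integral_congr_ae (.of_forall fun x => ?_)
  ring

/-- The length of a finite family of functions. -/
def vecLen {ι : Type*} [Fintype ι] (f : ι → Space → ℝ) (x : Space) : ℝ :=
  Real.sqrt (∑ i, f i x ^ 2)

/-- The weak Laplacian of `vecLen f` given those of the `f i`. -/
def vecLenLap {ι : Type*} [Fintype ι] (f h : ι → Space → ℝ) (x : Space) : ℝ :=
  ((∑ i, (f i x * h i x + gradDot (f i) (f i) x)) - gradDot (vecLen f) (vecLen f) x) / vecLen f x

section VecLen

variable {ι : Type*} [Fintype ι] {U : Set Space} {f h : ι → Space → ℝ}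

theorem contDiffOn_vecLen (hf : ∀ i, ContDiffOn ℝ 1 (f i) U)
    (h0 : ∀ x ∈ U, 0 < vecLen f x) : ContDiffOn ℝ 1 (vecLen f) U :=
  (ContDiffOn.sum fun i _ => (hf i).pow 2).sqrt fun x hx =>
    (Real.sqrt_pos.1 (h0 x hx)).ne'

theorem vecLen_mul_deriv3 (hU : IsOpen U) (hf : ∀ i, ContDiffOn ℝ 1 (f i) U)
    (h0 : ∀ x ∈ U, 0 < vecLen f x) {x : Space} (hx : x ∈ U) (a : Fin 3) :
    vecLen f x * deriv3 a (vecLen f) x = ∑ i, f i x * deriv3 a (f i) x := by
  have dL := differentiableAt_of_c1 hU (contDiffOn_vecLen hf h0) hx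
  have e1 : deriv3 a (fun y => vecLen f y * vecLen f y) x =
      deriv3 a (fun y => ∑ i, f i y * f i y) x :=
    congrArg (fun L : Space →L[ℝ] ℝ => L (unit3 a)) (Filter.EventuallyEq.fderiv_eq (.of_forall
      fun y => by
        simp only [vecLen, ← pow_two]
        rw [Real.sq_sqrt (Finset.sum_nonneg fun i _ => sq_nonneg _)]))
  have e2 : deriv3 a (fun y => ∑ i, f i y * f i y) x =
      ∑ i, deriv3 a (fun y => f i y * f i y) x := by
    simp only [deriv3]
    rw [fderiv_fun_sum fun i _ => (differentiableAt_of_c1 hU (hf i) hx).fun_mul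
      (differentiableAt_of_c1 hU (hf i) hx), sum_apply]
  rw [e2, deriv3_mul dL dL] at e1
  simp only [deriv3_mul (differentiableAt_of_c1 hU (hf _) hx)
    (differentiableAt_of_c1 hU (hf _) hx), mul_comm (deriv3 a (f _) x), ← two_mul,
    ← Finset.mul_sum] at e1
  linarith

theorem locallyIntegrableOn_vecLenLap (hU : IsOpen U) (hw : ∀ i, WeakPoisson U (f i) (h i))
    (hf : ∀ i, ContDiffOn ℝ 1 (f i) U) (h0 : ∀ x ∈ U, 0 < vecLen f x) :
    LocallyIntegrableOn (vecLenLap f h) U := by
  have hL := contDiffOn_vecLen hf h0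
  have hd : ∀ g, ContDiffOn ℝ 1 g U → ContinuousOn (gradDot g g) U := fun g hg =>
    continuousOn_finsetSum _ fun a _ => (continuousOn_deriv3 hU hg a).mul (continuousOn_deriv3 hU hg a)
  rw [locallyIntegrableOn_iff hU.isLocallyClosed]
  intro K hKU hK
  unfold vecLenLap
  simp only [div_eq_mul_inv]
  refine IntegrableOn.mul_continuousOn ?_ ((hL.continuousOn.inv₀ fun x hx => (h0 x hx).ne').mono
    hKU) hK
  refine (integrable_finsetSum _ fun i _ => ?_).sub
    (((hd _ hL).mono hKU).integrableOn_compact hK)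
  exact (((hw i).2.1.integrableOn_compact_subset hKU hK).continuousOn_mul
    ((hf i).continuousOn.mono hKU) hK).add (((hd _ (hf i)).mono hKU).integrableOn_compact hK)

/-- Green's identity for the length of a family. -/
theorem vecLen_green (hU : IsOpen U) (hw : ∀ i, WeakPoisson U (f i) (h i))
    (hf : ∀ i, ContDiffOn ℝ 1 (f i) U) (h0 : ∀ x ∈ U, 0 < vecLen f x) {φ : Space → ℝ}
    (hφ : IsC1Test U φ) :
    ∫ x, gradDot (vecLen f) φ x = -∫ x, vecLenLap f h x * φ x := by
  have hL := contDiffOn_vecLen hf h0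
  have hLi := hL.inv fun x hx => (h0 x hx).ne'
  set q := fun y => (vecLen f y)⁻¹ * φ y with hq
  have tq : IsC1Test U q := IsC1Test.mul hU hLi hφ
  have t : ∀ i, IsC1Test U fun y => f i y * q y := fun i => IsC1Test.mul hU (hf i) tq
  have key : ∀ x, gradDot (vecLen f) φ x = (∑ i, gradDot (f i) (fun y => f i y * q y) x) -
      ((∑ i, gradDot (f i) (f i) x) - gradDot (vecLen f) (vecLen f) x) * q x := by
    intro x
    by_cases hx : x ∈ tsupport φ
    · have hxU := hφ.supp hx
      have dq := tq.smooth.differentiable one_ne_zero x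
      have e : ∀ a, deriv3 a φ x = deriv3 a (vecLen f) x * q x + vecLen f x * deriv3 a q x := by
        intro a
        rw [← deriv3_mul (differentiableAt_of_c1 hU hL hxU) dq a]
        refine congrArg (fun L : Space →L[ℝ] ℝ => L (unit3 a)) (Filter.EventuallyEq.fderiv_eq ?_)
        filter_upwards [hU.mem_nhds hxU] with y hy
        rw [hq, mul_inv_cancel_left₀ (h0 y hy).ne']
      have e' : ∀ i a, deriv3 a (fun y => f i y * q y) x =
          deriv3 a (f i) x * q x + f i x * deriv3 a q x := fun i a =>
        deriv3_mul (differentiableAt_of_c1 hU (hf i) hxU) dq a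
      simp only [gradDot, e, e']
      rw [Finset.sum_comm, Finset.sum_comm (f := fun i a => deriv3 a (f i) x * deriv3 a (f i) x),
        ← Finset.sum_sub_distrib, Finset.sum_mul, ← Finset.sum_sub_distrib]
      refine Finset.sum_congr rfl fun a _ => ?_
      have hk := vecLen_mul_deriv3 hU hf h0 hxU a
      simp only [mul_add, Finset.sum_add_distrib, ← mul_assoc, ← Finset.sum_mul]
      rw [Finset.sum_congr rfl fun i _ => mul_comm (deriv3 a (f i) x) (f i x), ← hk]
      ring
    · have hxq : x ∉ tsupport q := fun h => hx (tsupport_mul_subset_right h)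
      simp [gradDot, deriv3_eq_zero_of_notMem _ hx, image_eq_zero_of_notMem_tsupport hxq,
        fun i a => deriv3_eq_zero_of_notMem (η := fun y => f i y * q y) a
          (x := x) (fun h => hxq (tsupport_mul_subset_right h))]
  have hd : ∀ g, ContDiffOn ℝ 1 g U → ContinuousOn (gradDot g g) U := fun g hg =>
    continuousOn_finsetSum _ fun a _ => (continuousOn_deriv3 hU hg a).mul (continuousOn_deriv3 hU hg a)
  have i1 : Integrable fun x => ((∑ i, gradDot (f i) (f i) x) -
      gradDot (vecLen f) (vecLen f) x) * q x :=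
    integrable_mul_of_tsupport (((continuousOn_finsetSum _ fun i _ => hd _ (hf i)).sub
      (hd _ hL)).locallyIntegrableOn hU.measurableSet) tq.smooth.continuous tq.compact tq.supp
  have i2 : ∀ i, Integrable fun x => h i x * (f i x * q x) := fun i =>
    integrable_mul_of_tsupport (hw i).2.1 (t i).smooth.continuous (t i).compact (t i).supp
  simp only [key]
  rw [integral_sub (integrable_finsetSum _ fun i _ => integrable_gradDot hU (hf i) (t i)) i1,
    integral_finsetSum _ fun i _ => integrable_gradDot hU (hf i) (t i),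
    Finset.sum_congr rfl fun i _ => (hw i).green hU (hf i) (t i), Finset.sum_neg_distrib,
    ← integral_finsetSum _ fun i _ => i2 i, neg_sub_left, ← integral_add i1
      (integrable_finsetSum _ fun i _ => i2 i)]
  refine congrArg Neg.neg (integral_congr_ae (.of_forall fun x => ?_))
  simp only [vecLenLap, hq, Finset.sum_add_distrib, div_eq_mul_inv]
  rw [show ∑ i, h i x * (f i x * ((vecLen f x)⁻¹ * φ x)) =
    (∑ i, f i x * h i x) * ((vecLen f x)⁻¹ * φ x) by
      rw [Finset.sum_mul]; exact Finset.sum_congr rfl fun i _ => by ring]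
  ring

/-- The length of a family solves the weak equation. -/
theorem weakPoisson_vecLen (hU : IsOpen U) (hw : ∀ i, WeakPoisson U (f i) (h i))
    (hf : ∀ i, ContDiffOn ℝ 1 (f i) U) (h0 : ∀ x ∈ U, 0 < vecLen f x) :
    WeakPoisson U (vecLen f) (vecLenLap f h) :=
  weakPoisson_of_green hU (contDiffOn_vecLen hf h0) (locallyIntegrableOn_vecLenLap hU hw hf h0)
    fun _ hη => vecLen_green hU hw hf h0 hη.isC1Test

/-- The gradient of the length is at most the length of the gradients. -/
theorem gradDot_vecLen_le (hU : IsOpen U) (hf : ∀ i, ContDiffOn ℝ 1 (f i) U)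
    (h0 : ∀ x ∈ U, 0 < vecLen f x) {x : Space} (hx : x ∈ U) :
    gradDot (vecLen f) (vecLen f) x ≤ ∑ i, gradDot (f i) (f i) x := by
  simp only [gradDot]
  rw [Finset.sum_comm]
  refine Finset.sum_le_sum fun a _ => ?_
  have hsq : vecLen f x ^ 2 = ∑ i, f i x ^ 2 :=
    Real.sq_sqrt (Finset.sum_nonneg fun i _ => sq_nonneg _)
  have h2 : (vecLen f x * deriv3 a (vecLen f) x) ^ 2 ≤
      vecLen f x ^ 2 * ∑ i, deriv3 a (f i) x ^ 2 := by
    rw [vecLen_mul_deriv3 hU hf h0 hx a, hsq]
    exact Finset.sum_mul_sq_le_sq_mul_sq _ _ _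
  rw [mul_pow] at h2
  have h3 := le_of_mul_le_mul_left h2 (pow_pos (h0 x hx) 2)
  simpa only [← pow_two] using h3

/-- The length of a family is a weak subsolution: `Δ|f| ≥ f · Δf / |f|`. -/
theorem div_le_vecLenLap (hU : IsOpen U) (hf : ∀ i, ContDiffOn ℝ 1 (f i) U)
    (h0 : ∀ x ∈ U, 0 < vecLen f x) {x : Space} (hx : x ∈ U) :
    (∑ i, f i x * h i x) / vecLen f x ≤ vecLenLap f h x := by
  refine div_le_div_of_nonneg_right ?_ (h0 x hx).le
  rw [Finset.sum_add_distrib]
  linarith [gradDot_vecLen_le hU hf h0 hx]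

/-- The flux equation of one component over the length. -/
theorem component_flux (hU : IsOpen U) (hw : ∀ i, WeakPoisson U (f i) (h i))
    (hf : ∀ i, ContDiffOn ℝ 1 (f i) U) (h0 : ∀ x ∈ U, 0 < vecLen f x) (j : ι) {φ : Space → ℝ}
    (hφ : IsC1Test U φ) :
    ∫ x, vecLen f x ^ 2 * gradDot (fun y => f j y / vecLen f y) φ x =
      -∫ x, (vecLen f x * h j x - f j x * vecLenLap f h x) * φ x :=
  ratio_flux hU (hw j) (hf j) (weakPoisson_vecLen hU hw hf h0) (contDiffOn_vecLen hf h0)
    (fun x hx => (h0 x hx).ne') hφ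

end VecLen

end Vale.Agent.P363
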