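import Vale.Agent.P363.Tool.YukRep
import Vale.Agent.P363.Tool.Weak.Basic

/-!
P363: a weak solution of `Δ f = h` in a ball is, on a smaller ball, the Newton potential of a cut
off source plus a smooth function controlled by the mean of `|f|`.
-/

noncomputable section

namespace Vale.Agent.P363.Yuk

open MeasureTheory Filter Metric
open scoped BigOperators Topology ENNReal

/-- The kernel switched off near the origin and far away. -/
def farKer (δ : ℝ) (hδ : 0 < δ) (D : ℝ) (hD : 0 < D) (z : Space) : ℝ :=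
  (⟨D, 2 * D, hD, by linarith⟩ : ContDiffBump (0 : Space)) z *
    ((1 - (⟨δ / 2, δ, half_pos hδ, half_lt_self hδ⟩ : ContDiffBump (0 : Space)) z) * yuk 0 z)

lemma contDiffAt_yuk_zero {z : Space} (hz : z ≠ 0) :
    ContDiffAt ℝ ((⊤ : ℕ∞) : WithTop ℕ∞) (yuk 0) z := by
  have e : yuk 0 = fun z : Space => 1 / ‖z‖ / (4 * Real.pi) := funext yuk_zero_eq'
  rw [e]
  exact (contDiffAt_const.div (contDiffAt_norm ℝ hz) (by simpa using hz)).div_const _
where
  yuk_zero_eq' (x : Space) : yuk 0 x = 1 / ‖x‖ / (4 * Real.pi) := by simp [yuk]; ring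

lemma contDiff_farKer (δ : ℝ) (hδ : 0 < δ) (D : ℝ) (hD : 0 < D) :
    ContDiff ℝ ((⊤ : ℕ∞) : WithTop ℕ∞) (farKer δ hδ D hD) := by
  rw [contDiff_iff_contDiffAt]
  intro z
  set b : ContDiffBump (0 : Space) := ⟨δ / 2, δ, half_pos hδ, half_lt_self hδ⟩ with hb
  rcases eq_or_ne z 0 with hz | hz
  · subst hz
    refine ContDiffAt.congr_of_eventuallyEq (contDiffAt_const (c := (0 : ℝ))) ?_
    filter_upwards [ball_mem_nhds (0 : Space) (half_pos hδ)] with w hw
    have h1 := b.one_of_mem_closedBall (ball_subset_closedBall hw)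
    simp only [hb] at h1
    simp only [farKer, h1, sub_self, zero_mul, mul_zero]
  · unfold farKer
    exact ContDiffAt.mul (ContDiffBump.contDiffAt _)
      ((contDiffAt_const.sub (ContDiffBump.contDiffAt _)).mul (contDiffAt_yuk_zero hz))

lemma hasCompactSupport_farKer (δ : ℝ) (hδ : 0 < δ) (D : ℝ) (hD : 0 < D) :
    HasCompactSupport (farKer δ hδ D hD) :=
  (ContDiffBump.hasCompactSupport _).mul_right

lemma farKer_eq (δ : ℝ) (hδ : 0 < δ) (D : ℝ) (hD : 0 < D) {z : Space} (h1 : δ ≤ ‖z‖)
    (h2 : ‖z‖ ≤ D) : farKer δ hδ D hD z = yuk 0 z := by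
  unfold farKer
  rw [ContDiffBump.one_of_mem_closedBall _ (by simpa using h2),
    ContDiffBump.zero_of_le_dist _ (by simpa [dist_zero_right] using h1)]
  simp

lemma abs_conv3_le {ρ u : Space → ℝ} {M : ℝ} (hM : ∀ z, |ρ z| ≤ M) (hu : Integrable u)
    (x : Space) : |conv3 ρ u x| ≤ M * ∫ y, |u y| := by
  rw [conv3, ← Real.norm_eq_abs, ← integral_const_mul]
  refine norm_integral_le_of_norm_le (hu.abs.const_mul M) (ae_of_all _ fun y => ?_)
  rw [norm_mul, Real.norm_eq_abs, Real.norm_eq_abs, mul_comm]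
  exact mul_le_mul_of_nonneg_right (hM _) (abs_nonneg _)

lemma deriv3_sum_conv3 {ι : Type*} [Fintype ι] {ρ u : ι → Space → ℝ}
    (hρ : ∀ i, ContDiff ℝ ((⊤ : ℕ∞) : WithTop ℕ∞) (ρ i)) (hc : ∀ i, HasCompactSupport (ρ i))
    (hu : ∀ i, LocallyIntegrable (u i)) (a : Fin 3) :
    deriv3 a (fun x => ∑ i, conv3 (ρ i) (u i) x) =
      fun x => ∑ i, conv3 (deriv3 a (ρ i)) (u i) x := by
  funext x
  have hd : ∀ i, DifferentiableAt ℝ (conv3 (ρ i) (u i)) x := fun i =>
    (contDiff_conv3 (hρ i) (hc i) (hu i)).differentiable (by simp) x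
  rw [deriv3, fderiv_fun_sum fun i _ => hd i]
  simp only [FunLike.coe_sum, Finset.sum_apply]
  refine Finset.sum_congr rfl fun i _ => ?_
  exact deriv3_conv3 a ((hρ i).of_le (by simp)) (hc i) (hu i) x

/-- The splitting on a smaller ball. -/
theorem local_split {r R : ℝ} (hr : 0 < r) (hrR : r < R) :
    ∃ C, 0 ≤ C ∧ ∀ (x₀ : Space) (f h : Space → ℝ), WeakPoisson (ball x₀ R) f h →
      IntegrableOn f (ball x₀ R) → IntegrableOn h (ball x₀ R) →
      ∃ q S : Space → ℝ, ContDiff ℝ ((⊤ : ℕ∞) : WithTop ℕ∞) S ∧ AEStronglyMeasurable q volume ∧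
        (∀ y, |q y| ≤ |(ball x₀ R).indicator h y|) ∧ (∀ y, y ∉ closedBall x₀ R → q y = 0) ∧
        f =ᵐ[volume.restrict (ball x₀ r)] (fun x => S x - pot 0 q x) ∧
        ∀ x, |S x| ≤ C * (∫ y in ball x₀ R, |f y|) ∧
          ∀ a, |deriv3 a S x| ≤ C * (∫ y in ball x₀ R, |f y|) ∧
            ∀ b, |deriv3 b (deriv3 a S) x| ≤ C * ∫ y in ball x₀ R, |f y| := by
  have hR : 0 < R := hr.trans hrR
  have hδ : 0 < (R - r) / 3 := by linarith
  set δ := (R - r) / 3 with hδd
  let θ : ContDiffBump (0 : Space) := ⟨r + δ, r + 2 * δ, by linarith, by linarith⟩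
  set Γ := farKer δ hδ (3 * R) (by linarith) with hΓ
  have hΓs : ContDiff ℝ ((⊤ : ℕ∞) : WithTop ℕ∞) Γ := contDiff_farKer _ _ _ _
  have hΓc : HasCompactSupport Γ := hasCompactSupport_farKer _ _ _ _
  let ρ : Option (Fin 3) → Space → ℝ := fun i => i.elim Γ fun a => deriv3 a Γ
  have hρs : ∀ i, ContDiff ℝ ((⊤ : ℕ∞) : WithTop ℕ∞) (ρ i) := fun i => by
    cases i with
    | none => exact hΓs
    | some a => exact contDiff_deriv3 a hΓs le_rfl
  have hρc : ∀ i, HasCompactSupport (ρ i) := fun i => by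
    cases i with
    | none => exact hΓc
    | some a => exact hasCompactSupport_deriv3 a hΓc
  have hρs1 : ∀ a i, ContDiff ℝ ((⊤ : ℕ∞) : WithTop ℕ∞) (deriv3 a (ρ i)) := fun a i =>
    contDiff_deriv3 a (hρs i) le_rfl
  have hρc1 : ∀ a i, HasCompactSupport (deriv3 a (ρ i)) := fun a i =>
    hasCompactSupport_deriv3 a (hρc i)
  choose M0 hM0 using fun i => (hρs i).continuous.bounded_above_of_compact_support (hρc i)
  choose M1 hM1 using fun a i =>
    (hρs1 a i).continuous.bounded_above_of_compact_support (hρc1 a i)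
  choose M2 hM2 using fun b a i => (contDiff_deriv3 b (hρs1 a i)
    (le_refl (((⊤ : ℕ∞) : WithTop ℕ∞) + 1))).continuous.bounded_above_of_compact_support
      (hasCompactSupport_deriv3 b (hρc1 a i))
  set M := (∑ i, |M0 i|) + (∑ a, ∑ i, |M1 a i|) + ∑ b, ∑ a, ∑ i, |M2 b a i| with hMd
  obtain ⟨B0, hB0⟩ := (Vale.Agent.P363.continuous_lap
    (θ.contDiff : ContDiff ℝ (2 : ℕ) (θ : Space → ℝ))).bounded_above_of_compact_support
      (Vale.Agent.P363.hasCompactSupport_lap θ.hasCompactSupport)
  choose B1 hB1 using fun a : Fin 3 => (contDiff_deriv3 a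
    (θ.contDiff : ContDiff ℝ ((⊤ : ℕ∞) : WithTop ℕ∞) (θ : Space → ℝ))
    (le_refl (((⊤ : ℕ∞) : WithTop ℕ∞) + 1))).continuous.bounded_above_of_compact_support
      (hasCompactSupport_deriv3 a θ.hasCompactSupport)
  set B := |B0| + 2 * ∑ a, |B1 a| with hBd
  have hM' : ∀ i z, |ρ i z| ≤ |M0 i| := fun i z => (hM0 i z).trans (le_abs_self _)
  have hMp : 0 ≤ M := by positivity
  have hBp : 0 ≤ B := by positivity
  refine ⟨4 * (M * B), by positivity, fun x₀ f h he hf hh => ?_⟩
  set A := ∫ y in ball x₀ R, |f y| with hA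
  have hA0 : 0 ≤ A := integral_nonneg fun _ => abs_nonneg _
  set F := (ball x₀ R).indicator f with hF
  set H := (ball x₀ R).indicator h with hH
  have hFi : Integrable F := (integrable_indicator_iff measurableSet_ball).2 hf
  have hHi : Integrable H := (integrable_indicator_iff measurableSet_ball).2 hh
  have hFa : ∫ y, |F y| = A := by
    rw [hA, hF, ← integral_indicator measurableSet_ball]
    exact integral_congr_ae (ae_of_all _ fun y => by
      by_cases hy : y ∈ ball x₀ R <;> simp [hy])
  set χ : Space → ℝ := fun y => θ (y - x₀) with hχ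
  have hθd : Differentiable ℝ (θ : Space → ℝ) :=
    (θ.contDiff : ContDiff ℝ (1 : ℕ) (θ : Space → ℝ)).differentiable (by simp)
  have hχs : ContDiff ℝ ((⊤ : ℕ∞) : WithTop ℕ∞) χ := θ.contDiff.comp (contDiff_id.sub contDiff_const)
  have hχsupp : tsupport χ ⊆ closedBall x₀ (r + 2 * δ) := by
    refine closure_minimal (fun y hy => ?_) isClosed_closedBall
    have : y - x₀ ∈ ball (0 : Space) θ.rOut := by rw [← θ.support_eq]; exact hy
    simp only [mem_ball, dist_zero_right] at this
    rw [mem_closedBall, dist_eq_norm]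
    exact this.le
  have hχb : IsBump (ball x₀ R) χ := ⟨hχs, (isCompact_closedBall x₀ _).of_isClosed_subset
    (isClosed_tsupport _) hχsupp, hχsupp.trans (closedBall_subset_ball (by linarith))⟩
  have hχ1 : ∀ y ∈ closedBall x₀ (r + δ), χ y = 1 := fun y hy =>
    θ.one_of_mem_closedBall (by simpa [dist_eq_norm] using hy)
  have hd1 : ∀ a, deriv3 a χ = fun y => deriv3 a (θ : Space → ℝ) (y - x₀) := fun a => by
    funext y; simp only [hχ, deriv3, fderiv_comp_sub]
  have hd2 : lap χ = fun y => lap (θ : Space → ℝ) (y - x₀) := by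
    funext y
    simp only [lap, hd1]
    refine Finset.sum_congr rfl fun a _ => ?_
    show fderiv ℝ (fun z => deriv3 a (θ : Space → ℝ) (z - x₀)) y (unit3 a) = _
    rw [fderiv_comp_sub]
    rfl
  have hzero : ∀ y, ‖y - x₀‖ < r + δ → (∀ a, deriv3 a χ y = 0) ∧ lap χ y = 0 := by
    intro y hy
    have hev : ∀ z ∈ ball x₀ (r + δ), ∀ a, deriv3 a χ z = 0 := by
      intro z hz a
      have e : χ =ᶠ[𝓝 z] fun _ => (1 : ℝ) := by
        filter_upwards [isOpen_ball.mem_nhds hz] with w hw
        exact hχ1 w (ball_subset_closedBall hw)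
      rw [deriv3, e.fderiv_eq]; simp
    have hyb : y ∈ ball x₀ (r + δ) := by rwa [mem_ball, dist_eq_norm]
    refine ⟨hev y hyb, Finset.sum_eq_zero fun a _ => ?_⟩
    have e : deriv3 a χ =ᶠ[𝓝 y] fun _ => (0 : ℝ) := by
      filter_upwards [isOpen_ball.mem_nhds hyb] with w hw
      exact hev w hw a
    rw [deriv3, e.fderiv_eq]; simp
  let u : Option (Fin 3) → Space → ℝ :=
    fun i => i.elim (fun y => lap χ y * F y) fun a y => -2 * deriv3 a χ y * F y
  have hub : ∀ i y, |u i y| ≤ B * |F y| := by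
    intro i y
    cases i with
    | none =>
      show |lap χ y * F y| ≤ _
      rw [abs_mul, hd2]
      refine mul_le_mul_of_nonneg_right ((hB0 _).trans ?_) (abs_nonneg _)
      rw [hBd]
      linarith [le_abs_self B0, Finset.sum_nonneg fun a (_ : a ∈ Finset.univ) => abs_nonneg (B1 a)]
    | some a =>
      show |-2 * deriv3 a χ y * F y| ≤ _
      rw [abs_mul, abs_mul, hd1, abs_neg, abs_two]
      refine mul_le_mul_of_nonneg_right ((mul_le_mul_of_nonneg_left (hB1 a _) zero_le_two).trans ?_)
        (abs_nonneg _)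
      rw [hBd]
      linarith [le_abs_self (B1 a), abs_nonneg B0, Finset.single_le_sum (f := fun a => |B1 a|)
        (fun a _ => abs_nonneg _) (Finset.mem_univ a)]
  have hui : ∀ i, Integrable (u i) := fun i => by
    refine (hFi.abs.const_mul B).mono' ?_ (ae_of_all _ (hub i))
    cases i with
    | none => exact (hχb.lap_continuous).aestronglyMeasurable.mul hFi.aestronglyMeasurable
    | some a =>
      exact ((contDiff_deriv3 a hχs (le_refl (((⊤ : ℕ∞) : WithTop ℕ∞) + 1))).continuous.const_mul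
        (-2 : ℝ)).aestronglyMeasurable.mul hFi.aestronglyMeasurable
  set q : Space → ℝ := fun y => χ y * H y with hq
  have hqb : ∀ y, |q y| ≤ |H y| := fun y => by
    rw [hq, abs_mul]
    refine mul_le_of_le_one_left (abs_nonneg _) ?_
    rw [hχ, abs_of_nonneg θ.nonneg]
    exact θ.le_one
  have hqm : AEStronglyMeasurable q volume :=
    hχs.continuous.aestronglyMeasurable.mul hHi.aestronglyMeasurable
  have hqi : Integrable q := hHi.abs.mono' hqm (ae_of_all _ hqb)
  set S : Space → ℝ := fun x => ∑ i, conv3 (ρ i) (u i) x with hS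
  have hSs : ContDiff ℝ ((⊤ : ℕ∞) : WithTop ℕ∞) S :=
    ContDiff.sum fun i _ => contDiff_conv3 (hρs i) (hρc i) (hui i).locallyIntegrable
  have hbd : ∀ (w : Option (Fin 3) → Space → ℝ) (N : Option (Fin 3) → ℝ),
      (∀ i z, |w i z| ≤ N i) → (∀ i, 0 ≤ N i) → ∀ x,
      |∑ i, conv3 (w i) (u i) x| ≤ (∑ i, N i) * (4 * B * A) := by
    intro w N hw hN x
    refine (Finset.abs_sum_le_sum_abs _ _).trans ?_
    rw [Finset.sum_mul]
    refine Finset.sum_le_sum fun i _ => (abs_conv3_le (hw i) (hui i) x).trans ?_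
    refine mul_le_mul_of_nonneg_left ?_ (hN i)
    refine (integral_mono (hui i).abs (hFi.abs.const_mul B) (hub i)).trans ?_
    rw [integral_const_mul, hFa]
    nlinarith [mul_nonneg hBp hA0]
  refine ⟨q, S, hSs, hqm, hqb, fun y hy => ?_, ?_, fun x => ⟨?_, fun a => ⟨?_, fun b => ?_⟩⟩⟩
  · have : H y = 0 := Set.indicator_of_notMem (fun hm => hy (ball_subset_closedBall hm)) _
    simp [hq, this]
  rotate_left
  · refine (hbd ρ (fun i => |M0 i|) hM' (fun i => abs_nonneg _) x).trans ?_
    have h1 : (∑ i, |M0 i|) ≤ M := by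
      rw [hMd]
      have : 0 ≤ (∑ a, ∑ i, |M1 a i|) + ∑ b, ∑ a, ∑ i, |M2 b a i| := by positivity
      linarith
    nlinarith [mul_le_mul_of_nonneg_right h1 (mul_nonneg hBp hA0)]
  · rw [hS, deriv3_sum_conv3 hρs hρc (fun i => (hui i).locallyIntegrable) a]
    refine (hbd _ (fun i => |M1 a i|) (fun i z => (hM1 a i z).trans (le_abs_self _))
      (fun i => abs_nonneg _) x).trans ?_
    have h1 : (∑ i, |M1 a i|) ≤ M := by
      rw [hMd]
      have : 0 ≤ (∑ i, |M0 i|) + ∑ b, ∑ a, ∑ i, |M2 b a i| := by positivity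
      linarith [Finset.single_le_sum (f := fun a => ∑ i, |M1 a i|)
        (fun a _ => Finset.sum_nonneg fun i _ => abs_nonneg _) (Finset.mem_univ a)]
    nlinarith [mul_le_mul_of_nonneg_right h1 (mul_nonneg hBp hA0)]
  · rw [hS, deriv3_sum_conv3 hρs hρc (fun i => (hui i).locallyIntegrable) a,
      deriv3_sum_conv3 (hρs1 a) (hρc1 a) (fun i => (hui i).locallyIntegrable) b]
    refine (hbd _ (fun i => |M2 b a i|) (fun i z => (hM2 b a i z).trans (le_abs_self _))
      (fun i => abs_nonneg _) x).trans ?_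
    have h1 : (∑ i, |M2 b a i|) ≤ M := by
      rw [hMd]
      have : 0 ≤ (∑ i, |M0 i|) + ∑ a, ∑ i, |M1 a i| := by positivity
      linarith [Finset.single_le_sum (f := fun b => ∑ a, ∑ i, |M2 b a i|)
          (fun b _ => Finset.sum_nonneg fun a _ => Finset.sum_nonneg fun i _ => abs_nonneg _)
          (Finset.mem_univ b),
        Finset.single_le_sum (f := fun a => ∑ i, |M2 b a i|)
          (fun a _ => Finset.sum_nonneg fun i _ => abs_nonneg _) (Finset.mem_univ a)]
    nlinarith [mul_le_mul_of_nonneg_right h1 (mul_nonneg hBp hA0)]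
  have hqw : Integrable fun y => Real.exp (-(0 * ‖y‖)) * q y := by simpa using hqi
  obtain ⟨hPl, hdual⟩ := pot_dual le_rfl hqw
  have hsub : ball x₀ r ⊆ ball x₀ R := ball_subset_ball hrR.le
  have hint : LocallyIntegrableOn (fun x => F x - (S x - pot 0 q x)) (ball x₀ r) :=
    (hFi.locallyIntegrable.sub (hSs.continuous.locallyIntegrable.sub hPl)).locallyIntegrableOn _
  have hzero' : ∀ᵐ x, x ∈ ball x₀ r → F x - (S x - pot 0 q x) = 0 := by
    refine isOpen_ball.ae_eq_zero_of_integral_contDiff_smul_eq_zero hint fun φ hφs hφc hφsup => ?_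
    have hφ : IsBump (ball x₀ r) φ := ⟨hφs, hφc, hφsup⟩
    have hφu : IsBump Set.univ φ := hφ.mono (Set.subset_univ _)
    set ψ := pot 0 φ with hψ
    have hψs := contDiff_pot le_rfl hφu
    have hη : IsBump (ball x₀ R) fun y => χ y * ψ y :=
      ⟨hχs.mul hψs, hχb.compact.mul_right, (tsupport_mul_subset_left).trans hχb.supp⟩
    have hlψ : ∀ y, lap ψ y = -φ y := fun y => by
      rw [hψ, lap_pot le_rfl hφu, pot, ← yukTest 0 le_rfl φ hφu y, ← integral_neg]
      exact integral_congr_ae (ae_of_all _ fun z => by ring)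
    have hfar : ∀ i x, x ∈ ball x₀ r → conv3 Γ (u i) x = pot 0 (u i) x := by
      intro i x hx
      refine integral_congr_ae (ae_of_all _ fun y => ?_)
      show u i y * Γ (x - y) = yuk 0 (x - y) * u i y
      by_cases hy : u i y = 0
      · simp [hy]
      have hyR : ‖y - x₀‖ < R := by
        by_contra hn
        have hF0 : F y = 0 :=
          Set.indicator_of_notMem (fun hm => hn (by rwa [mem_ball, dist_eq_norm] at hm)) _
        cases i <;> simp [u, hF0] at hy
      have hyr : r + δ ≤ ‖y - x₀‖ := by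
        by_contra hn
        obtain ⟨z1, z2⟩ := hzero y (not_le.1 hn)
        cases i <;> simp [u, z1, z2] at hy
      rw [mem_ball, dist_eq_norm] at hx
      have t1 : ‖y - x₀‖ ≤ ‖x - x₀‖ + ‖x - y‖ := by
        have := norm_sub_le_norm_sub_add_norm_sub y x x₀
        rw [norm_sub_rev y x] at this
        linarith
      have t2 : ‖x - y‖ ≤ ‖x - x₀‖ + ‖y - x₀‖ := by
        have := norm_sub_le_norm_sub_add_norm_sub x x₀ y
        rwa [norm_sub_rev x₀ y] at this
      rw [hΓ, farKer_eq δ hδ _ _ (by linarith) (by linarith), mul_comm]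
    have hweak := he.2.2 _ hη
    have eF : ∀ g : Space → ℝ, (∀ y, y ∉ ball x₀ R → g y = 0) →
        ∫ y, f y * g y = ∫ y, F y * g y := fun g hg => integral_congr_ae (ae_of_all _ fun y => by
      by_cases hy : y ∈ ball x₀ R
      · simp [hF, hy]
      · simp [hg y hy])
    have eH : ∀ g : Space → ℝ, (∀ y, y ∉ ball x₀ R → g y = 0) →
        ∫ y, h y * g y = ∫ y, H y * g y := fun g hg => integral_congr_ae (ae_of_all _ fun y => by
      by_cases hy : y ∈ ball x₀ R
      · simp [hH, hy]
      · simp [hg y hy])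
    rw [eF _ fun y hy => image_eq_zero_of_notMem_tsupport fun hm =>
        hy (hη.supp (tsupport_lap _ hm)),
      eH _ fun y hy => image_eq_zero_of_notMem_tsupport fun hm => hy (hη.supp hm)] at hweak
    obtain ⟨C0, hC0⟩ := pot_decay le_rfl hφu.smooth.continuous hφu.compact
    have hdψ : ∀ a, deriv3 a ψ = pot 0 (deriv3 a φ) := fun a => deriv3_pot le_rfl hφu a
    have expand : ∀ y, F y * lap (fun z => χ z * ψ z) y =
        u none y * ψ y + (∑ a, -(u (some a) y * deriv3 a ψ y)) - φ y * F y := by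
      intro y
      rw [lap_prod (hχb.contDiff 2)
        (hψs.of_le (WithTop.coe_le_coe.2 le_top : ((2 : ℕ) : WithTop ℕ∞) ≤ _)) y, hlψ y]
      have hχφ : χ y * φ y = φ y := by
        by_cases hy : y ∈ ball x₀ r
        · rw [hχ1 y (closedBall_subset_closedBall (by linarith) (ball_subset_closedBall hy)),
            one_mul]
        · simp [image_eq_zero_of_notMem_tsupport fun hm => hy (hφ.supp hm)]
      simp only [u, Option.elim, Fin.sum_univ_three]
      linear_combination (-(F y)) * hχφ
    have ib : ∀ {g w : Space → ℝ}, Integrable g → Continuous w → (∃ c, ∀ y, |w y| ≤ c) →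
        Integrable fun y => g y * w y := fun {g w} hg hw ⟨c, hc⟩ =>
      hg.mul_bdd hw.aestronglyMeasurable (ae_of_all _ hc)
    have hbψ : ∀ {w : Space → ℝ}, IsBump Set.univ w → ∃ c, ∀ y, |pot 0 w y| ≤ c := fun {w} hw => by
      obtain ⟨c, hc⟩ := pot_decay le_rfl hw.smooth.continuous hw.compact
      exact ⟨c, fun y => by simpa using hc y⟩
    have hψc : Continuous ψ := hψs.continuous
    have i1 := ib (hui none) hψc (hbψ hφu)
    have i2 : ∀ a, Integrable fun y => u (some a) y * deriv3 a ψ y := fun a => by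
      rw [hdψ a]
      exact ib (hui (some a)) (contDiff_pot le_rfl (isBump_deriv hφu a)).continuous
        (hbψ (isBump_deriv hφu a))
    have i3 : Integrable fun y => φ y * F y := by
      obtain ⟨c, hc⟩ := hφs.continuous.bounded_above_of_compact_support hφc
      simpa [mul_comm] using hFi.mul_bdd hφs.continuous.aestronglyMeasurable (ae_of_all _ hc)
    simp only [expand] at hweak
    have i2s : Integrable fun y => ∑ a, -(u (some a) y * deriv3 a ψ y) :=
      integrable_finsetSum _ fun a _ => (i2 a).neg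
    have i12 : Integrable fun y => u none y * ψ y + ∑ a, -(u (some a) y * deriv3 a ψ y) :=
      i1.add i2s
    have i2' : ∀ a, Integrable fun y => -(u (some a) y * deriv3 a ψ y) := fun a => (i2 a).neg
    rw [integral_sub i12 i3, integral_add i1 i2s,
      integral_finsetSum _ fun a _ => i2' a] at hweak
    simp only [integral_neg] at hweak
    have eq0 : ∫ y, H y * (χ y * ψ y) = ∫ x, pot 0 q x * φ x := by
      rw [hdual φ hφs.continuous hφc]
      exact integral_congr_ae (ae_of_all _ fun y => by simp only [hq, ← hψ]; ring)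
    have eu0 : ∫ y, u none y * ψ y = ∫ x, conv3 Γ (u none) x * φ x := by
      obtain ⟨-, hd⟩ := pot_dual le_rfl (q := u none) (by simpa using hui none)
      rw [hψ, ← hd φ hφs.continuous hφc]
      refine integral_congr_ae (ae_of_all _ fun x => ?_)
      dsimp only
      by_cases hx : x ∈ ball x₀ r
      · rw [hfar none x hx]
      · simp [image_eq_zero_of_notMem_tsupport fun hm => hx (hφ.supp hm)]
    have eua : ∀ a, ∫ y, u (some a) y * deriv3 a ψ y =
        -∫ x, conv3 (deriv3 a Γ) (u (some a)) x * φ x := by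
      intro a
      obtain ⟨-, hd⟩ := pot_dual le_rfl (q := u (some a)) (by simpa using hui (some a))
      have hφa := isBump_deriv hφ a
      rw [hdψ a, ← hd (deriv3 a φ) hφa.smooth.continuous hφa.compact]
      have hc := contDiff_conv3 hΓs hΓc (hui (some a)).locallyIntegrable
      refine (Eq.trans ?_ ((HasWeakGrad.of_contDiffOn isOpen_univ
        (hc.of_le (by simp)).contDiffOn).2.2 φ hφu a)).trans ?_
      · refine integral_congr_ae (ae_of_all _ fun x => ?_)
        dsimp only
        by_cases hx : x ∈ ball x₀ r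
        · rw [hfar (some a) x hx]
        · simp [image_eq_zero_of_notMem_tsupport fun hm => hx (hφa.supp hm)]
      · refine congrArg Neg.neg (integral_congr_ae (ae_of_all _ fun x => ?_))
        simp only
        rw [deriv3_conv3 a (hΓs.of_le (by simp)) hΓc (hui (some a)).locallyIntegrable]
    have ic : ∀ i, Integrable fun x => conv3 (ρ i) (u i) x * φ x := fun i =>
      ((contDiff_conv3 (hρs i) (hρc i) (hui i).locallyIntegrable).continuous.mul
        hφs.continuous).integrable_of_hasCompactSupport hφc.mul_left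
    have iP : Integrable fun x => pot 0 q x * φ x :=
      integrable_mul_of_tsupport (U := Set.univ) (locallyIntegrableOn_univ.2 hPl) hφs.continuous hφc
        (Set.subset_univ _)
    simp only [eq0, eu0, eua, neg_neg] at hweak
    have eS : ∫ x, S x * φ x = (∫ x, conv3 Γ (u none) x * φ x) +
        ∑ a, ∫ x, conv3 (deriv3 a Γ) (u (some a)) x * φ x := by
      simp only [hS, Finset.sum_mul]
      rw [integral_finsetSum _ fun i _ => ic i, Fintype.sum_option]
      rfl
    have iS : Integrable fun x => S x * φ x :=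
      (hSs.continuous.mul hφs.continuous).integrable_of_hasCompactSupport hφc.mul_left
    have i3' : Integrable fun x => φ x * F x := i3
    calc ∫ x, φ x • (F x - (S x - pot 0 q x))
        = (∫ x, φ x * F x) - ((∫ x, S x * φ x) - ∫ x, pot 0 q x * φ x) := by
          rw [← integral_sub iS iP, ← integral_sub i3']
          · exact integral_congr_ae (ae_of_all _ fun x => by simp only [smul_eq_mul]; ring)
          · exact iS.sub iP
      _ = 0 := by rw [eS]; linarith [hweak]
  refine (ae_restrict_iff' measurableSet_ball).2 ?_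
  filter_upwards [hzero'] with x hx hxm
  have := hx hxm
  rw [hF, Set.indicator_of_mem (hsub hxm)] at this
  linarith

end Vale.Agent.P363.Yuk
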