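import Vale.Agent.P363.Tool.YukHolder
import Vale.Agent.P363.Tool.YukLocal

/-!
P363: local Hölder and `C^1` regularity of weak solutions of the Poisson equation.
-/

noncomputable section

namespace Vale.Agent.P363.Yuk

open MeasureTheory Filter Metric
open scoped BigOperators Topology ENNReal

lemma integrableOn_of_memLp {p : ℝ} (hp : 1 ≤ p) {h : Space → ℝ} {x₀ : Space} {R : ℝ}
    (hh : MemLp h (ENNReal.ofReal p) (volume.restrict (ball x₀ R))) :
    IntegrableOn h (ball x₀ R) := by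
  have : IsFiniteMeasure (volume.restrict (ball x₀ R)) :=
    isFiniteMeasure_restrict.2 measure_ball_lt_top.ne
  exact hh.integrable (ENNReal.one_le_ofReal.2 hp)

/-- A cut off source is a source, with norm bounded by the data. -/
lemma src_of_cut {p : ℝ} {x₀ : Space} {R : ℝ} {f h q : Space → ℝ}
    (hh : MemLp h (ENNReal.ofReal p) (volume.restrict (ball x₀ R)))
    (hqm : AEStronglyMeasurable q volume) (hqb : ∀ y, |q y| ≤ |(ball x₀ R).indicator h y|)
    (hq0 : ∀ y, y ∉ closedBall x₀ R → q y = 0) :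
    Src p x₀ R q ∧ srcNorm p q ≤ ballData (ENNReal.ofReal p) x₀ R f h := by
  have hH : MemLp ((ball x₀ R).indicator h) (ENNReal.ofReal p) :=
    (memLp_indicator_iff_restrict measurableSet_ball).2 hh
  refine ⟨⟨hH.mono hqm (ae_of_all _ hqb), hq0⟩, ?_⟩
  refine (ENNReal.toReal_mono hH.eLpNorm_ne_top (eLpNorm_mono hqb)).trans ?_
  rw [eLpNorm_indicator_eq_eLpNorm_restrict measurableSet_ball]
  exact le_add_of_nonneg_left (integral_nonneg fun _ => abs_nonneg _)

lemma integral_le_ballData (p : ℝ≥0∞) (x₀ : Space) (R : ℝ) (f h : Space → ℝ) :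
    (∫ y in ball x₀ R, |f y|) ≤ ballData p x₀ R f h :=
  le_add_of_nonneg_right ENNReal.toReal_nonneg

lemma continuous_of_holder {u : Space → ℝ} {K α : ℝ} (ha : 0 < α)
    (h : ∀ x y, |u x - u y| ≤ K * ‖x - y‖ ^ α) : Continuous u := by
  rw [continuous_iff_continuousAt]
  intro x
  rw [ContinuousAt, tendsto_iff_norm_sub_tendsto_zero]
  have hc : Continuous fun y : Space => K * ‖y - x‖ ^ α :=
    continuous_const.mul ((continuous_id.sub continuous_const).norm.rpow_const
      fun _ => Or.inr ha.le)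
  refine squeeze_zero (fun y => norm_nonneg _) (fun y => ?_)
    (by simpa [Real.zero_rpow ha.ne'] using hc.tendsto x)
  exact h y x

lemma opNorm_le_coords (L : Space →L[ℝ] ℝ) {D : ℝ} (hD : 0 ≤ D)
    (h : ∀ a, |L (unit3 a)| ≤ D) : ‖L‖ ≤ 3 * D := by
  refine L.opNorm_le_bound (by positivity) fun v => ?_
  have e : v = ∑ a, v a • unit3 a := by
    ext i; simp [unit3, Fin.sum_univ_three]; fin_cases i <;> simp
  conv_lhs => rw [e]
  rw [map_sum]
  refine (norm_sum_le _ _).trans ?_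
  refine (Finset.sum_le_sum fun a _ => ?_).trans_eq (b := ∑ _a : Fin 3, D * ‖v‖) ?_
  · rw [map_smul, smul_eq_mul, norm_mul, Real.norm_eq_abs, Real.norm_eq_abs, mul_comm]
    exact mul_le_mul (h a) (abs_coord_le v a) (abs_nonneg _) hD
  · simp; ring

lemma lipschitz_of_deriv3 {u : Space → ℝ} (hu : Differentiable ℝ u) {D : ℝ} (hD : 0 ≤ D)
    (h : ∀ x a, |deriv3 a u x| ≤ D) (x y : Space) : |u x - u y| ≤ 3 * D * ‖x - y‖ := by
  have := convex_univ.norm_image_sub_le_of_norm_fderiv_le (fun z _ => hu z)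
    (fun z _ => opNorm_le_coords _ hD (h z)) (Set.mem_univ y) (Set.mem_univ x)
  simpa using this

lemma norm_sub_le_rpow {x₀ x y : Space} {r α : ℝ} (hx : x ∈ ball x₀ r) (hy : y ∈ ball x₀ r)
    (ha0 : 0 < α) (ha : α ≤ 1) : ‖x - y‖ ≤ (2 * r + 1) * ‖x - y‖ ^ α := by
  rw [mem_ball, dist_eq_norm] at hx hy
  have hd : ‖x - y‖ ≤ 2 * r := by
    have := norm_sub_le_norm_sub_add_norm_sub x x₀ y
    rw [norm_sub_rev x₀ y] at this
    linarith
  have hr : 0 ≤ r := le_trans (norm_nonneg _) hx.le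
  rcases le_or_gt ‖x - y‖ 1 with h1 | h1
  · calc ‖x - y‖ = ‖x - y‖ ^ (1 : ℝ) := (Real.rpow_one _).symm
      _ ≤ ‖x - y‖ ^ α := Real.rpow_le_rpow_of_exponent_ge' (norm_nonneg _) h1 ha0.le ha
      _ ≤ _ := le_mul_of_one_le_left (Real.rpow_nonneg (norm_nonneg _) _) (by linarith)
  · refine (hd.trans (by linarith : 2 * r ≤ 2 * r + 1)).trans
      (le_mul_of_one_le_right (by linarith) (Real.one_le_rpow h1.le ha0.le))

/-- `Δ f ∈ L^p`, `p > 3 / 2`, gives a Hölder continuous representative. -/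
theorem localHolder : LocalHolderStmt := by
  intro p hp
  have hp0 : 0 < p := by linarith
  have hgap : 0 < 3 * (1 - 1 / p) - 1 := by
    rw [show 3 * (1 - 1 / p) - 1 = (2 * p - 3) / p by field_simp; ring]
    exact div_pos (by linarith) hp0
  set α := min 1 ((3 * (1 - 1 / p) - 1) / 2) with hαd
  have ha0 : 0 < α := lt_min one_pos (by linarith)
  have ha : α ≤ 1 := min_le_left _ _
  refine ⟨α, ⟨ha0, ha⟩, fun r R hr hrR => ?_⟩
  obtain ⟨CS, hCS, hsplit⟩ := local_split hr hrR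
  obtain ⟨CP, hCP, hpot⟩ := pot_holder hp ha0 ha
    (by linarith [min_le_right (1 : ℝ) ((3 * (1 - 1 / p) - 1) / 2)]) R
  refine ⟨3 * CS * (2 * r + 1) + CS + CP, fun x₀ f h he hf hh => ?_⟩
  obtain ⟨q, S, hS, hqm, hqb, hq0, hfe, hSb⟩ :=
    hsplit x₀ f h he hf (integrableOn_of_memLp (by linarith) hh)
  obtain ⟨hsrc, hn⟩ := src_of_cut (f := f) hh hqm hqb hq0
  have hA := integral_le_ballData (ENNReal.ofReal p) x₀ R f h
  set A := ∫ y in ball x₀ R, |f y|
  have hA0 : 0 ≤ A := integral_nonneg fun _ => abs_nonneg _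
  set D := ballData (ENNReal.ofReal p) x₀ R f h
  have hD : 0 ≤ D := hA0.trans hA
  have hP : ∀ x y, |pot 0 q x - pot 0 q y| ≤ CP * D * ‖x - y‖ ^ α := fun x y =>
    ((hpot x₀ q hsrc x).2.2 y).trans (by gcongr)
  refine ⟨fun x => S x - pot 0 q x, hS.continuous.sub (continuous_of_holder ha0 hP), hfe,
    fun x _ => ?_, fun x hx y hy => ?_⟩
  · refine (abs_sub _ _).trans ((add_le_add (hSb x).1 (hpot x₀ q hsrc x).2.1).trans ?_)
    nlinarith [mul_le_mul_of_nonneg_left hA hCS, mul_le_mul_of_nonneg_left hn hCP,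
      mul_nonneg (mul_nonneg hCS (by linarith : (0 : ℝ) ≤ 2 * r + 1)) hD]
  · have h1 := lipschitz_of_deriv3 (hS.differentiable (by simp)) (mul_nonneg hCS hA0)
      (fun z a => ((hSb z).2 a).1) x y
    have h2 := norm_sub_le_rpow hx hy ha0 ha
    rw [show (S x - pot 0 q x) - (S y - pot 0 q y) =
      (S x - S y) - (pot 0 q x - pot 0 q y) by ring]
    refine (abs_sub _ _).trans ((add_le_add (h1.trans (mul_le_mul
      (mul_le_mul_of_nonneg_left (mul_le_mul_of_nonneg_left hA hCS) (by norm_num)) h2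
      (norm_nonneg _) (by positivity))) (hP x y)).trans ?_)
    nlinarith [mul_nonneg (mul_nonneg hCS hD) (Real.rpow_nonneg (norm_nonneg (x - y)) α)]

/-- `Δ f ∈ L^p`, `p > 3`, gives a `C^1` representative with Hölder derivatives. -/
theorem localC1 : LocalC1Stmt := by
  intro p hp
  have hp0 : 0 < p := by linarith
  have hgap : 0 < 3 * (1 - 1 / p) - 2 := by
    rw [show 3 * (1 - 1 / p) - 2 = (p - 3) / p by field_simp; ring]
    exact div_pos (by linarith) hp0
  set α := min 1 ((3 * (1 - 1 / p) - 2) / 2) with hαd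
  have ha0 : 0 < α := lt_min one_pos (by linarith)
  have ha : α ≤ 1 := min_le_left _ _
  refine ⟨α, ⟨ha0, ha⟩, fun r R hr hrR => ?_⟩
  obtain ⟨CS, hCS, hsplit⟩ := local_split hr hrR
  obtain ⟨CP, hCP, hpot⟩ := pot_c1 hp ha0 ha
    (by linarith [min_le_right (1 : ℝ) ((3 * (1 - 1 / p) - 2) / 2)]) R
  obtain ⟨C0, hC0, hpot0⟩ := pot_holder (by linarith : 3 / 2 < p) one_half_pos (by norm_num)
    (by linarith) R
  refine ⟨3 * CS * (2 * r + 1) + CS + CP + C0, fun x₀ f h he hf hh => ?_⟩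
  obtain ⟨q, S, hS, hqm, hqb, hq0, hfe, hSb⟩ :=
    hsplit x₀ f h he hf (integrableOn_of_memLp (by linarith) hh)
  obtain ⟨hsrc, hn⟩ := src_of_cut (f := f) hh hqm hqb hq0
  have hA := integral_le_ballData (ENNReal.ofReal p) x₀ R f h
  set A := ∫ y in ball x₀ R, |f y|
  have hA0 : 0 ≤ A := integral_nonneg fun _ => abs_nonneg _
  set D := ballData (ENNReal.ofReal p) x₀ R f h
  have hD : 0 ≤ D := hA0.trans hA
  have hSd : Differentiable ℝ S := hS.differentiable (by simp)
  have hfd : ∀ x, HasFDerivAt (fun x => S x - pot 0 q x)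
      (fderiv ℝ S x - ∑ a, potGrad q a x • (EuclideanSpace.proj a : Space →L[ℝ] ℝ)) x := fun x =>
    (hSd x).hasFDerivAt.sub (hpot x₀ q hsrc x).1
  have hd3 : ∀ a x, deriv3 a (fun x => S x - pot 0 q x) x = deriv3 a S x - potGrad q a x :=
    fun a x => by
      rw [deriv3, (hfd x).fderiv]
      simp [deriv3, unit3]
  have hG : ∀ a x y, |potGrad q a x - potGrad q a y| ≤ CP * D * ‖x - y‖ ^ α := fun a x y =>
    ((hpot x₀ q hsrc x).2.2 a y).trans (by gcongr)
  refine ⟨fun x => S x - pot 0 q x, contDiff_one_iff_fderiv.2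
    ⟨fun x => (hfd x).differentiableAt, ?_⟩, hfe, fun x hx => ⟨?_, fun a => ⟨?_, fun y hy => ?_⟩⟩⟩
  · rw [show fderiv ℝ (fun x => S x - pot 0 q x) = fun x => fderiv ℝ S x -
      ∑ a, potGrad q a x • (EuclideanSpace.proj a : Space →L[ℝ] ℝ) from
      funext fun x => (hfd x).fderiv]
    exact ((hS.of_le (WithTop.coe_le_coe.2 le_top : ((1 : ℕ) : WithTop ℕ∞) ≤ _)).continuous_fderiv
      (by simp)).sub
      (continuous_finsetSum _ fun a _ => (continuous_of_holder ha0 (hG a)).smul continuous_const)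
  · refine (abs_sub _ _).trans ((add_le_add (hSb x).1 (hpot0 x₀ q hsrc x).2.1).trans ?_)
    nlinarith [mul_le_mul_of_nonneg_left hA hCS, mul_le_mul_of_nonneg_left hn hC0,
      mul_nonneg (mul_nonneg hCS (by linarith : (0 : ℝ) ≤ 2 * r + 1)) hD, mul_nonneg hCP hD]
  · rw [hd3]
    refine (abs_sub _ _).trans ((add_le_add ((hSb x).2 a).1 ((hpot x₀ q hsrc x).2.1 a)).trans ?_)
    nlinarith [mul_le_mul_of_nonneg_left hA hCS, mul_le_mul_of_nonneg_left hn hCP,
      mul_nonneg (mul_nonneg hCS (by linarith : (0 : ℝ) ≤ 2 * r + 1)) hD, mul_nonneg hC0 hD]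
  · have hd : Differentiable ℝ (deriv3 a S) := (contDiff_deriv3 a hS
      (le_refl (((⊤ : ℕ∞) : WithTop ℕ∞) + 1))).differentiable (by simp)
    have h1 := lipschitz_of_deriv3 hd (mul_nonneg hCS hA0)
      (fun z b => ((hSb z).2 a).2 b) x y
    rw [hd3, hd3, show (deriv3 a S x - potGrad q a x) - (deriv3 a S y - potGrad q a y) =
      (deriv3 a S x - deriv3 a S y) - (potGrad q a x - potGrad q a y) by ring]
    refine (abs_sub _ _).trans ((add_le_add (h1.trans (mul_le_mul
      (mul_le_mul_of_nonneg_left (mul_le_mul_of_nonneg_left hA hCS) (by norm_num))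
      (norm_sub_le_rpow hx hy ha0 ha) (norm_nonneg _) (by positivity))) (hG a x y)).trans ?_)
    nlinarith [mul_nonneg (mul_nonneg hCS hD) (Real.rpow_nonneg (norm_nonneg (x - y)) α),
      mul_nonneg (mul_nonneg hC0 hD) (Real.rpow_nonneg (norm_nonneg (x - y)) α)]

end Vale.Agent.P363.Yuk
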