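import Vale.Agent.P363.Tool.MaxSpec
import Vale.Agent.P363.Tool.YukPot
import Vale.Agent.P363.Tool.YukTest
import Vale.Agent.P363.Tool.Weak.Poisson

/-!
P363: the local bound from above for `Δ f ≥ -g`, `g ∈ L^p`, `p > 3/2`, by testing with mollified
truncated Newton kernels.
-/

noncomputable section

namespace Vale.Agent.P363

open MeasureTheory Filter Metric Yuk
open scoped BigOperators Topology ENNReal ContDiff

/-- A `C²` function solves its own Poisson equation weakly. -/
theorem smoothPoisson : SmoothPoissonStmt := fun _ _ hU hf => WeakPoisson.of_contDiffOn hU hf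

lemma yuk_zero_eq :
    yuk 0 = fun y : Space => (4 * Real.pi)⁻¹ * (‖y - 0‖ ^ 2) ^ (-(1 / 2) : ℝ) := by
  funext y
  rw [sub_zero, ← Real.rpow_natCast, ← Real.rpow_mul (norm_nonneg y)]
  norm_num [yuk, Real.rpow_neg_one]
  ring

/-- The Newton kernel is harmonic away from the origin. -/
lemma lap_yuk_zero {x : Space} (hx : x ≠ 0) : lap (yuk 0) x = 0 := by
  have hm : ‖x - 0‖ ^ 2 ∈ Set.Ioi (0 : ℝ) := by
    have : 0 < ‖x‖ := norm_pos_iff.2 hx
    rw [sub_zero, Set.mem_Ioi]
    positivity
  rw [yuk_zero_eq, lap_radial 0 (φ := fun t => (4 * Real.pi)⁻¹ * t ^ (-(1 / 2) : ℝ))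
    (φ1 := fun t => (4 * Real.pi)⁻¹ * (-(1 / 2)) * t ^ (-(3 / 2) : ℝ))
    (φ2 := fun t => (4 * Real.pi)⁻¹ * (3 / 4) * t ^ (-(5 / 2) : ℝ)) isOpen_Ioi
    (fun t ht => ((Real.hasDerivAt_rpow_const (Or.inl ht.ne')).const_mul _).congr_deriv (by
      norm_num; ring))
    (fun t ht => ((Real.hasDerivAt_rpow_const (Or.inl ht.ne')).const_mul _).congr_deriv (by
      norm_num; ring)) hm]
  have e : (‖x - 0‖ ^ 2) ^ (-(3 / 2) : ℝ) = ‖x - 0‖ ^ 2 * (‖x - 0‖ ^ 2) ^ (-(5 / 2) : ℝ) := by
    rw [show (-(3 / 2) : ℝ) = 1 + -(5 / 2) by norm_num, Real.rpow_add hm, Real.rpow_one]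
  rw [e]
  ring

lemma lap_eq_of_eventuallyEq {u v : Space → ℝ} {x : Space} (h : u =ᶠ[𝓝 x] v) :
    lap u x = lap v x := by
  refine Finset.sum_congr rfl fun a _ => ?_
  have h1 : deriv3 a u =ᶠ[𝓝 x] deriv3 a v := h.fderiv.fun_comp fun L : Space →L[ℝ] ℝ => L (unit3 a)
  rw [deriv3, deriv3, h1.fderiv_eq]

/-- Every nonnegative test function in the smaller ball has a nonnegative companion in the larger
one, below its Newton potential, whose Laplacian is minus that function up to a bounded error. -/
lemma exists_companion {R : ℝ} (hR : 0 < R) :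
    ∃ M : ℝ, 0 ≤ M ∧ ∀ (x₀ : Space) (φ : Space → ℝ), IsBump (ball x₀ R) φ → (∀ x, 0 ≤ φ x) →
      ∃ η, IsBump (ball x₀ (2 * R)) η ∧ (∀ x, 0 ≤ η x ∧ η x ≤ pot 0 φ x) ∧
        ∀ x, |lap η x + φ x| ≤ M * ∫ y, φ y := by
  obtain ⟨θ, hθ, h01, W, hW, hKW, hW1⟩ := exists_cutoff (isOpen_ball (x := (0 : Space)) (ε := R))
    (isCompact_singleton (x := (0 : Space))) (Set.singleton_subset_iff.2 (mem_ball_self hR))
  have h0W : (0 : Space) ∈ W := hKW rfl
  set K : Space → ℝ := fun y => θ y * yuk 0 y with hKdef
  set w : Space → ℝ := fun y => (1 - θ y) * yuk 0 y with hwdef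
  have hK : LocallyIntegrable K := by
    refine (locallyIntegrable_yuk le_rfl).mono
      (hθ.continuous.measurable.mul (measurable_yuk 0)).aestronglyMeasurable (ae_of_all _ fun y => ?_)
    simp only [hKdef, norm_mul, Real.norm_eq_abs, abs_of_nonneg (h01 y).1,
      abs_of_nonneg (yuk_nonneg 0 y)]
    exact mul_le_of_le_one_left (yuk_nonneg 0 y) (h01 y).2
  have hw : ContDiff ℝ 2 w := by
    refine contDiff_iff_contDiffAt.2 fun x => ?_
    by_cases hx : x = 0
    · have : w =ᶠ[𝓝 x] fun _ => 0 :=
        Filter.eventually_of_mem (hW.mem_nhds (hx ▸ h0W)) fun y hy => by simp [hwdef, hW1 y hy]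
      exact contDiffAt_const.congr_of_eventuallyEq this
    · refine (contDiffAt_const.sub (hθ.contDiff 2).contDiffAt).mul ?_
      have : yuk 0 = fun y : Space => (4 * Real.pi)⁻¹ * ‖y‖⁻¹ := by
        funext y; simp [yuk, mul_comm]
      rw [this]
      exact contDiffAt_const.mul ((contDiffAt_norm ℝ hx).inv (norm_ne_zero_iff.2 hx))
  have hlz : ∀ x ∉ tsupport θ, lap w x = 0 := by
    intro x hx
    have hx0 : x ≠ 0 := fun h => hx (h ▸ subset_tsupport θ (by simp [hW1 0 h0W]))
    rw [lap_eq_of_eventuallyEq (v := yuk 0), lap_yuk_zero hx0]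
    filter_upwards [(isClosed_tsupport θ).isOpen_compl.mem_nhds hx] with y hy
    simp [hwdef, image_eq_zero_of_notMem_tsupport hy]
  obtain ⟨M, hM⟩ := (continuous_lap hw).bounded_above_of_compact_support
    (HasCompactSupport.intro hθ.compact hlz)
  refine ⟨M, (norm_nonneg _).trans (hM 0), fun x₀ φ hφ h0 => ?_⟩
  have hc := hφ.continuous
  have hs : tsupport (conv3 φ K) ⊆ cthickening R (tsupport φ) := by
    refine closure_minimal (fun x hx => ?_) isClosed_cthickening
    by_contra hn
    refine hx (integral_eq_zero_of_ae (ae_of_all _ fun y => ?_))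
    by_contra hne
    obtain ⟨h1, h2⟩ := mul_ne_zero_iff.1 hne
    refine hn (mem_cthickening_of_dist_le x (x - y) R _ (subset_tsupport φ h2) ?_)
    have := hθ.supp (subset_tsupport θ (left_ne_zero_of_mul h1))
    rw [mem_ball_zero_iff] at this
    simpa [dist_eq_norm] using this.le
  refine ⟨conv3 φ K, ⟨contDiff_conv3 hφ.smooth hφ.compact hK, ?_, ?_⟩, fun x => ⟨?_, ?_⟩, fun x => ?_⟩
  · exact hφ.compact.cthickening.of_isClosed_subset (isClosed_tsupport _) hs
  · refine hs.trans ?_
    rw [hφ.compact.isCompact.cthickening_eq_biUnion_closedBall hR.le]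
    simp only [Set.iUnion_subset_iff]
    intro z hz y hy
    have h1 := mem_ball.1 (hφ.supp hz)
    have h2 := mem_closedBall.1 hy
    rw [mem_ball]
    linarith [dist_triangle y z x₀]
  · exact integral_nonneg fun y => mul_nonneg (mul_nonneg (h01 y).1 (yuk_nonneg 0 y)) (h0 _)
  · rw [pot_eq_conv3]
    exact integral_mono (integrable_conv3 hc hφ.compact hK x)
      (integrable_conv3 hc hφ.compact (locallyIntegrable_yuk le_rfl) x) fun y =>
        mul_le_mul_of_nonneg_right (mul_le_of_le_one_left (yuk_nonneg 0 y) (h01 y).2) (h0 _)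
  · have hbl : Continuous (lap φ) := continuous_lap (hφ.contDiff 2)
    have hlc := hasCompactSupport_lap hφ.compact
    have hψ : IsBump Set.univ fun y => φ (x - y) :=
      ⟨hφ.smooth.comp (contDiff_const.sub contDiff_id),
        hφ.compact.comp_homeomorph (Homeomorph.subLeft x), Set.subset_univ _⟩
    have h2 := (WeakPoisson.of_contDiffOn isOpen_univ hw.contDiffOn).2.2 _ hψ
    simp only [lap_comp_sub (hφ.contDiff 2)] at h2
    have h1 : ∫ y, yuk 0 y * lap φ (x - y) = -φ x := by
      have h := yukTest 0 le_rfl φ (hφ.mono (Set.subset_univ _)) x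
      have e := congrFun (pot_eq_conv3 0 (lap φ)) x
      simp only [pot, conv3] at e
      rw [← h, ← e, ← integral_neg]
      exact integral_congr_ae (ae_of_all _ fun y => by ring)
    have iA : Integrable fun y => yuk 0 y * lap φ (x - y) :=
      integrable_conv3 hbl hlc (locallyIntegrable_yuk le_rfl) x
    have iB : Integrable fun y => w y * lap φ (x - y) :=
      integrable_conv3 hbl hlc hw.continuous.locallyIntegrable x
    have h3 : lap (conv3 φ K) x + φ x = -∫ y, lap w y * φ (x - y) := by
      rw [lap_conv3 (hφ.contDiff 2) hφ.compact hK, ← h2, conv3]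
      have e : ∫ y, K y * lap φ (x - y) =
          (∫ y, yuk 0 y * lap φ (x - y)) - ∫ y, w y * lap φ (x - y) := by
        rw [← integral_sub iA iB]
        exact integral_congr_ae (ae_of_all _ fun y => by simp only [hKdef, hwdef]; ring)
      rw [e, h1]
      ring
    rw [h3, abs_neg, ← integral_sub_left_eq_self φ volume x, ← integral_const_mul,
      ← Real.norm_eq_abs]
    refine norm_integral_le_of_norm_le
      ((hψ.continuous.integrable_of_hasCompactSupport hψ.compact).const_mul M) (ae_of_all _ fun y => ?_)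
    rw [norm_mul, Real.norm_of_nonneg (h0 _)]
    exact mul_le_mul_of_nonneg_right (hM y) (h0 _)

/-- The Newton potential of an `L^p` function on a ball, `p > 3/2`, is bounded. -/
lemma exists_pot_bound {p R : ℝ} (hp : 3 / 2 < p) :
    ∃ D : ℝ, 0 ≤ D ∧ ∀ (x₀ : Space) (g : Space → ℝ),
      MemLp g (ENNReal.ofReal p) (volume.restrict (ball x₀ R)) → ∀ x,
        ∫ y in ball x₀ R, |g y| * yuk 0 (x - y) ≤
          D * (eLpNorm g (ENNReal.ofReal p) (volume.restrict (ball x₀ R))).toReal := by
  have hp1 : 1 < p := by linarith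
  set q := Real.conjExponent p with hq
  have hpq : p.HolderConjugate q := Real.HolderConjugate.conjExponent hp1
  have hq0 : 0 < q := hpq.symm.pos
  have hq3 : q < 3 := by
    rw [hq, Real.conjExponent, div_lt_iff₀ (by linarith)]
    linarith
  obtain ⟨A, hA, hAx⟩ := setIntegral_rpow_le hq0.le hq3
  refine ⟨(A + volume.real (ball (0 : Space) R)) ^ (1 / q),
    Real.rpow_nonneg (by positivity) _, fun x₀ g hg x => ?_⟩
  set μ := volume.restrict (ball x₀ R)
  obtain ⟨hi, hle⟩ := hAx x (ball x₀ R) measurableSet_ball measure_ball_lt_top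
  have hm : Measurable fun y => yuk 0 (x - y) :=
    (measurable_yuk 0).comp (measurable_const.sub measurable_id)
  have hpt : ∀ y, yuk 0 (x - y) ^ q ≤ ‖x - y‖ ^ (-q) := fun y => by
    refine (Real.rpow_le_rpow (yuk_nonneg 0 _) (yuk_le 0 _) hq0.le).trans_eq ?_
    rw [zero_mul, neg_zero, Real.exp_zero, mul_one, Real.rpow_neg (norm_nonneg _),
      Real.inv_rpow (norm_nonneg _)]
  have hiy : Integrable (fun y => yuk 0 (x - y) ^ q) μ := hi.mono'
    (hm.pow_const q).aestronglyMeasurable (ae_of_all _ fun y => by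
      rw [Real.norm_of_nonneg (Real.rpow_nonneg (yuk_nonneg 0 _) _)]; exact hpt y)
  have hy : MemLp (fun y => yuk 0 (x - y)) (ENNReal.ofReal q) μ := by
    rw [← integrable_norm_rpow_iff hm.aestronglyMeasurable (by simpa using hq0) (by simp),
      ENNReal.toReal_ofReal hq0.le]
    simpa only [Real.norm_of_nonneg (yuk_nonneg 0 _)] using hiy
  have hH := integral_mul_le_Lp_mul_Lq_of_nonneg (μ := μ) hpq (f := fun y => |g y|)
    (g := fun y => yuk 0 (x - y)) (ae_of_all _ fun y => abs_nonneg _)
    (ae_of_all _ fun y => yuk_nonneg 0 _) hg.norm hy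
  have hn : (eLpNorm g (ENNReal.ofReal p) μ).toReal = (∫ y, |g y| ^ p ∂μ) ^ (1 / p) := by
    rw [hg.eLpNorm_eq_integral_rpow_norm (by simp; linarith) (by simp),
      ENNReal.toReal_ofReal (Real.rpow_nonneg (integral_nonneg fun y => by positivity) _),
      ENNReal.toReal_ofReal (by linarith), one_div]
    simp only [Real.norm_eq_abs]
  refine hH.trans ?_
  rw [hn, mul_comm]
  refine mul_le_mul_of_nonneg_right (Real.rpow_le_rpow
    (integral_nonneg fun y => Real.rpow_nonneg (yuk_nonneg 0 _) _) ?_ (by positivity)) (by positivity)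
  have hv : volume.real (ball x₀ R) = volume.real (ball (0 : Space) R) := by
    simp only [Measure.real, Measure.addHaar_ball_center]
  exact (integral_mono hiy hi hpt).trans (hle.trans_eq (by rw [hv]))

/-- A function whose integrals against nonnegative test functions are nonnegative is nonnegative. -/
lemma ae_nonneg_of_bump {U : Set Space} {F : Space → ℝ} (hU : IsOpen U) (hF : LocallyIntegrable F)
    (h : ∀ φ, IsBump U φ → (∀ x, 0 ≤ φ x) → 0 ≤ ∫ x, F x * φ x) :
    ∀ᵐ x, x ∈ U → 0 ≤ F x := by
  have hd : ∀ n : ℕ, (0 : ℝ) < 1 / (n + 1) := fun n => by positivity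
  filter_upwards [tendsto_conv3_mol hF hd tendsto_one_div_add_atTop_nhds_zero_nat] with x hx hxU
  obtain ⟨δ, hδ, hb⟩ := Metric.isOpen_iff.1 hU x hxU
  refine ge_of_tendsto hx ?_
  filter_upwards [tendsto_one_div_add_atTop_nhds_zero_nat.eventually_lt_const hδ] with n hn
  exact h _ (isBump_comp_sub (molFun_smooth (hd n)) (molFun_tsupport (hd n))
    ((closedBall_subset_ball hn).trans hb)) fun y => molFun_nonneg (hd n) _

/-- The local bound from above. -/
theorem supBound : SupBoundStmt := by
  intro p hp R hR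
  obtain ⟨M, hM, hcomp⟩ := exists_companion hR
  obtain ⟨D, hD, hpot⟩ := exists_pot_bound (R := 2 * R) hp
  refine ⟨max M D, le_max_of_le_left hM, fun x₀ f g hsub hf hg => ?_⟩
  set B := ball x₀ (2 * R)
  set N := (eLpNorm g (ENNReal.ofReal p) (volume.restrict B)).toReal
  set I := ∫ y in B, |f y|
  set c := max M D * (I + N)
  have : IsFiniteMeasure (volume.restrict B) := isFiniteMeasure_restrict.2 measure_ball_lt_top.ne
  have hgi : IntegrableOn g B :=
    hg.integrable (by rw [← ENNReal.ofReal_one]; exact ENNReal.ofReal_le_ofReal (by linarith))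
  set G : Space → ℝ := B.indicator fun y => |g y|
  have hG : Integrable G := (integrable_indicator_iff measurableSet_ball).2 hgi.abs
  have hG0 : ∀ y, 0 ≤ G y := Set.indicator_nonneg fun y _ => abs_nonneg _
  have hq : Integrable fun x => Real.exp (-(0 * ‖x‖)) * G x := by simpa using hG
  obtain ⟨hPl, hdual⟩ := pot_dual le_rfl hq
  have hP : ∀ x, pot 0 G x ≤ D * N := fun x => by
    refine le_trans (le_of_eq ?_) (hpot x₀ g hg x)
    rw [pot, ← integral_indicator measurableSet_ball]
    refine integral_congr_ae (ae_of_all _ fun y => ?_)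
    simp only [G]
    by_cases hy : y ∈ B
    · rw [Set.indicator_of_mem hy, Set.indicator_of_mem hy]; ring
    · rw [Set.indicator_of_notMem hy, Set.indicator_of_notMem hy, mul_zero]
  have hBR : ball x₀ R ⊆ B := ball_subset_ball (by linarith)
  have key : ∀ φ, IsBump (ball x₀ R) φ → (∀ x, 0 ≤ φ x) →
      ∫ x, f x * φ x ≤ c * ∫ x, φ x := by
    intro φ hφ h0
    have hint : 0 ≤ ∫ x, φ x := integral_nonneg h0
    obtain ⟨η, hη, hη1, hη2⟩ := hcomp x₀ φ hφ h0
    have h1 := hsub.2.2 η hη fun x => (hη1 x).1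
    simp only [Pi.neg_apply, neg_mul, integral_neg] at h1
    have hφB := hφ.mono hBR
    have i1 := hη.integrable_mul_lap hsub.1
    have i2 := hφB.integrable_mul hsub.1
    have e1 : |∫ x, f x * (lap η x + φ x)| ≤ I * (M * ∫ x, φ x) := by
      rw [← setIntegral_eq_integral_of_forall_compl_eq_zero (s := B) fun x hx => by
        rw [hη.lap.eq_zero hx, hφB.eq_zero hx, add_zero, mul_zero]]
      rw [← Real.norm_eq_abs, ← integral_mul_const]
      refine norm_integral_le_of_norm_le (hf.abs.mul_const _) (ae_of_all _ fun x => ?_)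
      rw [norm_mul, Real.norm_eq_abs, Real.norm_eq_abs]
      exact mul_le_mul_of_nonneg_left (hη2 x) (abs_nonneg _)
    have e2 : ∫ x, g x * η x ≤ D * N * ∫ x, φ x := by
      have hpc : Continuous (pot 0 φ) :=
        (contDiff_pot le_rfl (hφ.mono (Set.subset_univ _))).continuous
      obtain ⟨C, hC⟩ := pot_decay (k := 0) le_rfl hφ.continuous hφ.compact
      have j1 : Integrable fun x => g x * η x :=
        integrable_mul_of_tsupport hgi.locallyIntegrableOn hη.continuous hη.compact hη.supp
      have j2 : Integrable fun x => G x * pot 0 φ x :=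
        hG.mul_bdd (c := C) hpc.aestronglyMeasurable (ae_of_all _ fun x => by simpa using hC x)
      refine (integral_mono j1 j2 fun x => ?_).trans ?_
      · by_cases hx : x ∈ B
        · simp only [G, Set.indicator_of_mem hx]
          exact (mul_le_mul_of_nonneg_right (le_abs_self _) (hη1 x).1).trans
            (mul_le_mul_of_nonneg_left (hη1 x).2 (abs_nonneg _))
        · simp [G, hx, hη.eq_zero hx]
      · rw [← hdual φ hφ.continuous hφ.compact, ← integral_const_mul]
        refine integral_mono (hPl.integrable_smul_right_of_hasCompactSupport hφ.continuous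
          hφ.compact) ((hφ.continuous.integrable_of_hasCompactSupport hφ.compact).const_mul _)
          fun x => mul_le_mul_of_nonneg_right (hP x) (h0 x)
    have e3 : ∫ x, f x * (lap η x + φ x) = (∫ x, f x * lap η x) + ∫ x, f x * φ x := by
      rw [← integral_add i1 i2]
      simp only [mul_add]
    have hI : 0 ≤ I := integral_nonneg fun _ => abs_nonneg _
    have hN : 0 ≤ N := ENNReal.toReal_nonneg
    calc ∫ x, f x * φ x ≤ D * N * (∫ x, φ x) + I * (M * ∫ x, φ x) := by
          linarith [(abs_le.1 e1).2]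
      _ ≤ max M D * N * (∫ x, φ x) + I * (max M D * ∫ x, φ x) := by
          gcongr
          · exact le_max_right _ _
          · exact le_max_left _ _
      _ = c * ∫ x, φ x := by ring
  have hFi : Integrable (B.indicator fun x => c - f x) :=
    (integrable_indicator_iff measurableSet_ball).2 ((integrableOn_const measure_ball_lt_top.ne).sub hf)
  have hmain := ae_nonneg_of_bump isOpen_ball hFi.locallyIntegrable fun φ hφ h0 => by
    have i1 : Integrable fun x => f x * φ x := (hφ.mono hBR).integrable_mul hsub.1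
    have i2 : Integrable fun x => c * φ x :=
      (hφ.continuous.integrable_of_hasCompactSupport hφ.compact).const_mul c
    have e : ∫ x, B.indicator (fun x => c - f x) x * φ x = ∫ x, (c * φ x - f x * φ x) := by
      refine integral_congr_ae (ae_of_all _ fun x => ?_)
      by_cases hx : x ∈ B
      · simp only [Set.indicator_of_mem hx]; ring
      · simp [hx, (hφ.mono hBR).eq_zero hx]
    rw [e, integral_sub i2 i1, integral_const_mul]
    linarith [key φ hφ h0]
  filter_upwards [hmain] with x hx hxR
  have := hx hxR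
  rw [Set.indicator_of_mem (hBR hxR)] at this
  linarith

end Vale.Agent.P363
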