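import Vale.Agent.P363.Tool.YukawaSpec

/-!
P363: bounds of the kernel of `k² - Δ`, and its regularisation.
-/

noncomputable section

namespace Vale.Agent.P363.Yuk

open MeasureTheory Filter Metric
open scoped BigOperators Topology ENNReal

lemma finrank_space : Module.finrank ℝ Space = 3 := finrank_euclideanSpace_fin

/-- `|x|^(-s) exp (-c |x|)` is integrable for `s < 3`. -/
lemma integrable_rpow_exp {s c : ℝ} (hs : s < 3) (hc : 0 < c) :
    Integrable fun x : Space => ‖x‖ ^ (-s) * Real.exp (-(c * ‖x‖)) := by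
  rw [integrable_fun_norm_addHaar volume (f := fun r : ℝ => r ^ (-s) * Real.exp (-(c * r))),
    finrank_space]
  refine (integrableOn_rpow_mul_exp_neg_mul_rpow (s := 2 - s) (p := 1) (b := c) (by linarith)
    one_pos hc).congr_fun (fun y hy => ?_) measurableSet_Ioi
  simp only [Real.rpow_one, smul_eq_mul, sub_eq_add_neg, Real.rpow_add hy, Real.rpow_two,
    Nat.add_one_sub_one, neg_mul]
  ring

/-- `|x - x₀|^(-s)` is integrable on balls for `s < 3`. -/
lemma integrableOn_rpow_ball {s : ℝ} (hs : s < 3) (x₀ : Space) (R : ℝ) :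
    IntegrableOn (fun y => ‖x₀ - y‖ ^ (-s)) (closedBall x₀ R) := by
  have h := (((integrable_rpow_exp hs one_pos).comp_sub_left x₀).mul_const (Real.exp R))
  refine h.integrableOn.mono' ?_ ?_
  · exact ((measurable_const.sub measurable_id).norm.pow_const (-s)).aestronglyMeasurable
  · filter_upwards [ae_restrict_mem measurableSet_closedBall] with y hy
    rw [Real.norm_eq_abs, abs_of_nonneg (Real.rpow_nonneg (norm_nonneg _) _), mul_assoc,
      ← Real.exp_add]
    refine le_mul_of_one_le_right (Real.rpow_nonneg (norm_nonneg _) _) (Real.one_le_exp ?_)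
    rw [mem_closedBall, dist_eq_norm, norm_sub_rev] at hy
    linarith

lemma abs_coord_le (x : Space) (a : Fin 3) : |x a| ≤ ‖x‖ := by
  rw [← Real.norm_eq_abs]
  exact PiLp.norm_apply_le x a

lemma measurable_coord (a : Fin 3) : Measurable fun x : Space => x a :=
  (EuclideanSpace.proj (𝕜 := ℝ) a).continuous.measurable

lemma measurable_yuk (k : ℝ) : Measurable (yuk k) := by
  unfold yuk
  exact ((measurable_norm.const_mul k).neg.exp).div (measurable_norm.const_mul _)

lemma measurable_yukGrad (k : ℝ) (a : Fin 3) : Measurable (yukGrad k a) := by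
  unfold yukGrad
  exact ((((measurable_norm.const_mul k).const_add 1).mul (measurable_norm.const_mul k).neg.exp).mul
    (measurable_coord a)).neg.div ((measurable_norm.pow_const 3).const_mul _)

lemma yuk_nonneg (k : ℝ) (x : Space) : 0 ≤ yuk k x := by
  unfold yuk; positivity

lemma yuk_le (k : ℝ) (x : Space) : yuk k x ≤ ‖x‖⁻¹ * Real.exp (-(k * ‖x‖)) := by
  unfold yuk
  rcases (norm_nonneg x).eq_or_lt with h | h
  · simp [← h]
  rw [div_eq_mul_inv, mul_comm, mul_inv]
  refine mul_le_mul_of_nonneg_right (mul_le_of_le_one_left (inv_nonneg.2 h.le) ?_) (Real.exp_pos _).le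
  refine inv_le_one_of_one_le₀ ?_
  nlinarith [Real.pi_gt_three]

lemma yuk_neg (k : ℝ) (x : Space) : yuk k (-x) = yuk k x := by
  simp [yuk]

lemma add_one_mul_exp_le (t : ℝ) :
    (1 + t) * Real.exp (-t) ≤ 2 * Real.exp (-(t / 2)) := by
  have h := Real.add_one_le_exp (t / 2)
  have e : Real.exp (-(t / 2)) = Real.exp (t / 2) * Real.exp (-t) := by
    rw [← Real.exp_add]; congr 1; ring
  rw [e, ← mul_assoc]
  exact mul_le_mul_of_nonneg_right (by linarith) (Real.exp_pos _).le

lemma abs_yukGrad_le {k : ℝ} (hk : 0 ≤ k) (a : Fin 3) (x : Space) :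
    |yukGrad k a x| ≤ ‖x‖ ^ (-(2 : ℝ)) * Real.exp (-(k / 2 * ‖x‖)) := by
  rcases (norm_nonneg x).eq_or_lt with h | h
  · have hx : x a = 0 := by
      have := abs_coord_le x a
      rw [← h] at this
      exact abs_nonpos_iff.1 this
    simp [yukGrad, hx]; positivity
  set r := ‖x‖
  rw [yukGrad, abs_div, abs_neg, abs_mul,
    abs_of_nonneg (by positivity : (0 : ℝ) ≤ (1 + k * r) * Real.exp (-(k * r))),
    abs_of_pos (by positivity : (0 : ℝ) < 4 * Real.pi * r ^ 3), div_le_iff₀ (by positivity),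
    Real.rpow_neg h.le, Real.rpow_two]
  refine (mul_le_mul (add_one_mul_exp_le (k * r)) (abs_coord_le x a) (abs_nonneg _)
    (by positivity)).trans ?_
  rw [show k * r / 2 = k / 2 * r by ring,
    show (r ^ 2)⁻¹ * Real.exp (-(k / 2 * r)) * (4 * Real.pi * r ^ 3) =
      (4 * Real.pi) * Real.exp (-(k / 2 * r)) * r by field_simp]
  gcongr
  nlinarith [Real.pi_gt_three]

lemma memLp_of_bound {f : Space → ℝ} (hf : Measurable f) {j c q : ℝ} (hj : j * q < 3) (hc : 0 < c)
    (hq : 1 ≤ q) (hb : ∀ x, |f x| ≤ ‖x‖ ^ (-j) * Real.exp (-(c * ‖x‖))) :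
    MemLp f (ENNReal.ofReal q) := by
  rw [← integrable_norm_rpow_iff hf.aestronglyMeasurable (by simp; linarith) (by simp),
    ENNReal.toReal_ofReal (by linarith)]
  refine (integrable_rpow_exp hj (mul_pos hc (by linarith : (0 : ℝ) < q))).mono'
    (hf.norm.pow_const q).aestronglyMeasurable (ae_of_all _ fun x => ?_)
  rw [Real.norm_eq_abs, abs_of_nonneg (Real.rpow_nonneg (norm_nonneg _) _), Real.norm_eq_abs]
  refine (Real.rpow_le_rpow (abs_nonneg _) (hb x) (by linarith)).trans_eq ?_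
  rw [Real.mul_rpow (Real.rpow_nonneg (norm_nonneg _) _) (Real.exp_pos _).le,
    ← Real.rpow_mul (norm_nonneg _), ← Real.exp_mul]
  ring_nf

/-- The regularised radius. -/
def rho (ε : ℝ) (x : Space) : ℝ := √(‖x‖ ^ 2 + ε ^ 2)

lemma rho_pos {ε : ℝ} (hε : ε ≠ 0) (x : Space) : 0 < rho ε x :=
  Real.sqrt_pos.2 (by positivity)

lemma hasFDerivAt_rho (ε : ℝ) (x : Space) (h : ‖x‖ ^ 2 + ε ^ 2 ≠ 0) :
    HasFDerivAt (rho ε) ((rho ε x)⁻¹ • innerSL ℝ x) x := by
  have h1 : HasFDerivAt (fun z : Space => ‖z‖ ^ 2 + ε ^ 2) ((2 : ℝ) • innerSL ℝ x) x := by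
    refine ((hasStrictFDerivAt_norm_sq x).hasFDerivAt.add_const _).congr_fderiv ?_
    ext y; simp
  refine (h1.sqrt h).congr_fderiv ?_
  rw [smul_smul, rho]
  congr 1
  field_simp

lemma deriv3_comp_rho {F : ℝ → ℝ} {F' ε : ℝ} {x : Space} (h : ‖x‖ ^ 2 + ε ^ 2 ≠ 0)
    (hF : HasDerivAt F F' (rho ε x)) (a : Fin 3) :
    deriv3 a (fun z => F (rho ε z)) x = F' * x a / rho ε x := by
  have hh := hF.comp_hasFDerivAt x (hasFDerivAt_rho ε x h)
  rw [deriv3, show (fun z => F (rho ε z)) = F ∘ rho ε from rfl, hh.fderiv]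
  simp [unit3, EuclideanSpace.inner_single_right]
  ring

lemma hasDerivAt_expk (k t : ℝ) :
    HasDerivAt (fun u => Real.exp (-(k * u))) (-k * Real.exp (-(k * t))) t := by
  have := (((hasDerivAt_id t).const_mul k).neg).exp
  simpa [mul_comm] using this

lemma hasDerivAt_profile (k : ℝ) {t : ℝ} (ht : t ≠ 0) :
    HasDerivAt (fun u => Real.exp (-(k * u)) / (4 * Real.pi * u))
      (-((1 + k * t) * Real.exp (-(k * t))) / (4 * Real.pi * t ^ 2)) t := by
  have h := (hasDerivAt_expk k t).div ((hasDerivAt_id t).const_mul (4 * Real.pi))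
    (by simp [ht, Real.pi_ne_zero])
  refine h.congr_deriv ?_
  simp only [id, mul_one]
  field_simp
  ring

lemma hasDerivAt_profile' (k : ℝ) {t : ℝ} (ht : t ≠ 0) :
    HasDerivAt (fun u => -((1 + k * u) * Real.exp (-(k * u))) / (4 * Real.pi * u ^ 3))
      ((3 + 3 * (k * t) + (k * t) ^ 2) * Real.exp (-(k * t)) / (4 * Real.pi * t ^ 4)) t := by
  have h := ((((hasDerivAt_id t).const_mul k).const_add 1).mul (hasDerivAt_expk k t)).neg.div
    ((hasDerivAt_pow 3 t).const_mul (4 * Real.pi)) (by simp [ht, Real.pi_ne_zero])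
  refine h.congr_deriv ?_
  simp only [id, mul_one, Pi.neg_apply, Pi.mul_apply]
  field_simp
  ring

lemma rho_zero (x : Space) : rho 0 x = ‖x‖ := by
  simp [rho, Real.sqrt_sq]

lemma differentiableAt_yuk (k : ℝ) {x : Space} (hx : x ≠ 0) :
    DifferentiableAt ℝ (yuk k) x ∧ ∀ a, deriv3 a (yuk k) x = yukGrad k a x := by
  have h : ‖x‖ ^ 2 + (0 : ℝ) ^ 2 ≠ 0 := by simp [hx]
  have hne : rho 0 x ≠ 0 := by rw [rho_zero]; simpa using hx
  have e : yuk k = fun z => Real.exp (-(k * rho 0 z)) / (4 * Real.pi * rho 0 z) :=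
    funext fun z => by simp [yuk, rho_zero]
  constructor
  · rw [e]
    exact ((hasDerivAt_profile k hne).comp_hasFDerivAt x (hasFDerivAt_rho 0 x h)).differentiableAt
  · intro a
    rw [e, deriv3_comp_rho h (hasDerivAt_profile k hne) a, rho_zero, yukGrad]
    rw [rho_zero] at hne
    field_simp

/-- Bounds of the kernel. -/
theorem yukBounds : YukBoundsStmt := by
  refine ⟨fun k x _ => yuk_nonneg k x, fun k a x hx =>
    ⟨(differentiableAt_yuk k hx).1, (differentiableAt_yuk k hx).2 a⟩, fun k q hk h1 h3 => ?_,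
    fun k q hk h1 h3 a => ?_⟩
  · refine memLp_of_bound (measurable_yuk k) (j := 1) (by linarith) hk h1 fun x => ?_
    rw [abs_of_nonneg (yuk_nonneg k x), Real.rpow_neg_one]
    exact yuk_le k x
  · exact memLp_of_bound (measurable_yukGrad k a) (j := 2) (by linarith) (half_pos hk) h1
      (abs_yukGrad_le hk.le a)

/-- The regularised kernel. -/
def soft (k ε : ℝ) (x : Space) : ℝ :=
  Real.exp (-(k * rho ε x)) / (4 * Real.pi * rho ε x)

/-- `k² - Δ` of the regularised kernel. -/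
def bumpKer (k ε : ℝ) (x : Space) : ℝ :=
  ε ^ 2 * ((3 + 3 * (k * rho ε x) + (k * rho ε x) ^ 2) * Real.exp (-(k * rho ε x))) /
    (4 * Real.pi * rho ε x ^ 5)

lemma contDiff_rho {ε : ℝ} (hε : ε ≠ 0) : ContDiff ℝ 2 (rho ε) :=
  ((contDiff_norm_sq ℝ).add contDiff_const).sqrt fun x => by positivity

lemma contDiff_soft (k : ℝ) {ε : ℝ} (hε : ε ≠ 0) : ContDiff ℝ 2 (soft k ε) := by
  refine ((contDiff_const.mul (contDiff_rho hε)).neg.exp).div
    (contDiff_const.mul (contDiff_rho hε)) fun x => ?_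
  have := rho_pos hε x
  positivity

lemma deriv3_soft (k : ℝ) {ε : ℝ} (hε : ε ≠ 0) (a : Fin 3) :
    deriv3 a (soft k ε) =
      fun x => -((1 + k * rho ε x) * Real.exp (-(k * rho ε x))) / (4 * Real.pi * rho ε x ^ 3) *
        x a := by
  funext x
  have h := deriv3_comp_rho (by positivity) (hasDerivAt_profile k (rho_pos hε x).ne') a
  refine (h.trans ?_ : deriv3 a (soft k ε) x = _)
  have := rho_pos hε x
  field_simp

lemma deriv3_deriv3_soft (k : ℝ) {ε : ℝ} (hε : ε ≠ 0) (a : Fin 3) (x : Space) :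
    deriv3 a (deriv3 a (soft k ε)) x =
      -((1 + k * rho ε x) * Real.exp (-(k * rho ε x))) / (4 * Real.pi * rho ε x ^ 3) +
        x a ^ 2 * ((3 + 3 * (k * rho ε x) + (k * rho ε x) ^ 2) * Real.exp (-(k * rho ε x))) /
          (4 * Real.pi * rho ε x ^ 5) := by
  rw [deriv3_soft k hε a, deriv3]
  have h1 := (hasDerivAt_profile' k (rho_pos hε x).ne').comp_hasFDerivAt x
    (hasFDerivAt_rho ε x (by positivity))
  have h2 : HasFDerivAt (fun z : Space => z a) (EuclideanSpace.proj (𝕜 := ℝ) a) x :=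
    (EuclideanSpace.proj (𝕜 := ℝ) a).hasFDerivAt
  have h3 := h1.mul h2
  simp only [Function.comp_def] at h3
  rw [show (fun z : Space => -((1 + k * rho ε z) * Real.exp (-(k * rho ε z))) /
      (4 * Real.pi * rho ε z ^ 3) * z a) = ((fun z : Space => -((1 + k * rho ε z) *
      Real.exp (-(k * rho ε z))) / (4 * Real.pi * rho ε z ^ 3)) * fun z : Space => z a) from rfl,
    h3.fderiv]
  have := rho_pos hε x
  simp [unit3, EuclideanSpace.inner_single_right]
  field_simp

lemma lap_soft (k : ℝ) {ε : ℝ} (hε : ε ≠ 0) (x : Space) :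
    k ^ 2 * soft k ε x - lap (soft k ε) x = bumpKer k ε x := by
  have hp := rho_pos hε x
  have hn : ‖x‖ ^ 2 = rho ε x ^ 2 - ε ^ 2 := by
    rw [rho, Real.sq_sqrt (by positivity)]; ring
  have hs : x 0 ^ 2 + x 1 ^ 2 + x 2 ^ 2 = rho ε x ^ 2 - ε ^ 2 := by
    rw [← hn, EuclideanSpace.real_norm_sq_eq, Fin.sum_univ_three]
  simp only [lap, Fin.sum_univ_three, deriv3_deriv3_soft k hε, soft, bumpKer]
  have hx2 : x 2 ^ 2 = rho ε x ^ 2 - ε ^ 2 - x 0 ^ 2 - x 1 ^ 2 := by linarith
  rw [hx2]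
  field_simp
  ring

end Vale.Agent.P363.Yuk
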