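import Vale.Agent.P363.Tool.Weak.Moll

/-!
P363: a nonnegative continuous function whose weak gradient is bounded by a multiple of its square
root has a Lipschitz square root.
-/

noncomputable section

namespace Vale.Agent.P363

open MeasureTheory Set Filter Metric
open scoped BigOperators Topology ContDiff

lemma dir_eq_sum (L : Space →L[ℝ] ℝ) (v : Space) : L v = ∑ a, v a * L (unit3 a) := by
  have hv : v = ∑ a, v a • unit3 a := by
    ext b; simp [unit3, Fin.sum_univ_three]; fin_cases b <;> simp
  conv_lhs => rw [hv]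
  simp

/-- The mollified derivative along a direction is controlled by the mollified function. -/
lemma sq_dir_moll_le {n : Space → ℝ} {gn : Fin 3 → Space → ℝ} {B : Set Space} {c : ℝ}
    (hn : Continuous n) (h0 : ∀ x, 0 ≤ n x) (hg : HasWeakGrad univ n gn) (hB : MeasurableSet B)
    (hb : ∀ᵐ x, x ∈ B → ∑ a, gn a x ^ 2 ≤ c ^ 2 * n x) (k : ℕ) {z : Space}
    (hz : closedBall z (1 / ((k : ℝ) + 1)) ⊆ B) (v : Space) :
    (fderiv ℝ (moll k n) z v) ^ 2 ≤ c ^ 2 * ‖v‖ ^ 2 * moll k n z := by
  have hl : LocallyIntegrable n := hn.locallyIntegrable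
  have hga : ∀ a, LocallyIntegrable (gn a) := fun a => locallyIntegrableOn_univ.1 (hg.2.1 a)
  set w : Space → ℝ := fun y => ∑ a, v a * gn a y
  set w' : Space → ℝ := B.indicator w
  have hw : LocallyIntegrable w := by
    simp only [w, Fin.sum_univ_three]
    exact (((hga 0).smul (v 0)).add ((hga 1).smul (v 1))).add ((hga 2).smul (v 2))
  have hw' : LocallyIntegrable w' := hw.indicator hB
  have hle : ∀ᵐ y, w' y ^ 2 ≤ c ^ 2 * ‖v‖ ^ 2 * n y := by
    filter_upwards [hb] with y hy
    by_cases hyB : y ∈ B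
    · simp only [w', indicator_of_mem hyB]
      refine (Finset.sum_mul_sq_le_sq_mul_sq Finset.univ (fun a => v a) fun a => gn a y).trans ?_
      rw [← EuclideanSpace.real_norm_sq_eq, mul_comm (c ^ 2), mul_assoc]
      exact mul_le_mul_of_nonneg_left (hy hyB) (sq_nonneg _)
    · simp only [w', indicator_of_notMem hyB]
      nlinarith [mul_nonneg (mul_nonneg (sq_nonneg c) (sq_nonneg ‖v‖)) (h0 y)]
  have hw2 : LocallyIntegrable fun y => w' y ^ 2 := by
    refine ((hn.const_mul (c ^ 2 * ‖v‖ ^ 2)).locallyIntegrable).mono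
      (hw'.aestronglyMeasurable.pow 2) (hle.mono fun y hy => ?_)
    rw [Real.norm_of_nonneg (sq_nonneg _)]
    exact hy.trans (le_abs_self _)
  have e : fderiv ℝ (moll k n) z v = moll k w' z := by
    rw [dir_eq_sum, moll_eq]
    simp only [show ∀ a, fderiv ℝ (moll k n) z (unit3 a) = deriv3 a (moll k n) z from fun a => rfl,
      deriv3_moll hg, moll_eq, ← integral_const_mul]
    rw [← integral_finsetSum _ fun a _ => (moll_integrand k (hga a) z).const_mul (v a)]
    refine integral_congr_ae (.of_forall fun t => ?_)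
    by_cases ht : mollKer k t = 0
    · simp [ht]
    · have hm : z - t ∈ B := hz (by
        rw [mem_closedBall, dist_eq_norm]; simpa using (mollKer_small ht).le)
      simp only [w', indicator_of_mem hm, w, Finset.mul_sum]
      exact Finset.sum_congr rfl fun a _ => by ring
  rw [e]
  refine (moll_sq_le k hw' hw2 z).trans ?_
  rw [moll_eq, moll_eq, ← integral_const_mul]
  refine integral_mono_ae (moll_integrand k hw2 z) ((moll_integrand k hl z).const_mul _) ?_
  filter_upwards [(Measure.measurePreserving_sub_left volume z).quasiMeasurePreserving.ae hle] with t ht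
  calc mollKer k t * w' (z - t) ^ 2 ≤ mollKer k t * (c ^ 2 * ‖v‖ ^ 2 * n (z - t)) :=
        mul_le_mul_of_nonneg_left ht (mollKer_nonneg k t)
    _ = _ := by ring

/-- The Lipschitz bound on the square root. -/
theorem sqrt_lipschitz_of_grad {n : Space → ℝ} {gn : Fin 3 → Space → ℝ} {x₀ : Space} {ρ c : ℝ}
    (hn : Continuous n) (h0 : ∀ x, 0 ≤ n x) (hg : HasWeakGrad univ n gn) (hc : 0 ≤ c)
    (hb : ∀ᵐ x, x ∈ ball x₀ ρ → ∑ a, gn a x ^ 2 ≤ c ^ 2 * n x)
    {x y : Space} (hx : x ∈ ball x₀ ρ) (hy : y ∈ ball x₀ ρ) :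
    |Real.sqrt (n x) - Real.sqrt (n y)| ≤ c / 2 * dist x y := by
  set v := y - x
  have hmem : ∀ t ∈ Icc (0 : ℝ) 1, dist (x + t • v) x₀ ≤ max (dist x x₀) (dist y x₀) := by
    intro t ht
    have h := (convex_closedBall x₀ (max (dist x x₀) (dist y x₀))).add_smul_sub_mem
      (mem_closedBall.2 (le_max_left _ _)) (mem_closedBall.2 (le_max_right _ _)) ht
    exact mem_closedBall.1 h
  have hlt : max (dist x x₀) (dist y x₀) < ρ := max_lt (mem_ball.1 hx) (mem_ball.1 hy)
  have key : ∀ ν > 0, |Real.sqrt (n x + ν) - Real.sqrt (n y + ν)| ≤ c / 2 * dist x y := by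
    intro ν hν
    refine le_of_tendsto ((((moll_tendsto_continuous hn x).add_const ν).sqrt.sub
      ((moll_tendsto_continuous hn y).add_const ν).sqrt).abs) ?_
    filter_upwards [tendsto_one_div_add_atTop_nhds_zero_nat.eventually_lt_const
      (sub_pos.2 hlt)] with k hk
    set N := moll k n
    have hN0 : ∀ z, 0 ≤ N z := fun z => by
      simp only [N, moll_eq]
      exact integral_nonneg fun t => mul_nonneg (mollKer_nonneg k t) (h0 _)
    have hNd : Differentiable ℝ N :=
      (contDiff_moll k hn.locallyIntegrable).differentiable (by simp)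
    set γ : ℝ → ℝ := fun t => Real.sqrt (N (x + t • v) + ν)
    have hd : ∀ t : ℝ, HasDerivAt γ (fderiv ℝ N (x + t • v) v /
        (2 * Real.sqrt (N (x + t • v) + ν))) t := by
      intro t
      have h1 : HasDerivAt (fun t : ℝ => x + t • v) v t := by
        simpa using ((hasDerivAt_id t).smul_const v).const_add x
      exact (((hNd _).hasFDerivAt.comp_hasDerivAt t h1).add_const ν).sqrt
        (by simp only [Function.comp_apply]; linarith [hN0 (x + t • v)])
    have hbd : ∀ t ∈ Icc (0 : ℝ) 1,
        ‖fderiv ℝ N (x + t • v) v / (2 * Real.sqrt (N (x + t • v) + ν))‖ ≤ c / 2 * ‖v‖ := by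
      intro t ht
      have hpos : 0 < N (x + t • v) + ν := by linarith [hN0 (x + t • v)]
      have h := sq_dir_moll_le hn h0 hg measurableSet_ball hb k (z := x + t • v) (fun w hw => by
        rw [mem_closedBall] at hw
        rw [mem_ball]
        linarith [dist_triangle w (x + t • v) x₀, hmem t ht]) v
      rw [Real.norm_eq_abs, abs_div,
        abs_of_pos (by positivity : 0 < 2 * Real.sqrt (N (x + t • v) + ν)),
        div_le_iff₀ (by positivity)]
      rw [show c / 2 * ‖v‖ * (2 * Real.sqrt (N (x + t • v) + ν)) =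
        c * ‖v‖ * Real.sqrt (N (x + t • v) + ν) by ring, ← Real.sqrt_sq_eq_abs,
        ← Real.sqrt_sq (mul_nonneg hc (norm_nonneg v)), ← Real.sqrt_mul (sq_nonneg _)]
      refine Real.sqrt_le_sqrt (h.trans ?_)
      rw [mul_pow]
      exact mul_le_mul_of_nonneg_left (by linarith) (by positivity)
    have h := (convex_Icc (0 : ℝ) 1).norm_image_sub_le_of_norm_hasDerivWithin_le
      (fun t _ => (hd t).hasDerivWithinAt) hbd (left_mem_Icc.2 zero_le_one)
      (right_mem_Icc.2 zero_le_one)
    simp only [γ, zero_smul, add_zero, one_smul, sub_zero, norm_one, mul_one, Real.norm_eq_abs,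
      v, add_sub_cancel] at h
    rw [abs_sub_comm, dist_eq_norm, norm_sub_rev x y]
    exact h
  have hl : Tendsto (fun ν => |Real.sqrt (n x + ν) - Real.sqrt (n y + ν)|) (𝓝[>] 0)
      (𝓝 |Real.sqrt (n x) - Real.sqrt (n y)|) := by
    have : Continuous fun ν => |Real.sqrt (n x + ν) - Real.sqrt (n y + ν)| := by fun_prop
    simpa using (this.tendsto 0).mono_left nhdsWithin_le_nhds
  exact le_of_tendsto hl (eventually_mem_nhdsWithin.mono fun ν hν => key ν hν)

end Vale.Agent.P363
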