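import Vale.Agent.P363.Tool.YukReg
import Vale.Agent.P363.Tool.Weak

/-!
P363: the derivative of the Newton potential is a weak gradient, and Young's inequality for it.
-/

noncomputable section

namespace Vale.Agent.P363.Yuk

open MeasureTheory Filter Metric
open scoped BigOperators Topology ENNReal

lemma yukGrad_neg (k : ℝ) (a : Fin 3) (z : Space) : yukGrad k a (-z) = -yukGrad k a z := by
  simp [yukGrad, neg_div]

lemma src_of_bump {p : ℝ} {x₀ : Space} {R : ℝ} {φ : Space → ℝ} (hφ : IsBump Set.univ φ)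
    (hs : tsupport φ ⊆ closedBall x₀ R) : Src p x₀ R φ :=
  ⟨hφ.smooth.continuous.memLp_of_hasCompactSupport hφ.compact,
    fun _ hy => image_eq_zero_of_notMem_tsupport fun hm => hy (hs hm)⟩

/-- For test functions the derivative of the potential is the classical one. -/
lemma potGrad_bump {φ : Space → ℝ} (hφ : IsBump Set.univ φ) (a : Fin 3) :
    potGrad φ a = deriv3 a (pot 0 φ) := by
  obtain ⟨R, hR⟩ := hφ.compact.isCompact.isBounded.subset_closedBall (0 : Space)
  obtain ⟨C, -, hC⟩ := pot_c1 (by norm_num : (3 : ℝ) < 12) (by norm_num : (0 : ℝ) < 1 / 2)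
    (by norm_num) (by norm_num) R
  funext x
  rw [deriv3, (hC 0 φ (src_of_bump hφ hR) x).1.fderiv]
  simp [unit3]

/-- The adjoint of the derivative of the potential. -/
lemma potGrad_dual {q : Space → ℝ} (hq : Integrable q) (a : Fin 3) :
    LocallyIntegrable (potGrad q a) ∧ ∀ η, IsBump Set.univ η →
      ∫ x, potGrad q a x * η x = -∫ y, q y * deriv3 a (pot 0 η) y := by
  obtain ⟨A, hA0, hA⟩ := setIntegral_rpow_le zero_le_two (by norm_num : (2 : ℝ) < 3)
  have key : ∀ R : ℝ, Integrable (fun p : Space × Space => yukGrad 0 a (p.1 - p.2) * q p.2)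
      ((volume.restrict (closedBall (0 : Space) R)).prod volume) := by
    intro R
    have hm : AEStronglyMeasurable (fun p : Space × Space => yukGrad 0 a (p.1 - p.2) * q p.2)
        ((volume.restrict (closedBall (0 : Space) R)).prod volume) :=
      ((measurable_yukGrad 0 a).comp (measurable_fst.sub measurable_snd)).aestronglyMeasurable.mul
        hq.aestronglyMeasurable.comp_snd
    have hb : ∀ x y : Space, |yukGrad 0 a (x - y)| ≤ ‖y - x‖ ^ (-(2 : ℝ)) := fun x y => by
      rw [norm_sub_rev]; exact abs_yukGrad_zero_le a _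
    have hi : ∀ y : Space, IntegrableOn (fun x => yukGrad 0 a (x - y)) (closedBall 0 R) := fun y =>
      (hA y (closedBall 0 R) measurableSet_closedBall measure_closedBall_lt_top).1.mono'
        ((measurable_yukGrad 0 a).comp (measurable_id.sub measurable_const)).aestronglyMeasurable
        (ae_of_all _ fun x => hb x y)
    refine (integrable_prod_iff' hm).2 ⟨ae_of_all _ fun y => by simpa only using (hi y).mul_const (q y), ?_⟩
    refine (hq.norm.const_mul (A + volume.real (closedBall (0 : Space) R))).mono'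
      hm.norm.prod_swap.integral_prod_right' (ae_of_all _ fun y => ?_)
    rw [Real.norm_eq_abs, abs_of_nonneg (integral_nonneg fun _ => norm_nonneg _)]
    simp only [norm_mul, Real.norm_eq_abs, integral_mul_const]
    obtain ⟨h1, h2⟩ := hA y (closedBall 0 R) measurableSet_closedBall measure_closedBall_lt_top
    exact mul_le_mul_of_nonneg_right ((setIntegral_mono (hi y).abs h1 fun x => hb x y).trans h2)
      (abs_nonneg _)
  refine ⟨?_, fun η hη => ?_⟩
  · rw [locallyIntegrable_iff]
    intro K hK
    obtain ⟨R, hR⟩ := hK.isBounded.subset_closedBall (0 : Space)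
    have hI : IntegrableOn (potGrad q a) (closedBall 0 R) volume := (key R).integral_prod_left
    exact hI.mono_set hR
  obtain ⟨M, hM⟩ := hη.smooth.continuous.bounded_above_of_compact_support hη.compact
  obtain ⟨R, hR⟩ := hη.compact.isCompact.isBounded.subset_closedBall (0 : Space)
  have hz : ∀ x, x ∉ closedBall (0 : Space) R → η x = 0 := fun x hx =>
    image_eq_zero_of_notMem_tsupport fun hm => hx (hR hm)
  have h2 : Integrable (fun p : Space × Space => yukGrad 0 a (p.1 - p.2) * q p.2 * η p.1)
      ((volume.restrict (closedBall (0 : Space) R)).prod volume) :=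
    (key R).mul_bdd (c := M) (hη.smooth.continuous.measurable.comp measurable_fst).aestronglyMeasurable
      (ae_of_all _ fun p => hM _)
  rw [← setIntegral_eq_integral_of_forall_compl_eq_zero (s := closedBall (0 : Space) R)
    fun x hx => by rw [hz x hx, mul_zero], ← potGrad_bump hη a]
  simp only [potGrad, ← integral_mul_const]
  rw [integral_integral_swap h2, ← integral_neg]
  refine integral_congr_ae (ae_of_all _ fun y => ?_)
  dsimp only
  rw [setIntegral_eq_integral_of_forall_compl_eq_zero fun x hx => by rw [hz x hx, mul_zero],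
    ← integral_const_mul, ← integral_neg]
  refine integral_congr_ae (ae_of_all _ fun x => ?_)
  dsimp only
  rw [← neg_sub y x, yukGrad_neg]
  ring

/-- The potential of an integrable function has `potGrad` as weak gradient. -/
lemma hasWeakGrad_pot {q : Space → ℝ} (hq : Integrable q) :
    HasWeakGrad Set.univ (pot 0 q) (potGrad q) := by
  obtain ⟨hl, hd⟩ := pot_dual le_rfl (q := q) (by simpa using hq)
  refine ⟨locallyIntegrableOn_univ.2 hl,
    fun a => locallyIntegrableOn_univ.2 (potGrad_dual hq a).1, fun η hη a => ?_⟩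
  have hηa := isBump_deriv hη a
  rw [hd _ hηa.smooth.continuous hηa.compact, (potGrad_dual hq a).2 η hη,
    ← deriv3_pot le_rfl hη a, neg_neg]

/-- Young's inequality. -/
theorem young {p q : ℝ} (hp : 1 ≤ p) (hpq : p ≤ q) (hgap : 1 / p - 1 / 3 < 1 / q) (R : ℝ) :
    ∃ A : ℝ≥0∞, A ≠ ∞ ∧ ∀ (x₀ : Space) (u : Space → ℝ), AEStronglyMeasurable u volume →
      (∀ y, y ∉ closedBall x₀ R → u y = 0) → ∀ a,
        eLpNorm (potGrad u a) (ENNReal.ofReal q) (volume.restrict (ball x₀ R)) ≤
          A * eLpNorm u (ENNReal.ofReal p) volume := by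
  have hp0 : 0 < p := one_pos.trans_le hp
  have hq0 : 0 < q := hp0.trans_le hpq
  set w1 := 1 / q with hw1
  set w2 := 1 - 1 / p with hw2
  set w3 := 1 / p - 1 / q with hw3
  set s := 1 / (w1 + w2) with hsd
  have h1 : 0 < w1 := by positivity
  have h2 : 0 ≤ w2 := sub_nonneg.2 ((div_le_one hp0).2 hp)
  have h3 : 0 ≤ w3 := sub_nonneg.2 (one_div_le_one_div_of_le hp0 hpq)
  have hs0 : 0 < s := by positivity
  have hs1 : s * (w1 + w2) = 1 := one_div_mul_cancel (by linarith)
  have hs32 : 2 * s < 3 := by
    rw [hsd, ← mul_div_assoc, mul_one, div_lt_iff₀ (by linarith)]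
    simp only [hw1, hw2]
    linarith
  set K : Space → ℝ≥0∞ := fun z =>
    (closedBall (0 : Space) (2 * R)).indicator (fun z => ENNReal.ofReal (‖z‖ ^ (-(2 : ℝ)))) z ^ s
  have hKm : Measurable K :=
    (((measurable_norm.pow_const (-(2 : ℝ))).ennreal_ofReal).indicator measurableSet_closedBall).pow_const
      s
  set A := ∫⁻ z, K z
  have hA : A ≠ ∞ := by
    have hi := integrableOn_rpow_ball hs32 (0 : Space) (2 * R)
    simp only [zero_sub, norm_neg] at hi
    have e : K = (closedBall (0 : Space) (2 * R)).indicator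
        fun z => ENNReal.ofReal (‖z‖ ^ (-(2 * s))) := by
      funext z
      by_cases hz : z ∈ closedBall (0 : Space) (2 * R)
      · simp only [K, Set.indicator_of_mem hz]
        rw [ENNReal.ofReal_rpow_of_nonneg (Real.rpow_nonneg (norm_nonneg _) _) hs0.le,
          ← Real.rpow_mul (norm_nonneg _), neg_mul]
      · simp only [K, Set.indicator_of_notMem hz, ENNReal.zero_rpow_of_pos hs0]
    simp only [A, e, lintegral_indicator measurableSet_closedBall]
    refine ne_top_of_le_ne_top hi.hasFiniteIntegral.ne (lintegral_mono fun z => ?_)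
    rw [Real.enorm_of_nonneg (Real.rpow_nonneg (norm_nonneg _) _)]
  refine ⟨A ^ (w1 + w2), ENNReal.rpow_ne_top_of_nonneg (by linarith) hA,
    fun x₀ u hu h0 a => ?_⟩
  set N := ∫⁻ y, ‖u y‖ₑ ^ p
  have hNe : eLpNorm u (ENNReal.ofReal p) volume = N ^ (1 / p) := by
    rw [eLpNorm_eq_lintegral_rpow_enorm_toReal (by simp [hp0]) (by simp),
      ENNReal.toReal_ofReal hp0.le]
  set T : Space → ℝ≥0∞ := fun x => ∫⁻ y, K (x - y) * ‖u y‖ₑ ^ p
  have hpt : ∀ x ∈ ball x₀ R, ‖potGrad u a x‖ₑ ≤ T x ^ w1 * (A ^ w2 * N ^ w3) := by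
    intro x hx
    refine (enorm_integral_le_lintegral_enorm _).trans ?_
    have hKx : Measurable fun y => K (x - y) := hKm.comp (measurable_const.sub measurable_id)
    have hum : AEMeasurable (fun y => ‖u y‖ₑ ^ p) volume := hu.enorm.pow_const p
    let F : Fin 3 → Space → ℝ≥0∞ :=
      ![fun y => K (x - y) * ‖u y‖ₑ ^ p, fun y => K (x - y), fun y => ‖u y‖ₑ ^ p]
    let w : Fin 3 → ℝ := ![w1, w2, w3]
    have hsum : ∑ i, w i = 1 := by
      simp [w, Fin.sum_univ_three, hw1, hw2, hw3]; ring
    have hw : ∀ i ∈ (Finset.univ : Finset (Fin 3)), 0 ≤ w i := fun i _ => by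
      fin_cases i <;> simp [w, h1.le, h2, h3]
    have hF : ∀ i ∈ (Finset.univ : Finset (Fin 3)), AEMeasurable (F i) volume := fun i _ => by
      fin_cases i
      · exact hKx.aemeasurable.mul hum
      · exact hKx.aemeasurable
      · exact hum
    refine le_trans ?_ ((ENNReal.lintegral_prod_norm_pow_le Finset.univ hF hsum hw).trans_eq ?_)
    · refine lintegral_mono fun y => ?_
      simp only [Fin.prod_univ_three, F, w, Matrix.cons_val_zero, Matrix.cons_val_one,
        Matrix.cons_val]
      by_cases hy : y ∈ closedBall x₀ R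
      · have hxy : x - y ∈ closedBall (0 : Space) (2 * R) := by
          rw [mem_closedBall, dist_zero_right, ← dist_eq_norm]
          rw [mem_closedBall] at hy
          rw [mem_ball] at hx
          linarith [dist_triangle_right x y x₀]
        simp only [K, Set.indicator_of_mem hxy]
        set k := ENNReal.ofReal (‖x - y‖ ^ (-(2 : ℝ)))
        set g := ‖u y‖ₑ
        calc ‖yukGrad 0 a (x - y) * u y‖ₑ ≤ k * g := by
              rw [enorm_mul, Real.enorm_eq_ofReal_abs]
              exact mul_le_mul' (ENNReal.ofReal_le_ofReal (abs_yukGrad_zero_le a _)) le_rfl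
          _ = k ^ (s * w1 + s * w2) * g ^ (p * w1 + p * w3) := by
              have e1 : s * w1 + s * w2 = 1 := by rw [← mul_add, hs1]
              have e2 : p * w1 + p * w3 = 1 := by
                simp only [hw1, hw3]; field_simp; ring
              rw [e1, e2, ENNReal.rpow_one, ENNReal.rpow_one]
          _ = _ := by
              rw [ENNReal.rpow_add_of_nonneg _ _ (by positivity) (by positivity),
                ENNReal.rpow_add_of_nonneg _ _ (by positivity) (by positivity),
                ENNReal.mul_rpow_of_nonneg _ _ h1.le]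
              simp only [ENNReal.rpow_mul]
              ring
      · simp [h0 y hy]
    · simp only [Fin.prod_univ_three, F, w, Matrix.cons_val_zero, Matrix.cons_val_one,
        Matrix.cons_val, lintegral_sub_left_eq_self K x, mul_assoc]
      rfl
  rw [eLpNorm_eq_lintegral_rpow_enorm_toReal (by simp [hq0]) (by simp),
    ENNReal.toReal_ofReal hq0.le, hNe]
  set B := A ^ w2 * N ^ w3
  have hT : ∫⁻ x in ball x₀ R, T x ≤ A * N := by
    have hm : AEMeasurable (fun z : Space × Space => K (z.1 - z.2) * ‖u z.2‖ₑ ^ p)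
        ((volume.restrict (ball x₀ R)).prod volume) :=
      ((hKm.comp (measurable_fst.sub measurable_snd)).aemeasurable).mul
        ((hu.enorm.pow_const p).comp_snd)
    refine (lintegral_lintegral_swap hm).trans_le ?_
    calc ∫⁻ y, ∫⁻ x in ball x₀ R, K (x - y) * ‖u y‖ₑ ^ p
        ≤ ∫⁻ y, A * ‖u y‖ₑ ^ p := lintegral_mono fun y => by
          have hy : Measurable fun x => K (x - y) := hKm.comp (measurable_id.sub measurable_const)
          refine (setLIntegral_le_lintegral _ _).trans_eq ?_
          rw [lintegral_mul_const _ hy, lintegral_sub_right_eq_self K y]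
      _ = _ := lintegral_const_mul'' _ (hu.enorm.pow_const p)
  calc (∫⁻ x in ball x₀ R, ‖potGrad u a x‖ₑ ^ q) ^ (1 / q)
      ≤ (A * N * B ^ q) ^ w1 := by
        refine ENNReal.rpow_le_rpow ?_ h1.le
        calc ∫⁻ x in ball x₀ R, ‖potGrad u a x‖ₑ ^ q
            ≤ ∫⁻ x in ball x₀ R, T x * B ^ q := by
              refine setLIntegral_mono' measurableSet_ball fun x hx => ?_
              refine (ENNReal.rpow_le_rpow (hpt x hx) hq0.le).trans_eq ?_
              rw [ENNReal.mul_rpow_of_nonneg _ _ hq0.le, ← ENNReal.rpow_mul, hw1,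
                one_div_mul_cancel hq0.ne', ENNReal.rpow_one]
          _ = (∫⁻ x in ball x₀ R, T x) * B ^ q := by
              refine lintegral_mul_const'' _ ?_
              exact AEMeasurable.lintegral_prod_right'
                (((hKm.comp (measurable_fst.sub measurable_snd)).aemeasurable).mul
                  ((hu.enorm.pow_const p).comp_snd))
          _ ≤ _ := mul_le_mul' hT le_rfl
    _ = A ^ (w1 + w2) * N ^ (1 / p) := by
        have e : q * w1 = 1 := by simp [hw1, hq0.ne']
        rw [show (1 : ℝ) / p = w1 + w3 by simp [hw1, hw3],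
          ENNReal.rpow_add_of_nonneg _ _ h1.le h2, ENNReal.rpow_add_of_nonneg _ _ h1.le h3,
          ENNReal.mul_rpow_of_nonneg _ _ h1.le, ENNReal.mul_rpow_of_nonneg _ _ h1.le,
          ← ENNReal.rpow_mul, e, ENNReal.rpow_one]
        ring

/-- `Δ f ∈ L^p` gives a weak gradient in `L^q`. -/
theorem localW1 : LocalW1Stmt := by
  intro p q hp hpq hgap r R hr hrR
  have hp0 : 0 < p := one_pos.trans_le hp
  obtain ⟨CS, hCS, hsplit⟩ := local_split hr hrR
  obtain ⟨A, hA, hy⟩ := young hp hpq hgap R
  set V := (volume (ball (0 : Space) r) ^ q⁻¹).toReal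
  refine ⟨V * CS + A.toReal, fun x₀ f h he hf hh => ?_⟩
  obtain ⟨u, S, hS, hum, hub, hu0, hfe, hSb⟩ :=
    hsplit x₀ f h he hf (integrableOn_of_memLp hp hh)
  obtain ⟨hsrc, hn⟩ := src_of_cut (f := f) hh hum hub hu0
  have hA' := integral_le_ballData (ENNReal.ofReal p) x₀ R f h
  set DA := ∫ y in ball x₀ R, |f y|
  have hDA : 0 ≤ DA := integral_nonneg fun _ => abs_nonneg _
  set D := ballData (ENNReal.ofReal p) x₀ R f h
  have hui : Integrable u := by
    refine ((integrableOn_of_memLp hp hh).integrable_indicator measurableSet_ball).abs.mono' hum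
      (ae_of_all _ fun y => ?_)
    simpa using hub y
  have hqb : ∀ a, eLpNorm (potGrad u a) (ENNReal.ofReal q) (volume.restrict (ball x₀ r)) ≤
      A * eLpNorm u (ENNReal.ofReal p) volume := fun a =>
    (eLpNorm_mono_measure _ (Measure.restrict_mono (ball_subset_ball hrR.le) le_rfl)).trans
      (hy x₀ u hum hu0 a)
  have hvol : volume (ball x₀ r) = volume (ball (0 : Space) r) := Measure.addHaar_ball_center _ _ _
  have hVfin : volume (ball (0 : Space) r) ^ q⁻¹ ≠ ∞ :=
    ENNReal.rpow_ne_top_of_nonneg (inv_nonneg.2 (hp0.le.trans hpq)) measure_ball_lt_top.ne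
  have hSq : ∀ a, eLpNorm (deriv3 a S) (ENNReal.ofReal q) (volume.restrict (ball x₀ r)) ≤
      volume (ball (0 : Space) r) ^ q⁻¹ * ENNReal.ofReal (CS * DA) := fun a => by
    refine (eLpNorm_le_of_ae_bound (C := CS * DA) (ae_of_all _ fun x => ((hSb x).2 a).1)).trans_eq ?_
    rw [Measure.restrict_apply_univ, hvol, ENNReal.toReal_ofReal (hp0.le.trans hpq)]
  have hSm : ∀ a, AEStronglyMeasurable (deriv3 a S) (volume.restrict (ball x₀ r)) := fun a =>
    (contDiff_deriv3 a hS (le_refl (((⊤ : ℕ∞) : WithTop ℕ∞) + 1))).continuous.aestronglyMeasurable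
  have hGm : ∀ a, AEStronglyMeasurable (potGrad u a) (volume.restrict (ball x₀ r)) := fun a =>
    (potGrad_dual hui a).1.aestronglyMeasurable.restrict
  have htot : ∀ a, eLpNorm (fun x => deriv3 a S x - potGrad u a x) (ENNReal.ofReal q)
      (volume.restrict (ball x₀ r)) ≤ volume (ball (0 : Space) r) ^ q⁻¹ * ENNReal.ofReal (CS * DA) +
        A * eLpNorm u (ENNReal.ofReal p) volume := fun a =>
    (eLpNorm_sub_le (hSm a) (hGm a) (ENNReal.one_le_ofReal.2 (hp.trans hpq))).trans
      (add_le_add (hSq a) (hqb a))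
  have hfin : volume (ball (0 : Space) r) ^ q⁻¹ * ENNReal.ofReal (CS * DA) +
      A * eLpNorm u (ENNReal.ofReal p) volume ≠ ∞ :=
    ENNReal.add_ne_top.2 ⟨ENNReal.mul_ne_top hVfin ENNReal.ofReal_ne_top,
      ENNReal.mul_ne_top hA hsrc.mem.eLpNorm_ne_top⟩
  refine ⟨fun a x => deriv3 a S x - potGrad u a x, ?_, fun a => ⟨⟨(hSm a).sub (hGm a),
    (htot a).trans_lt hfin.lt_top⟩, ?_⟩⟩
  · exact HasWeakGrad.congr_ae isOpen_ball
      ((HasWeakGrad.of_contDiffOn isOpen_ball (hS.of_le (by simp)).contDiffOn).sub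
        ((hasWeakGrad_pot hui).mono (Set.subset_univ _))) hfe.symm fun _ => EventuallyEq.rfl
  · refine (ENNReal.toReal_mono hfin (htot a)).trans ?_
    rw [ENNReal.toReal_add (ENNReal.mul_ne_top hVfin ENNReal.ofReal_ne_top)
      (ENNReal.mul_ne_top hA hsrc.mem.eLpNorm_ne_top), ENNReal.toReal_mul, ENNReal.toReal_mul,
      ENNReal.toReal_ofReal (mul_nonneg hCS hDA)]
    have hV : 0 ≤ V := ENNReal.toReal_nonneg
    have hn' : (eLpNorm u (ENNReal.ofReal p) volume).toReal ≤ D := hn
    nlinarith [mul_le_mul_of_nonneg_left hA' (mul_nonneg hV hCS),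
      mul_le_mul_of_nonneg_left hn' (ENNReal.toReal_nonneg (a := A))]

end Vale.Agent.P363.Yuk
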