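import Vale.Agent.P363.Top.CourantSpec
import Vale.Agent.P363.Tool.YukRep
import Vale.Agent.P363.Tool.Sobolev.Spec
import Vale.Agent.P363.Tool.Weak.Basic

/-!
P363: the inverse of `1 - Δ` on `L²(ℝ³)` in the form sense, with the gradient bound in `L⁶`.
-/

noncomputable section

namespace Vale.Agent.P363

open MeasureTheory Filter Set
open scoped BigOperators Topology ENNReal InnerProductSpace

lemma inner_toLp {f g : Space → ℝ} (hf : MemLp f 2) (hg : MemLp g 2) :
    ⟪hf.toLp f, hg.toLp g⟫_ℝ = ∫ x, f x * g x := by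
  rw [L2.inner_def]
  refine integral_congr_ae ?_
  filter_upwards [hf.coeFn_toLp, hg.coeFn_toLp] with x h1 h2
  rw [h1, h2]
  simp [mul_comm]

lemma norm_toLp_sq {f : Space → ℝ} (hf : MemLp f 2) : ‖hf.toLp f‖ ^ 2 = ∫ x, f x ^ 2 := by
  rw [← real_inner_self_eq_norm_sq, inner_toLp]
  simp [sq]

lemma memLp_bump {U : Set Space} {φ : Space → ℝ} (h : IsBump U φ) (p : ℝ≥0∞) : MemLp φ p :=
  h.continuous.memLp_of_hasCompactSupport h.compact

lemma IsBump.topH1 {φ : Space → ℝ} (h : IsBump Set.univ φ) :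
    Top.IsH1 φ fun a => deriv3 a φ :=
  ⟨memLp_bump h 2, fun a => memLp_bump (h.deriv a) 2,
    HasWeakGrad.of_contDiffOn isOpen_univ (h.smooth.of_le (by exact_mod_cast le_top)).contDiffOn⟩

/-- `φ - Δ φ`. -/
def resFun (φ : Space → ℝ) (x : Space) : ℝ := φ x - lap φ x

lemma isBump_resFun {φ : Space → ℝ} (h : IsBump univ φ) : IsBump univ (resFun φ) := by
  have := h.add (h.lap.const_mul (-1))
  rw [show resFun φ = fun x => φ x + -1 * lap φ x from funext fun x => by
    simp only [resFun]; ring]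
  exact this

lemma resFun_zero : resFun (fun _ : Space => (0 : ℝ)) = 0 := by
  have h : ∀ a, deriv3 a (fun _ : Space => (0 : ℝ)) = fun _ => 0 := fun a => by
    funext x; simp [deriv3]
  funext x
  simp [resFun, lap, h]

lemma resFun_const_mul {φ : Space → ℝ} (hφ : IsBump univ φ) (c : ℝ) :
    resFun (fun x => c * φ x) = fun x => c * resFun φ x := by
  have hd : ∀ {f : Space → ℝ}, Differentiable ℝ f → ∀ a,
      deriv3 a (fun x => c * f x) = fun x => c * deriv3 a f x := by
    intro f hf a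
    funext x
    exact deriv3_const_mul (hf x) c a
  funext x
  simp only [resFun, lap, hd hφ.differentiable, hd (hφ.deriv _).differentiable, ← Finset.mul_sum,
    mul_sub]

/-- `(u, U)` solves `u - Δu = h` in the form sense. -/
structure IsResolvent (h u : Space → ℝ) (U : Fin 3 → Space → ℝ) : Prop where
  h1 : Top.IsH1 u U
  eqn : ∀ φ Φ, Top.IsH1 φ Φ →
    (∫ x, (∑ a, U a x * Φ a x + u x * φ x)) = ∫ x, h x * φ x

lemma IsResolvent.integrable_left {u φ : Space → ℝ} {U Φ : Fin 3 → Space → ℝ}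
    (hu : Top.IsH1 u U) (hφ : Top.IsH1 φ Φ) :
    Integrable fun x => ∑ a, U a x * Φ a x + u x * φ x :=
  (integrable_finsetSum _ fun a _ => (hu.memLp_grad a).integrable_mul (hφ.memLp_grad a)).add
    (hu.memLp.integrable_mul hφ.memLp)

lemma isResolvent_bump {φ : Space → ℝ} (h : IsBump univ φ) :
    IsResolvent (resFun φ) φ fun a => deriv3 a φ := by
  refine ⟨h.topH1, fun ψ Ψ hψ => ?_⟩
  have i1 : ∀ a, Integrable fun x => deriv3 a φ x * Ψ a x := fun a =>
    (memLp_bump (h.deriv a) 2).integrable_mul (hψ.memLp_grad a)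
  have i2 : Integrable fun x => φ x * ψ x := (memLp_bump h 2).integrable_mul hψ.memLp
  have i3 : ∀ a, Integrable fun x => deriv3 a (deriv3 a φ) x * ψ x := fun a =>
    (memLp_bump ((h.deriv a).deriv a) 2).integrable_mul hψ.memLp
  have e : ∀ a, ∫ x, deriv3 a φ x * Ψ a x = -∫ x, deriv3 a (deriv3 a φ) x * ψ x := by
    intro a
    have := hψ.grad.2.2 _ (h.deriv a) a
    simp_rw [mul_comm (ψ _), mul_comm (Ψ a _)] at this
    rw [this, neg_neg]
  rw [integral_add (integrable_finsetSum _ fun a _ => i1 a) i2,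
    integral_finsetSum _ fun a _ => i1 a]
  simp only [e, resFun, lap, sub_mul, Finset.sum_mul]
  rw [integral_sub i2 (integrable_finsetSum _ fun a _ => i3 a),
    integral_finsetSum _ fun a _ => i3 a, Finset.sum_neg_distrib]
  ring

lemma resFun_energy {φ : Space → ℝ} (h : IsBump univ φ) :
    ∫ x, resFun φ x ^ 2 =
      (∫ x, φ x ^ 2) + 2 * (∑ a, ∫ x, deriv3 a φ x ^ 2) + ∫ x, lap φ x ^ 2 := by
  have e := (isResolvent_bump h).eqn φ _ h.topH1
  simp only [← sq] at e
  have i1 : ∀ a, Integrable fun x => deriv3 a φ x ^ 2 := fun a =>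
    (memLp_bump (h.deriv a) 2).integrable_sq
  have i2 : Integrable fun x => φ x ^ 2 := (memLp_bump h 2).integrable_sq
  have i3 : Integrable fun x => lap φ x ^ 2 := (memLp_bump h.lap 2).integrable_sq
  have i4 : Integrable fun x => resFun φ x * φ x :=
    (memLp_bump (isBump_resFun h) 2).integrable_mul (memLp_bump h 2)
  rw [integral_add (integrable_finsetSum _ fun a _ => i1 a) i2,
    integral_finsetSum _ fun a _ => i1 a] at e
  have e2 : (fun x => resFun φ x ^ 2) =
      fun x => 2 * (resFun φ x * φ x) - φ x ^ 2 + lap φ x ^ 2 := by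
    funext x; simp only [resFun]; ring
  have i5 : Integrable fun x => 2 * (resFun φ x * φ x) - φ x ^ 2 := (i4.const_mul 2).sub i2
  rw [e2, integral_add i5 i3, integral_sub (i4.const_mul 2) i2, integral_const_mul, ← e]
  ring

lemma IsResolvent.sub {h h' u u' : Space → ℝ} {U U' : Fin 3 → Space → ℝ}
    (r : IsResolvent h u U) (r' : IsResolvent h' u' U')
    (hi : ∀ φ Φ, Top.IsH1 φ Φ → Integrable fun x => h x * φ x)
    (hi' : ∀ φ Φ, Top.IsH1 φ Φ → Integrable fun x => h' x * φ x) :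
    IsResolvent (fun x => h x - h' x) (fun x => u x - u' x) fun a x => U a x - U' a x := by
  refine ⟨⟨r.h1.memLp.sub r'.h1.memLp, fun a => (r.h1.memLp_grad a).sub (r'.h1.memLp_grad a),
    r.h1.grad.sub r'.h1.grad⟩, fun φ Φ hφ => ?_⟩
  simp only [sub_mul]
  rw [integral_sub (hi φ Φ hφ) (hi' φ Φ hφ), ← r.eqn φ Φ hφ, ← r'.eqn φ Φ hφ,
    ← integral_sub (IsResolvent.integrable_left r.h1 hφ) (IsResolvent.integrable_left r'.h1 hφ)]
  refine integral_congr_ae (.of_forall fun x => ?_)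
  simp only [Finset.sum_sub_distrib]
  ring

/-- The energy identity. -/
lemma IsResolvent.energy {h u : Space → ℝ} {U : Fin 3 → Space → ℝ} (r : IsResolvent h u U) :
    (∑ a, ∫ x, U a x ^ 2) + ∫ x, u x ^ 2 = ∫ x, h x * u x := by
  have e := r.eqn u U r.h1
  simp only [← sq] at e
  rw [integral_add (integrable_finsetSum _ fun a _ => (r.h1.memLp_grad a).integrable_sq)
    r.h1.memLp.integrable_sq, integral_finsetSum _ fun a _ => (r.h1.memLp_grad a).integrable_sq] at e
  exact e

lemma IsResolvent.bound {h u : Space → ℝ} {U : Fin 3 → Space → ℝ} (r : IsResolvent h u U)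
    (hh : MemLp h 2) :
    (∫ x, u x ^ 2) + 2 * (∑ a, ∫ x, U a x ^ 2) ≤ ∫ x, h x ^ 2 := by
  have e := r.energy
  have : ∫ x, h x * u x ≤ ∫ x, (h x ^ 2 / 2 + u x ^ 2 / 2) :=
    integral_mono (hh.integrable_mul r.h1.memLp)
      ((hh.integrable_sq.div_const 2).add (r.h1.memLp.integrable_sq.div_const 2))
      fun x => by
        simp only
        nlinarith [sq_nonneg (h x - u x)]
  rw [integral_add (hh.integrable_sq.div_const 2) (r.h1.memLp.integrable_sq.div_const 2),
    integral_div, integral_div] at this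
  linarith

lemma IsResolvent.unique {h u u' : Space → ℝ} {U U' : Fin 3 → Space → ℝ}
    (r : IsResolvent h u U) (r' : IsResolvent h u' U')
    (hi : ∀ φ Φ, Top.IsH1 φ Φ → Integrable fun x => h x * φ x) :
    u =ᵐ[volume] u' ∧ ∀ a, U a =ᵐ[volume] U' a := by
  have e := (r.sub r' hi hi).energy
  simp only [sub_self, zero_mul, integral_zero] at e
  have h0 : ∀ a, 0 ≤ ∫ x, (U a x - U' a x) ^ 2 := fun a => integral_nonneg fun x => sq_nonneg _
  have h1 : 0 ≤ ∫ x, (u x - u' x) ^ 2 := integral_nonneg fun x => sq_nonneg _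
  have hz : ∀ {f g : Space → ℝ}, MemLp (fun x => f x - g x) 2 →
      (∫ x, (f x - g x) ^ 2) = 0 → f =ᵐ[volume] g := by
    intro f g hfg h
    filter_upwards [(integral_eq_zero_iff_of_nonneg (fun x => sq_nonneg _) hfg.integrable_sq).1 h]
      with x hx
    simpa [sub_eq_zero] using hx
  have hs : 0 ≤ ∑ a, ∫ x, (U a x - U' a x) ^ 2 := Finset.sum_nonneg fun a _ => h0 a
  refine ⟨hz (r.h1.memLp.sub r'.h1.memLp) (by linarith), fun a => ?_⟩
  refine hz ((r.h1.memLp_grad a).sub (r'.h1.memLp_grad a)) ?_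
  exact (Finset.sum_eq_zero_iff_of_nonneg fun a _ => h0 a).1 (by linarith) a (Finset.mem_univ a)

lemma resFun_sub {φ ψ : Space → ℝ} (hφ : IsBump univ φ) (hψ : IsBump univ ψ) :
    IsBump univ (fun x => φ x - ψ x) ∧
      resFun (fun x => φ x - ψ x) = fun x => resFun φ x - resFun ψ x := by
  have hb : IsBump univ (fun x => φ x - ψ x) := by
    simpa [sub_eq_add_neg] using hφ.add (hψ.const_mul (-1))
  refine ⟨hb, ?_⟩
  have hd : ∀ {f g : Space → ℝ}, Differentiable ℝ f → Differentiable ℝ g → ∀ a,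
      deriv3 a (fun x => f x - g x) = fun x => deriv3 a f x - deriv3 a g x := by
    intro f g hf hg a
    funext x
    simp [deriv3, fderiv_fun_sub (hf x) (hg x)]
  funext x
  simp only [resFun, lap, hd hφ.differentiable hψ.differentiable,
    hd (hφ.deriv _).differentiable (hψ.deriv _).differentiable, Finset.sum_sub_distrib]
  ring

/-- The range of `1 - Δ` on test functions is dense in `L²`. -/
theorem dense_resFun (h : Space → ℝ) (hh : MemLp h 2) :
    ∃ φ : ℕ → Space → ℝ, (∀ k, IsBump univ (φ k)) ∧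
      ∃ hm : ∀ k, MemLp (resFun (φ k)) 2,
        Tendsto (fun k => (hm k).toLp (resFun (φ k))) atTop (𝓝 (hh.toLp h)) := by
  set S : Set (Lp ℝ 2 (volume : Measure Space)) :=
    {q | ∃ (φ : Space → ℝ) (hφ : IsBump univ φ),
      q = (memLp_bump (isBump_resFun hφ) 2).toLp (resFun φ)} with hS
  have hzero : IsBump univ (fun _ : Space => (0 : ℝ)) :=
    ⟨contDiff_const, HasCompactSupport.zero, subset_univ _⟩
  have hspan : ∀ q ∈ Submodule.span ℝ S, q ∈ S := by
    intro q hq
    induction hq using Submodule.span_induction with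
    | mem q hq => exact hq
    | zero =>
      refine ⟨_, hzero, ?_⟩
      refine Lp.ext ?_
      filter_upwards [Lp.coeFn_zero ℝ 2 (volume : Measure Space),
        (memLp_bump (isBump_resFun hzero) 2).coeFn_toLp] with x hx hy
      rw [hx, hy, resFun_zero]
    | add p q _ _ hp hq =>
      obtain ⟨φ, hφ, rfl⟩ := hp
      obtain ⟨ψ, hψ, rfl⟩ := hq
      obtain ⟨hb, he⟩ := resFun_sub hφ (hψ.const_mul (-1))
      refine ⟨_, hb, ?_⟩
      rw [← MemLp.toLp_add]
      refine MemLp.toLp_congr _ _ (.of_forall fun x => ?_)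
      simp only [Pi.add_apply, he, resFun_const_mul hψ]
      ring
    | smul c q _ hq =>
      obtain ⟨φ, hφ, rfl⟩ := hq
      refine ⟨_, hφ.const_mul c, ?_⟩
      rw [← MemLp.toLp_const_smul]
      refine MemLp.toLp_congr _ _ (.of_forall fun x => ?_)
      simp [resFun_const_mul hφ]
  have htop : (Submodule.span ℝ S).topologicalClosure = ⊤ := by
    rw [Submodule.topologicalClosure_eq_top_iff, Submodule.eq_bot_iff]
    intro η hη
    have hmem : MemLp (η : Space → ℝ) 2 := Lp.memLp η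
    have he : ∀ φ, IsBump univ φ → ∫ x, η x * resFun φ x = 0 := by
      intro φ hφ
      have := Submodule.inner_left_of_mem_orthogonal
        (Submodule.subset_span (s := S) ⟨φ, hφ, rfl⟩) hη
      rwa [← Lp.toLp_coeFn η hmem, inner_toLp] at this
    have hl : LocallyIntegrableOn (η : Space → ℝ) univ :=
      (hmem.locallyIntegrable (by norm_num)).locallyIntegrableOn _
    have hw : WeakPoisson univ (η : Space → ℝ) (η : Space → ℝ) := by
      refine ⟨hl, hl, fun φ hφ => ?_⟩
      have h0 := he φ hφ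
      have i1 : Integrable fun x => η x * φ x := hmem.integrable_mul (memLp_bump hφ 2)
      have i2 : Integrable fun x => η x * lap φ x := hmem.integrable_mul (memLp_bump hφ.lap 2)
      simp only [resFun, mul_sub] at h0
      rw [integral_sub i1 i2] at h0
      linarith
    have hexp : MemLp (fun x : Space => Real.exp (-(1 * ‖x‖))) 2 := by
      refine (memLp_two_iff_integrable_sq (by fun_prop)).2 ?_
      refine (Yuk.integrable_rpow_exp (s := 0) (c := 2) (by norm_num) two_pos).congr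
        (.of_forall fun x => ?_)
      simp only [neg_zero, Real.rpow_zero, one_mul, ← Real.exp_nat_mul]
      ring_nf
    have hint : Integrable fun x => Real.exp (-(1 * ‖x‖)) * η x := hexp.integrable_mul hmem
    have hrep := Yuk.yukRep 1 η η zero_le_one hw (Or.inl ⟨one_pos, hint, hint⟩)
    refine Lp.ext (hrep.trans ?_)
    filter_upwards [Lp.coeFn_zero ℝ 2 (volume : Measure Space)] with x hx
    simp
  have hmem : hh.toLp h ∈ closure (Submodule.span ℝ S : Set (Lp ℝ 2 (volume : Measure Space))) := by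
    rw [← Submodule.topologicalClosure_coe, htop]
    trivial
  obtain ⟨q, hq, hlim⟩ := mem_closure_iff_seq_limit.1 hmem
  choose φ hφ hqe using fun k => hspan _ (hq k)
  exact ⟨φ, hφ, fun k => memLp_bump (isBump_resFun (hφ k)) 2, hlim.congr fun k => hqe k⟩

/-- The gradient of a test function in `L⁶` against `φ - Δφ` in `L²`. -/
lemma bump_six (hS : SobolevSixStmt) (hH : HessTestStmt) :
    ∃ C : ℝ, 0 ≤ C ∧ ∀ φ, IsBump univ φ → ∀ a,
      eLpNorm (deriv3 a φ) 6 ≤ ENNReal.ofReal C * eLpNorm (resFun φ) 2 := by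
  obtain ⟨C, hC, hS⟩ := hS
  refine ⟨C ^ ((1 : ℝ) / 2), Real.rpow_nonneg hC.le _, fun φ hφ a => ?_⟩
  have hh := hH φ hφ
  have he := resFun_energy hφ
  obtain ⟨-, hb⟩ := hS (deriv3 a φ) (fun b => deriv3 b (deriv3 a φ))
    ⟨memLp_bump (hφ.deriv a) 2, fun b => memLp_bump ((hφ.deriv a).deriv b) 2,
      (hφ.deriv a).topH1.grad⟩
  have h1 : dirichlet (fun b => deriv3 b (deriv3 a φ)) ≤ ∫ x, resFun φ x ^ 2 := by
    have hle : dirichlet (fun b => deriv3 b (deriv3 a φ)) ≤
        ∑ a', ∑ b, ∫ x, deriv3 b (deriv3 a' φ) x ^ 2 :=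
      Finset.single_le_sum (f := fun a' => ∑ b, ∫ x, deriv3 b (deriv3 a' φ) x ^ 2)
        (fun a' _ => Finset.sum_nonneg fun b _ => integral_nonneg fun x => sq_nonneg _)
        (Finset.mem_univ a)
    have h0 : 0 ≤ ∫ x, φ x ^ 2 := integral_nonneg fun x => sq_nonneg _
    have h0' : 0 ≤ ∑ a, ∫ x, deriv3 a φ x ^ 2 :=
      Finset.sum_nonneg fun b _ => integral_nonneg fun x => sq_nonneg _
    linarith
  have hI : 0 ≤ ∫ x, |deriv3 a φ x| ^ 6 := integral_nonneg fun x => by positivity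
  have hJ : 0 ≤ ∫ x, resFun φ x ^ 2 := integral_nonneg fun x => sq_nonneg _
  rw [(memLp_bump (hφ.deriv a) 6).eLpNorm_eq_integral_rpow_norm (by norm_num) (by norm_num),
    (memLp_bump (isBump_resFun hφ) 2).eLpNorm_eq_integral_rpow_norm (by norm_num) (by norm_num),
    ← ENNReal.ofReal_mul (Real.rpow_nonneg hC.le _)]
  refine ENNReal.ofReal_le_ofReal ?_
  simp only [ENNReal.toReal_ofNat, Real.rpow_ofNat, Real.norm_eq_abs, sq_abs]
  calc (∫ x, |deriv3 a φ x| ^ 6) ^ (6 : ℝ)⁻¹
      = ((∫ x, |deriv3 a φ x| ^ 6) ^ ((1 : ℝ) / 3)) ^ ((1 : ℝ) / 2) := by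
        rw [← Real.rpow_mul hI]; norm_num
    _ ≤ (C * ∫ x, resFun φ x ^ 2) ^ ((1 : ℝ) / 2) :=
        Real.rpow_le_rpow (Real.rpow_nonneg hI _)
          (hb.trans (mul_le_mul_of_nonneg_left h1 hC.le)) (by norm_num)
    _ = _ := by rw [Real.mul_rpow hC.le hJ]; norm_num

/-- Existence of the resolvent, with the bound of the gradient in `L⁶`. -/
theorem exists_resolvent (hS : SobolevSixStmt) (hH : HessTestStmt) :
    ∃ C : ℝ, 0 ≤ C ∧ ∀ h, MemLp h 2 → ∃ u U, IsResolvent h u U ∧
      ∀ a, eLpNorm (U a) 6 ≤ ENNReal.ofReal C * eLpNorm h 2 := by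
  obtain ⟨C, hC, hsix⟩ := bump_six hS hH
  refine ⟨C, hC, fun h hh => ?_⟩
  obtain ⟨φ, hφ, hm, hlim⟩ := dense_resFun h hh
  set P : ℕ → Lp ℝ 2 (volume : Measure Space) := fun k => (memLp_bump (hφ k) 2).toLp (φ k)
  set D : Fin 3 → ℕ → Lp ℝ 2 (volume : Measure Space) :=
    fun a k => (memLp_bump ((hφ k).deriv a) 2).toLp (deriv3 a (φ k))
  set H : ℕ → Lp ℝ 2 (volume : Measure Space) := fun k => (hm k).toLp (resFun (φ k))
  have hbd : ∀ k j, ‖P k - P j‖ ≤ ‖H k - H j‖ ∧ ∀ a, ‖D a k - D a j‖ ≤ ‖H k - H j‖ := by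
    intro k j
    obtain ⟨hb, he⟩ := resFun_sub (hφ k) (hφ j)
    have h0 := resFun_energy hb
    have hl : 0 ≤ ∫ x, lap (fun x => φ k x - φ j x) x ^ 2 := integral_nonneg fun x => sq_nonneg _
    have hu : 0 ≤ ∫ x, (φ k x - φ j x) ^ 2 := integral_nonneg fun x => sq_nonneg _
    have hH' : ‖H k - H j‖ ^ 2 = ∫ x, resFun (fun x => φ k x - φ j x) x ^ 2 := by
      rw [← MemLp.toLp_sub, norm_toLp_sq, he]
      rfl
    have hP : ‖P k - P j‖ ^ 2 = ∫ x, (φ k x - φ j x) ^ 2 := by
      rw [← MemLp.toLp_sub, norm_toLp_sq]; rfl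
    have hd : ∀ a, ‖D a k - D a j‖ ^ 2 = ∫ x, deriv3 a (fun x => φ k x - φ j x) x ^ 2 := by
      intro a
      rw [← MemLp.toLp_sub, norm_toLp_sq]
      congr 1
      funext x
      simp [deriv3, fderiv_fun_sub ((hφ k).differentiable x) ((hφ j).differentiable x)]
    have hsum : 0 ≤ ∑ a, ∫ x, deriv3 a (fun x => φ k x - φ j x) x ^ 2 :=
      Finset.sum_nonneg fun a _ => integral_nonneg fun x => sq_nonneg _
    refine ⟨le_of_pow_le_pow_left₀ two_ne_zero (norm_nonneg _) (by linarith), fun a => ?_⟩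
    refine le_of_pow_le_pow_left₀ two_ne_zero (norm_nonneg _) ?_
    have h1 : ∫ x, deriv3 a (fun x => φ k x - φ j x) x ^ 2 ≤
        ∑ a, ∫ x, deriv3 a (fun x => φ k x - φ j x) x ^ 2 :=
      Finset.single_le_sum (f := fun a => ∫ x, deriv3 a (fun x => φ k x - φ j x) x ^ 2)
        (fun a _ => integral_nonneg fun x => sq_nonneg _) (Finset.mem_univ a)
    rw [hd, hH']
    linarith
  have hcau : CauchySeq H := hlim.cauchySeq
  have hconv : ∀ (Q : ℕ → Lp ℝ 2 (volume : Measure Space)),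
      (∀ k j, ‖Q k - Q j‖ ≤ ‖H k - H j‖) → ∃ q, Tendsto Q atTop (𝓝 q) := by
    intro Q hQ
    refine cauchySeq_tendsto_of_complete (Metric.cauchySeq_iff.2 fun ε hε => ?_)
    obtain ⟨N, hN⟩ := Metric.cauchySeq_iff.1 hcau ε hε
    exact ⟨N, fun k hk j hj => lt_of_le_of_lt
      (by rw [dist_eq_norm, dist_eq_norm]; exact hQ k j) (hN k hk j hj)⟩
  obtain ⟨u, hu⟩ := hconv P fun k j => (hbd k j).1
  choose U hU using fun a => hconv (D a) fun k j => (hbd k j).2 a
  refine ⟨u, fun a => U a, ?_, fun a => ?_⟩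
  · have hwg : HasWeakGrad univ (u : Space → ℝ) fun a => (U a : Space → ℝ) := by
      refine ⟨((Lp.memLp u).locallyIntegrable (by norm_num)).locallyIntegrableOn _,
        fun a => ((Lp.memLp (U a)).locallyIntegrable (by norm_num)).locallyIntegrableOn _,
        fun η hη a => ?_⟩
      have t1 : Tendsto (fun k => ∫ x, φ k x * deriv3 a η x) atTop
          (𝓝 (∫ x, u x * deriv3 a η x)) := by
        have := hu.inner (𝕜 := ℝ) (tendsto_const_nhds (x := (memLp_bump (hη.deriv a) 2).toLp (deriv3 a η)))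
        rw [← Lp.toLp_coeFn u (Lp.memLp u), inner_toLp] at this
        exact this.congr fun k => inner_toLp _ _
      have t2 : Tendsto (fun k => ∫ x, deriv3 a (φ k) x * η x) atTop
          (𝓝 (∫ x, U a x * η x)) := by
        have := (hU a).inner (𝕜 := ℝ) (tendsto_const_nhds (x := (memLp_bump hη 2).toLp η))
        rw [← Lp.toLp_coeFn (U a) (Lp.memLp _), inner_toLp] at this
        exact this.congr fun k => inner_toLp _ _
      exact tendsto_nhds_unique t1 (t2.neg.congr fun k => ((hφ k).topH1.grad.2.2 η hη a).symm)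
    have h1 : Top.IsH1 (u : Space → ℝ) fun a => (U a : Space → ℝ) :=
      ⟨Lp.memLp u, fun a => Lp.memLp (U a), hwg⟩
    refine ⟨h1, fun ψ Ψ hψ => ?_⟩
    have hl : Tendsto (fun k => ∑ a, ⟪D a k, (hψ.memLp_grad a).toLp (Ψ a)⟫_ℝ +
        ⟪P k, hψ.memLp.toLp ψ⟫_ℝ) atTop (𝓝 (∑ a, ⟪U a, (hψ.memLp_grad a).toLp (Ψ a)⟫_ℝ +
          ⟪u, hψ.memLp.toLp ψ⟫_ℝ)) :=
      (tendsto_finsetSum _ fun a _ => (hU a).inner (𝕜 := ℝ) tendsto_const_nhds).add
        (hu.inner (𝕜 := ℝ) tendsto_const_nhds)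
    have hr := hlim.inner (𝕜 := ℝ) (tendsto_const_nhds (x := hψ.memLp.toLp ψ))
    have key : ∀ (v : Space → ℝ) (V : Fin 3 → Space → ℝ) (hv : MemLp v 2)
        (hV : ∀ a, MemLp (V a) 2),
        (∑ a, ⟪(hV a).toLp (V a), (hψ.memLp_grad a).toLp (Ψ a)⟫_ℝ + ⟪hv.toLp v, hψ.memLp.toLp ψ⟫_ℝ) =
          ∫ x, (∑ a, V a x * Ψ a x + v x * ψ x) := by
      intro v V hv hV
      simp only [inner_toLp]
      have i1 : ∀ a, Integrable fun x => V a x * Ψ a x := fun a =>
        (hV a).integrable_mul (hψ.memLp_grad a)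
      have i2 : Integrable fun x => v x * ψ x := hv.integrable_mul hψ.memLp
      rw [integral_add (integrable_finsetSum _ fun a _ => i1 a) i2,
        integral_finsetSum _ fun a _ => i1 a]
    have hk := key (u : Space → ℝ) (fun a => (U a : Space → ℝ)) (Lp.memLp u) fun a => Lp.memLp _
    simp only [Lp.toLp_coeFn] at hk
    rw [← hk]
    refine (tendsto_nhds_unique hl (hr.congr fun k => ?_)).trans (inner_toLp hh hψ.memLp)
    rw [key, inner_toLp]
    exact ((isResolvent_bump (hφ k)).eqn ψ Ψ hψ).symm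
  · obtain ⟨ns, hns, hae⟩ :=
      (tendstoInMeasure_of_tendsto_Lp (hU a)).exists_seq_tendsto_ae
    have hae' : ∀ᵐ x, Tendsto (fun i => deriv3 a (φ (ns i)) x) atTop (𝓝 ((U a : Space → ℝ) x)) := by
      filter_upwards [hae, ae_all_iff.2 fun i =>
        (memLp_bump ((hφ (ns i)).deriv a) 2).coeFn_toLp] with x hx he
      exact hx.congr fun i => he i
    refine (Lp.eLpNorm_lim_le_liminf_eLpNorm
      (fun i => ((hφ (ns i)).deriv a).continuous.aestronglyMeasurable) _ hae').trans ?_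
    have t : Tendsto (fun i => ENNReal.ofReal C * eLpNorm (resFun (φ (ns i))) 2 volume) atTop
        (𝓝 (ENNReal.ofReal C * eLpNorm h 2 volume)) := by
      refine ENNReal.Tendsto.const_mul ?_ (Or.inr ENNReal.ofReal_ne_top)
      have := (ENNReal.tendsto_ofReal (hlim.comp hns.tendsto_atTop).norm)
      simp only [Lp.norm_toLp, ENNReal.ofReal_toReal (hh.2).ne] at this
      refine this.congr fun i => ?_
      show ENNReal.ofReal ‖(hm (ns i)).toLp (resFun (φ (ns i)))‖ = _
      rw [Lp.norm_toLp, ENNReal.ofReal_toReal (hm _).2.ne]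
    refine le_trans (liminf_le_liminf (.of_forall fun i => hsix _ (hφ (ns i)) a)) (le_of_eq ?_)
    exact t.liminf_eq

end Vale.Agent.P363
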