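import Vale.Agent.P363.Tool.Barrier.Calculus

/-!
P363: explicit comparison functions for `-Δ / 2 + farPot a k ± C / r²` at large radius: tails,
`z` times tails, `(1 ± r^(-s)) z G` and `(z² + κ) r⁻³ G`. A subsolution `B` satisfies
`2 (farPot + C / r²) B + margin ≤ lap B`.
-/

noncomputable section

namespace Vale.Agent.P363.Bar

open MeasureTheory Filter Set
open scoped BigOperators Topology

/-- Any bound `K / r ≤ δ` holds at large radius. -/
lemma exists_radius {δ : ℝ} (hδ : 0 < δ) (K : ℝ) :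
    ∃ R : ℝ, 1 ≤ R ∧ ∀ r, R ≤ r → K ≤ δ * r :=
  ⟨max 1 (K / δ), le_max_left _ _, fun r hr => by
    have := (div_le_iff₀ hδ).1 ((le_max_right _ _).trans hr); linarith⟩

lemma ne_zero_of_le {R : ℝ} (hR : 1 ≤ R) {x : Space} (hx : R ≤ ‖x‖) : x ≠ 0 :=
  norm_pos_iff.1 (by linarith)

/-! ### One tail times the height -/

/-- `z r^p e^{-a r}` is a subsolution with margin when `p < k / a - 2`. -/
lemma height_tail_sub {a k p : ℝ} (hp : a * (p + 2) < k) (C : ℝ) :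
    ∃ R : ℝ, 1 ≤ R ∧ ∀ x : Space, R ≤ ‖x‖ → 0 ≤ height x →
      2 * (farPot a k ‖x‖ + C / ‖x‖ ^ 2) * (height x * tail p a ‖x‖)
          + (k - a * (p + 2)) / ‖x‖ * (height x * tail p a ‖x‖) ≤
        lap (fun y => height y * tail p a ‖y‖) x := by
  obtain ⟨R, hR, hK⟩ := exists_radius (sub_pos.2 hp) (2 * C - p * (p + 3))
  refine ⟨R, hR, fun x hx hz => ?_⟩
  have hr : 0 < ‖x‖ := by linarith
  rw [lap_height_tail p a (ne_zero_of_le hR hx), farPot, ← sub_nonneg]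
  have h1 := mul_nonneg (mul_nonneg hz (tail_pos p a hr).le) (div_nonneg
    (sub_nonneg.2 (hK _ hx)) (sq_nonneg ‖x‖))
  refine h1.trans_eq ?_
  field_simp
  ring

/-- `z r^p e^{-a r}` is a supersolution with margin when `k / a - 2 < p`. -/
lemma height_tail_super {a k p : ℝ} (hp : k < a * (p + 2)) (C : ℝ) :
    ∃ R : ℝ, 1 ≤ R ∧ ∀ x : Space, R ≤ ‖x‖ → 0 ≤ height x →
      lap (fun y => height y * tail p a ‖y‖) x
          + (a * (p + 2) - k) / ‖x‖ * (height x * tail p a ‖x‖) ≤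
        2 * (farPot a k ‖x‖ - C / ‖x‖ ^ 2) * (height x * tail p a ‖x‖) := by
  obtain ⟨R, hR, hK⟩ := exists_radius (sub_pos.2 hp) (2 * C + p * (p + 3))
  refine ⟨R, hR, fun x hx hz => ?_⟩
  have hr : 0 < ‖x‖ := by linarith
  rw [lap_height_tail p a (ne_zero_of_le hR hx), farPot, ← sub_nonneg]
  have h1 := mul_nonneg (mul_nonneg hz (tail_pos p a hr).le) (div_nonneg
    (sub_nonneg.2 (hK _ hx)) (sq_nonneg ‖x‖))
  refine h1.trans_eq ?_
  field_simp
  ring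

/-- `z r^p e^{-b r}` is a subsolution for any potential tending to less than `b² / 2`. -/
lemma height_tail_sub_rate {a k p b m : ℝ} (hb : a ^ 2 + 2 * m < b ^ 2) (C : ℝ) :
    ∃ R : ℝ, 1 ≤ R ∧ ∀ x : Space, R ≤ ‖x‖ → 0 ≤ height x →
      2 * (farPot a k ‖x‖ + C / ‖x‖ ^ 2 + m) * (height x * tail p b ‖x‖) ≤
        lap (fun y => height y * tail p b ‖y‖) x := by
  obtain ⟨R, hR, hK⟩ := exists_radius (sub_pos.2 hb)
    (|2 * b * (p + 2) - 2 * k| + |2 * C - p * (p + 3)|)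
  refine ⟨R, hR, fun x hx hz => ?_⟩
  have hr1 : 1 ≤ ‖x‖ := hR.trans hx
  have hr : 0 < ‖x‖ := by linarith
  rw [lap_height_tail p b (ne_zero_of_le hR hx), farPot, ← sub_nonneg]
  have h2 : 0 ≤ (b ^ 2 - (a ^ 2 + 2 * m)) * ‖x‖ ^ 2 - (2 * b * (p + 2) - 2 * k) * ‖x‖
      - (2 * C - p * (p + 3)) := by
    nlinarith [mul_le_mul_of_nonneg_right (hK _ hx) hr.le,
      mul_le_mul_of_nonneg_right (le_abs_self (2 * b * (p + 2) - 2 * k)) hr.le,
      le_mul_of_one_le_right (abs_nonneg (2 * C - p * (p + 3))) hr1,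
      le_abs_self (2 * C - p * (p + 3))]
  have h1 := mul_nonneg (mul_nonneg hz (tail_pos p b hr).le) (div_nonneg h2 (sq_nonneg ‖x‖))
  refine h1.trans_eq ?_
  field_simp
  ring

/-- `z r^p e^{-b r}` is a supersolution for any potential tending to more than `b² / 2`. -/
lemma height_tail_super_rate {a k p b m : ℝ} (hb : b ^ 2 < a ^ 2 + 2 * m) (C : ℝ) :
    ∃ R : ℝ, 1 ≤ R ∧ ∀ x : Space, R ≤ ‖x‖ → 0 ≤ height x →
      lap (fun y => height y * tail p b ‖y‖) x ≤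
        2 * (farPot a k ‖x‖ - C / ‖x‖ ^ 2 + m) * (height x * tail p b ‖x‖) := by
  obtain ⟨R, hR, hK⟩ := exists_radius (sub_pos.2 hb)
    (|2 * k - 2 * b * (p + 2)| + |2 * C + p * (p + 3)|)
  refine ⟨R, hR, fun x hx hz => ?_⟩
  have hr1 : 1 ≤ ‖x‖ := hR.trans hx
  have hr : 0 < ‖x‖ := by linarith
  rw [lap_height_tail p b (ne_zero_of_le hR hx), farPot, ← sub_nonneg]
  have h2 : 0 ≤ (a ^ 2 + 2 * m - b ^ 2) * ‖x‖ ^ 2 - (2 * k - 2 * b * (p + 2)) * ‖x‖
      - (2 * C + p * (p + 3)) := by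
    nlinarith [mul_le_mul_of_nonneg_right (hK _ hx) hr.le,
      mul_le_mul_of_nonneg_right (le_abs_self (2 * k - 2 * b * (p + 2))) hr.le,
      le_mul_of_one_le_right (abs_nonneg (2 * C + p * (p + 3))) hr1,
      le_abs_self (2 * C + p * (p + 3))]
  have h1 := mul_nonneg (mul_nonneg hz (tail_pos p b hr).le) (div_nonneg h2 (sq_nonneg ‖x‖))
  refine h1.trans_eq ?_
  field_simp
  ring

/-! ### Radial tails -/

/-- `r^p e^{-a r}` is a subsolution with margin when `p < k / a - 1`. -/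
lemma radial_tail_sub {a k p : ℝ} (hp : a * (p + 1) < k) (C : ℝ) :
    ∃ R : ℝ, 1 ≤ R ∧ ∀ x : Space, R ≤ ‖x‖ →
      2 * (farPot a k ‖x‖ + C / ‖x‖ ^ 2) * tail p a ‖x‖
          + (k - a * (p + 1)) / ‖x‖ * tail p a ‖x‖ ≤
        lap (fun y => tail p a ‖y‖) x := by
  obtain ⟨R, hR, hK⟩ := exists_radius (sub_pos.2 hp) (2 * C - p * (p + 1))
  refine ⟨R, hR, fun x hx => ?_⟩
  have hr : 0 < ‖x‖ := by linarith
  rw [lap_tail p a (ne_zero_of_le hR hx), farPot, ← sub_nonneg]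
  have h1 := mul_nonneg (tail_pos p a hr).le (div_nonneg
    (sub_nonneg.2 (hK _ hx)) (sq_nonneg ‖x‖))
  refine h1.trans_eq ?_
  field_simp
  ring

/-- `r^p e^{-a r}` is a supersolution with margin when `k / a - 1 < p`. -/
lemma radial_tail_super {a k p : ℝ} (hp : k < a * (p + 1)) (C : ℝ) :
    ∃ R : ℝ, 1 ≤ R ∧ ∀ x : Space, R ≤ ‖x‖ →
      lap (fun y => tail p a ‖y‖) x + (a * (p + 1) - k) / ‖x‖ * tail p a ‖x‖ ≤
        2 * (farPot a k ‖x‖ - C / ‖x‖ ^ 2) * tail p a ‖x‖ := by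
  obtain ⟨R, hR, hK⟩ := exists_radius (sub_pos.2 hp) (2 * C + p * (p + 1))
  refine ⟨R, hR, fun x hx => ?_⟩
  have hr : 0 < ‖x‖ := by linarith
  rw [lap_tail p a (ne_zero_of_le hR hx), farPot, ← sub_nonneg]
  have h1 := mul_nonneg (tail_pos p a hr).le (div_nonneg
    (sub_nonneg.2 (hK _ hx)) (sq_nonneg ‖x‖))
  refine h1.trans_eq ?_
  field_simp
  ring

/-- `r^p e^{-b r}` is a subsolution for any potential tending to less than `b² / 2`. -/
lemma radial_tail_sub_rate {a k p b m : ℝ} (hb : a ^ 2 + 2 * m < b ^ 2) (C : ℝ) :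
    ∃ R : ℝ, 1 ≤ R ∧ ∀ x : Space, R ≤ ‖x‖ →
      2 * (farPot a k ‖x‖ + C / ‖x‖ ^ 2 + m) * tail p b ‖x‖ ≤
        lap (fun y => tail p b ‖y‖) x := by
  obtain ⟨R, hR, hK⟩ := exists_radius (sub_pos.2 hb)
    (|2 * b * (p + 1) - 2 * k| + |2 * C - p * (p + 1)|)
  refine ⟨R, hR, fun x hx => ?_⟩
  have hr1 : 1 ≤ ‖x‖ := hR.trans hx
  have hr : 0 < ‖x‖ := by linarith
  rw [lap_tail p b (ne_zero_of_le hR hx), farPot, ← sub_nonneg]
  have h2 : 0 ≤ (b ^ 2 - (a ^ 2 + 2 * m)) * ‖x‖ ^ 2 - (2 * b * (p + 1) - 2 * k) * ‖x‖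
      - (2 * C - p * (p + 1)) := by
    nlinarith [mul_le_mul_of_nonneg_right (hK _ hx) hr.le,
      mul_le_mul_of_nonneg_right (le_abs_self (2 * b * (p + 1) - 2 * k)) hr.le,
      le_mul_of_one_le_right (abs_nonneg (2 * C - p * (p + 1))) hr1,
      le_abs_self (2 * C - p * (p + 1))]
  have h1 := mul_nonneg (tail_pos p b hr).le (div_nonneg h2 (sq_nonneg ‖x‖))
  refine h1.trans_eq ?_
  field_simp
  ring

/-- `r^p e^{-b r}` is a supersolution for any potential tending to more than `b² / 2`. -/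
lemma radial_tail_super_rate {a k p b m : ℝ} (hb : b ^ 2 < a ^ 2 + 2 * m) (C : ℝ) :
    ∃ R : ℝ, 1 ≤ R ∧ ∀ x : Space, R ≤ ‖x‖ →
      lap (fun y => tail p b ‖y‖) x ≤
        2 * (farPot a k ‖x‖ - C / ‖x‖ ^ 2 + m) * tail p b ‖x‖ := by
  obtain ⟨R, hR, hK⟩ := exists_radius (sub_pos.2 hb)
    (|2 * k - 2 * b * (p + 1)| + |2 * C + p * (p + 1)|)
  refine ⟨R, hR, fun x hx => ?_⟩
  have hr1 : 1 ≤ ‖x‖ := hR.trans hx
  have hr : 0 < ‖x‖ := by linarith
  rw [lap_tail p b (ne_zero_of_le hR hx), farPot, ← sub_nonneg]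
  have h2 : 0 ≤ (a ^ 2 + 2 * m - b ^ 2) * ‖x‖ ^ 2 - (2 * k - 2 * b * (p + 1)) * ‖x‖
      - (2 * C + p * (p + 1)) := by
    nlinarith [mul_le_mul_of_nonneg_right (hK _ hx) hr.le,
      mul_le_mul_of_nonneg_right (le_abs_self (2 * k - 2 * b * (p + 1))) hr.le,
      le_mul_of_one_le_right (abs_nonneg (2 * C + p * (p + 1))) hr1,
      le_abs_self (2 * C + p * (p + 1))]
  have h1 := mul_nonneg (tail_pos p b hr).le (div_nonneg h2 (sq_nonneg ‖x‖))
  refine h1.trans_eq ?_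
  field_simp
  ring

/-! ### The leading barriers -/

/-- `(1 + σ r^(-s)) z G`. -/
def lead (a k s σ : ℝ) (x : Space) : ℝ :=
  (1 + σ * ‖x‖ ^ (-s)) * height x * tailG a k ‖x‖

lemma lead_eq (a k s σ : ℝ) {x : Space} (hx : x ≠ 0) :
    lead a k s σ x = height x * tail (k / a - 2) a ‖x‖
      + σ * (height x * tail (k / a - 2 + -s) a ‖x‖) := by
  rw [lead, tailG_eq, tail_add _ _ _ (norm_pos_iff.2 hx)]; ring

lemma contDiffOn_lead (a k s σ : ℝ) {m : WithTop ℕ∞} :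
    ContDiffOn ℝ m (lead a k s σ) {x | x ≠ 0} :=
  ((contDiffOn_mul_tail contDiff_height _ _).add
    (contDiffOn_const.mul (contDiffOn_mul_tail contDiff_height _ _))).congr
    fun _ hx => lead_eq a k s σ hx

lemma lap_lead (a k s σ : ℝ) {x : Space} (hx : x ≠ 0) :
    lap (lead a k s σ) x = lap (fun y => height y * tail (k / a - 2) a ‖y‖) x
      + σ * lap (fun y => height y * tail (k / a - 2 + -s) a ‖y‖) x := by
  have hU : IsOpen {y : Space | y ≠ 0} := isOpen_ne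
  have c1 := contDiffOn_mul_tail (m := 2) contDiff_height (k / a - 2) a
  have c2 := contDiffOn_mul_tail (m := 2) contDiff_height (k / a - 2 + -s) a
  have key : ∀ c : Fin 3, deriv3 c (lead a k s σ) =ᶠ[𝓝 x] fun y =>
      deriv3 c (fun y => height y * tail (k / a - 2) a ‖y‖) y
        + σ * deriv3 c (fun y => height y * tail (k / a - 2 + -s) a ‖y‖) y := by
    intro c
    filter_upwards [hU.mem_nhds hx] with y hy
    have e : lead a k s σ =ᶠ[𝓝 y] fun y => height y * tail (k / a - 2) a ‖y‖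
        + σ * (height y * tail (k / a - 2 + -s) a ‖y‖) :=
      eventually_of_mem (hU.mem_nhds hy) fun w hw => lead_eq a k s σ hw
    have d1 := (c1.contDiffAt (hU.mem_nhds hy)).differentiableAt two_ne_zero
    have d2 := (c2.contDiffAt (hU.mem_nhds hy)).differentiableAt two_ne_zero
    rw [← deriv3_const_mul d2 σ c, ← deriv3_add d1 (d2.const_mul σ) c]
    simp only [deriv3, e.fderiv_eq]
  simp only [lap, Finset.mul_sum, ← Finset.sum_add_distrib]
  refine Finset.sum_congr rfl fun c _ => ?_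
  have d1 := ((contDiffOn_deriv3 c hU (m := 1) c1 (by norm_num)).contDiffAt
    (hU.mem_nhds hx)).differentiableAt one_ne_zero
  have d2 := ((contDiffOn_deriv3 c hU (m := 1) c2 (by norm_num)).contDiffAt
    (hU.mem_nhds hx)).differentiableAt one_ne_zero
  rw [← deriv3_const_mul d2 σ c, ← deriv3_add d1 (d2.const_mul σ) c]
  show fderiv ℝ (deriv3 c (lead a k s σ)) x (unit3 c) = _
  rw [(key c).fderiv_eq]
  rfl

lemma exists_radius_rpow {δ s : ℝ} (hδ : 0 < δ) (hs : s < 1) (K : ℝ) :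
    ∃ R : ℝ, 1 ≤ R ∧ ∀ r, R ≤ r → K ≤ δ * r ^ (1 - s) := by
  have h : ∀ᶠ r : ℝ in atTop, K / δ ≤ r ^ (1 - s) :=
    (tendsto_rpow_atTop (sub_pos.2 hs)).eventually_ge_atTop _
  obtain ⟨R, hR⟩ := eventually_atTop.1 h
  refine ⟨max 1 R, le_max_left _ _, fun r hr => ?_⟩
  have := (div_le_iff₀ hδ).1 (hR r ((le_max_right _ _).trans hr))
  linarith

/-- `(1 + r^(-s)) z G` is a subsolution with margin. -/
lemma lead_sub {a k s : ℝ} (ha : 0 < a) (hs0 : 0 < s) (hs1 : s < 1) (C : ℝ) :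
    ∃ R : ℝ, 1 ≤ R ∧ ∀ x : Space, R ≤ ‖x‖ → 0 ≤ height x →
      2 * (farPot a k ‖x‖ + C / ‖x‖ ^ 2) * lead a k s 1 x
          + a * s / ‖x‖ * (‖x‖ ^ (-s) * (height x * tailG a k ‖x‖)) ≤
        lap (lead a k s 1) x ∧
      height x * tailG a k ‖x‖ ≤ lead a k s 1 x ∧
      lead a k s 1 x ≤ 2 * (height x * tailG a k ‖x‖) := by
  set q := k / a - 2 with hq
  set p := q + -s with hp
  obtain ⟨R, hR, hK⟩ := exists_radius_rpow (mul_pos ha hs0) hs1
    (|q * (q + 3) - 2 * C| + |p * (p + 3) - 2 * C|)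
  refine ⟨R, hR, fun x hx hz => ?_⟩
  have hr1 : 1 ≤ ‖x‖ := hR.trans hx
  have hr : 0 < ‖x‖ := by linarith
  have hx0 := ne_zero_of_le hR hx
  set w := ‖x‖ ^ (-s) with hw
  have hw0 : 0 < w := Real.rpow_pos_of_pos hr _
  have hw1 : w ≤ 1 := Real.rpow_le_one_of_one_le_of_nonpos hr1 (by linarith)
  have hG := mul_nonneg hz (tail_pos q a hr).le
  have hk : a * (q + 2) = k := by rw [hq]; field_simp; ring
  refine ⟨?_, ?_, ?_⟩
  · rw [lap_lead a k s 1 hx0, lap_height_tail _ a hx0, lap_height_tail _ a hx0,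
      lead_eq a k s 1 hx0, tailG_eq, farPot, ← hq, ← hp]
    rw [show tail p a ‖x‖ = w * tail q a ‖x‖ from tail_add _ _ _ hr]
    have hrw : ‖x‖ ^ (1 - s) = w * ‖x‖ := by
      rw [hw, show (1 - s) = -s + 1 by ring, Real.rpow_add_one hr.ne']
    have hKx := hK _ hx
    rw [hrw] at hKx
    have h2 : 0 ≤ a * s * (w * ‖x‖) + (q * (q + 3) - 2 * C) + w * (p * (p + 3) - 2 * C) := by
      nlinarith [hKx, neg_abs_le (q * (q + 3) - 2 * C), mul_le_mul_of_nonneg_left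
        (neg_abs_le (p * (p + 3) - 2 * C)) hw0.le, mul_le_mul_of_nonneg_right hw1
        (abs_nonneg (p * (p + 3) - 2 * C))]
    rw [← sub_nonneg]
    refine (mul_nonneg hG (div_nonneg h2 (sq_nonneg ‖x‖))).trans_eq ?_
    rw [hp, ← hk]
    field_simp
    ring
  · rw [lead, tailG_eq, ← hq, ← hw]
    nlinarith [mul_nonneg hw0.le hG]
  · rw [lead, tailG_eq, ← hq, ← hw]
    nlinarith [mul_le_mul_of_nonneg_right hw1 hG]

/-- `(1 - r^(-s)) z G` is a supersolution with margin. -/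
lemma lead_super {a k s : ℝ} (ha : 0 < a) (hs0 : 0 < s) (hs1 : s < 1) (C : ℝ) :
    ∃ R : ℝ, 1 ≤ R ∧ ∀ x : Space, R ≤ ‖x‖ → 0 ≤ height x →
      lap (lead a k s (-1)) x + a * s / ‖x‖ * (‖x‖ ^ (-s) * (height x * tailG a k ‖x‖)) ≤
        2 * (farPot a k ‖x‖ - C / ‖x‖ ^ 2) * lead a k s (-1) x ∧
      height x * tailG a k ‖x‖ / 2 ≤ lead a k s (-1) x ∧
      lead a k s (-1) x ≤ height x * tailG a k ‖x‖ := by
  set q := k / a - 2 with hq
  set p := q + -s with hp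
  obtain ⟨R, hR, hK⟩ := exists_radius_rpow (mul_pos ha hs0) hs1
    (|q * (q + 3) + 2 * C| + |p * (p + 3) + 2 * C|)
  have h : ∀ᶠ r : ℝ in atTop, r ^ (-s) < 1 / 2 :=
    (tendsto_rpow_neg_atTop hs0).eventually_lt_const (by norm_num)
  obtain ⟨R', hR'⟩ := eventually_atTop.1 h
  refine ⟨max R R', hR.trans (le_max_left _ _), fun x hx hz => ?_⟩
  have hw2 : ‖x‖ ^ (-s) < 1 / 2 := hR' _ ((le_max_right _ _).trans hx)
  replace hx : R ≤ ‖x‖ := (le_max_left _ _).trans hx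
  have hr1 : 1 ≤ ‖x‖ := hR.trans hx
  have hr : 0 < ‖x‖ := by linarith
  have hx0 := ne_zero_of_le hR hx
  set w := ‖x‖ ^ (-s) with hw
  have hw0 : 0 < w := Real.rpow_pos_of_pos hr _
  have hG := mul_nonneg hz (tail_pos q a hr).le
  have hk : a * (q + 2) = k := by rw [hq]; field_simp; ring
  refine ⟨?_, ?_, ?_⟩
  · rw [lap_lead a k s (-1) hx0, lap_height_tail _ a hx0, lap_height_tail _ a hx0,
      lead_eq a k s (-1) hx0, tailG_eq, farPot, ← hq, ← hp]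
    rw [show tail p a ‖x‖ = w * tail q a ‖x‖ from tail_add _ _ _ hr]
    have hrw : ‖x‖ ^ (1 - s) = w * ‖x‖ := by
      rw [hw, show (1 - s) = -s + 1 by ring, Real.rpow_add_one hr.ne']
    have hKx := hK _ hx
    rw [hrw] at hKx
    have h2 : 0 ≤ a * s * (w * ‖x‖) - (q * (q + 3) + 2 * C) + w * (p * (p + 3) + 2 * C) := by
      nlinarith [hKx, le_abs_self (q * (q + 3) + 2 * C), mul_le_mul_of_nonneg_left
        (neg_abs_le (p * (p + 3) + 2 * C)) hw0.le, mul_le_mul_of_nonneg_right hw2.le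
        (abs_nonneg (p * (p + 3) + 2 * C)), abs_nonneg (p * (p + 3) + 2 * C)]
    rw [← sub_nonneg]
    refine (mul_nonneg hG (div_nonneg h2 (sq_nonneg ‖x‖))).trans_eq ?_
    rw [hp, ← hk]
    field_simp
    ring
  · rw [lead, tailG_eq, ← hq, ← hw]
    nlinarith [mul_le_mul_of_nonneg_right hw2.le hG]
  · rw [lead, tailG_eq, ← hq, ← hw]
    nlinarith [mul_nonneg hw0.le hG]

/-- `(z² + κ) r⁻³ G` is a subsolution with margin, uniformly in `κ ≥ 0`. -/
lemma sq_sub {a : ℝ} (ha : 0 < a) (k C : ℝ) :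
    ∃ R : ℝ, 1 ≤ R ∧ ∀ κ : ℝ, 0 ≤ κ → ∀ x : Space, R ≤ ‖x‖ →
      2 * (farPot a k ‖x‖ + C / ‖x‖ ^ 2) * ((height x ^ 2 + κ) * tail (k / a - 5) a ‖x‖)
          + (2 + a * (height x ^ 2 + κ) / ‖x‖) * tail (k / a - 5) a ‖x‖ ≤
        lap (fun y => (height y ^ 2 + κ) * tail (k / a - 5) a ‖y‖) x := by
  set p := k / a - 5 with hp
  obtain ⟨R, hR, hK⟩ := exists_radius ha (|p * (p + 5) - 2 * C| + |p * (p + 1) - 2 * C|)
  refine ⟨R, hR, fun κ hκ x hx => ?_⟩
  have hr : 0 < ‖x‖ := by linarith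
  have hk : a * (p + 5) = k := by rw [hp]; field_simp; ring
  rw [lap_sq_tail p a κ (ne_zero_of_le hR hx), farPot, ← sub_nonneg]
  have e1 : 0 ≤ 3 * a * ‖x‖ + (p * (p + 5) - 2 * C) := by
    nlinarith [hK _ hx, neg_abs_le (p * (p + 5) - 2 * C), abs_nonneg (p * (p + 1) - 2 * C), mul_pos ha hr]
  have e2 : 0 ≤ 7 * a * ‖x‖ + (p * (p + 1) - 2 * C) := by
    nlinarith [hK _ hx, neg_abs_le (p * (p + 1) - 2 * C), abs_nonneg (p * (p + 5) - 2 * C),
      mul_pos ha hr]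
  refine (mul_nonneg (tail_pos p a hr).le (div_nonneg
    (add_nonneg (mul_nonneg (sq_nonneg (height x)) e1) (mul_nonneg hκ e2))
    (sq_nonneg ‖x‖))).trans_eq ?_
  rw [← hk]
  field_simp
  ring

/-! ### Weak forms -/

/-- A pointwise subsolution is a weak one. -/
lemma weakSub_of_le {U : Set Space} {B h : Space → ℝ} (hU : IsOpen U)
    (hB : ContDiffOn ℝ 2 B U) (hh : ContinuousOn h U) (hle : ∀ x ∈ U, h x ≤ lap B x) :
    WeakSubPoisson U B h :=
  (WeakPoisson.of_contDiffOn hU hB).toSub.weaken (hh.locallyIntegrableOn hU.measurableSet)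
    ((ae_restrict_iff' hU.measurableSet).2 (.of_forall hle)) hU

/-- A pointwise supersolution is a weak one. -/
lemma weakSuper_of_le {U : Set Space} {B h : Space → ℝ} (hU : IsOpen U)
    (hB : ContDiffOn ℝ 2 B U) (hh : ContinuousOn h U) (hle : ∀ x ∈ U, lap B x ≤ h x) :
    WeakSubPoisson U (fun x => -B x) fun x => -h x := by
  have e := (WeakPoisson.of_contDiffOn hU hB).const_mul (-1)
  simp only [neg_mul, one_mul] at e
  exact e.toSub.weaken (hh.neg.locallyIntegrableOn hU.measurableSet)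
    ((ae_restrict_iff' hU.measurableSet).2 (.of_forall fun x hx => neg_le_neg (hle x hx))) hU

end Vale.Agent.P363.Bar
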