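import Vale.Agent.P363.Base

/-!
P363: interfaces of the weak maximum principle, the local sup bound, positivity and the boundary
point lemma. In all of them a weak differential inequality is `WeakSubPoisson`, so a supersolution
`Δ f ≤ h` is written `WeakSubPoisson U (-f) (-h)`.
-/

noncomputable section

namespace Vale.Agent.P363

open MeasureTheory Metric
open scoped BigOperators Topology ENNReal

/-- A `C²` function solves its own Poisson equation weakly. -/
def SmoothPoissonStmt : Prop :=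
  ∀ (U : Set Space) (f : Space → ℝ), IsOpen U → ContDiffOn ℝ 2 f U → WeakPoisson U f (lap f)

/-- Maximum principle for almost-everywhere defined locally bounded subsolutions of `Δ f ≥ V f`,
`V ≥ 0` continuous, which are small outside compact subsets of the domain. The domain may be
unbounded. -/
def MaxPrincipleStmt : Prop :=
  ∀ (U : Set Space) (f h V : Space → ℝ), IsOpen U → WeakSubPoisson U f h → ContinuousOn V U →
    (∀ x ∈ U, 0 ≤ V x) →
    (∀ K, IsCompact K → K ⊆ U → ∃ C, ∀ᵐ x, x ∈ K → |f x| ≤ C) →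
    (∀ᵐ x, x ∈ U → V x * f x ≤ h x) →
    (∀ ε > 0, ∃ K, IsCompact K ∧ K ⊆ U ∧ ∀ᵐ x, x ∈ U \ K → f x ≤ ε) →
    ∀ᵐ x, x ∈ U → f x ≤ 0

/-- Maximum principle for continuous functions: weakly subharmonic where positive, nonpositive on
the boundary and asymptotically at infinity. No sign or regularity of a potential is needed. -/
def MaxContStmt : Prop :=
  ∀ (U : Set Space) (f h : Space → ℝ), IsOpen U → ContinuousOn f (closure U) →
    WeakSubPoisson U f h → (∀ᵐ x, x ∈ U → 0 < f x → 0 ≤ h x) →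
    (∀ x ∈ frontier U, f x ≤ 0) →
    (∀ ε > 0, ∃ R : ℝ, ∀ x ∈ U, R ≤ ‖x‖ → f x ≤ ε) →
    ∀ x ∈ closure U, f x ≤ 0

/-- Local bound from above for `Δ f ≥ -g` with `g` in `L^p`, `p > 3/2`. -/
def SupBoundStmt : Prop :=
  ∀ p : ℝ, 3 / 2 < p → ∀ R : ℝ, 0 < R → ∃ C : ℝ, 0 ≤ C ∧
    ∀ (x₀ : Space) (f g : Space → ℝ), WeakSubPoisson (ball x₀ (2 * R)) f (-g) →
      IntegrableOn f (ball x₀ (2 * R)) →
      MemLp g (ENNReal.ofReal p) (volume.restrict (ball x₀ (2 * R))) →
      ∀ᵐ x, x ∈ ball x₀ R → f x ≤ C * ((∫ y in ball x₀ (2 * R), |f y|) +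
        (eLpNorm g (ENNReal.ofReal p) (volume.restrict (ball x₀ (2 * R)))).toReal)

/-- A continuous nonnegative function with `Δ f ≤ C f` on a connected open set is zero or
positive everywhere. -/
def PositiveStmt : Prop :=
  ∀ (U : Set Space) (f h : Space → ℝ) (C : ℝ), IsOpen U → IsPreconnected U → ContinuousOn f U →
    (∀ x ∈ U, 0 ≤ f x) → WeakSubPoisson U (-f) (-h) → (∀ᵐ x, x ∈ U → h x ≤ C * f x) →
    (∀ x ∈ U, f x = 0) ∨ ∀ x ∈ U, 0 < f x

/-- The boundary point lemma at a point `y` of the sphere of an interior ball: linear growth along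
the radius, and a positive radial derivative where the function is differentiable with value `0`. -/
def HopfStmt : Prop :=
  ∀ (p : Space) (r : ℝ) (f h : Space → ℝ) (C : ℝ), 0 < r → ContinuousOn f (closedBall p r) →
    WeakSubPoisson (ball p r) (-f) (-h) → (∀ᵐ x, x ∈ ball p r → h x ≤ C * f x) →
    (∀ x ∈ ball p r, 0 < f x) → ∀ y ∈ sphere p r, 0 ≤ f y →
      (∃ c > 0, ∀ t ∈ Set.Icc (0 : ℝ) 1, c * t ≤ f (y + t • (p - y))) ∧
      ∀ L : Space →L[ℝ] ℝ, HasFDerivAt f L y → f y = 0 → 0 < L (p - y)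

end Vale.Agent.P363
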