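import Vale.Agent.P363.Tool.YukRiesz

/-!
P363: Newton potentials of `L^p` functions with compact support: continuity and differentiability.
-/

noncomputable section

namespace Vale.Agent.P363.Yuk

open MeasureTheory Filter Metric
open scoped BigOperators Topology ENNReal

/-- The derivative of the Newton potential. -/
def potGrad (q : Space → ℝ) (a : Fin 3) (x : Space) : ℝ := ∫ y, yukGrad 0 a (x - y) * q y

/-- Functions in `L^p` vanishing outside a ball. -/
structure Src (p : ℝ) (x₀ : Space) (R : ℝ) (q : Space → ℝ) : Prop where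
  mem : MemLp q (ENNReal.ofReal p)
  supp : ∀ y, y ∉ closedBall x₀ R → q y = 0

/-- Its size. -/
def srcNorm (p : ℝ) (q : Space → ℝ) : ℝ := (eLpNorm q (ENNReal.ofReal p) volume).toReal

lemma srcNorm_nonneg (p : ℝ) (q : Space → ℝ) : 0 ≤ srcNorm p q := ENNReal.toReal_nonneg

/-- The Riesz bound for sources. -/
lemma src_riesz {s p : ℝ} (hs : 0 ≤ s) (hp : 1 < p) (hsp : s < 3 * (1 - 1 / p)) (R : ℝ) :
    ∃ C, 0 ≤ C ∧ ∀ (x₀ : Space) (q : Space → ℝ), Src p x₀ R q → ∀ x,
      Integrable (fun y => ‖x - y‖ ^ (-s) * |q y|) ∧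
        ∫ y, ‖x - y‖ ^ (-s) * |q y| ≤ C * srcNorm p q := by
  obtain ⟨C, hC, h⟩ := riesz_bound hs hp hsp (volume.real (closedBall (0 : Space) R))
  refine ⟨C, hC, fun x₀ q hq x => ?_⟩
  have hV : volume.real (closedBall x₀ R) ≤ volume.real (closedBall (0 : Space) R) :=
    le_of_eq (by simp [measureReal_def, Measure.addHaar_closedBall_center])
  obtain ⟨hi, hle⟩ := h x (closedBall x₀ R) q measurableSet_closedBall measure_closedBall_lt_top hV
    (hq.mem.restrict _)
  have h0 : ∀ y, y ∉ closedBall x₀ R → ‖x - y‖ ^ (-s) * |q y| = 0 := fun y hy => by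
    simp [hq.supp y hy]
  refine ⟨(integrableOn_iff_integrable_of_support_subset fun y hy => ?_).1 hi, ?_⟩
  · by_contra hn
    exact hy (h0 y hn)
  rw [← setIntegral_eq_integral_of_forall_compl_eq_zero h0]
  exact hle.trans (mul_le_mul_of_nonneg_left
    (ENNReal.toReal_mono hq.mem.eLpNorm_ne_top (eLpNorm_mono_measure _ Measure.restrict_le_self)) hC)

lemma abs_yuk_zero_le (z : Space) : |yuk 0 z| ≤ ‖z‖ ^ (-(1 : ℝ)) := by
  rw [abs_of_nonneg (yuk_nonneg 0 z), Real.rpow_neg_one]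
  simpa using yuk_le 0 z

lemma abs_yukGrad_zero_le (a : Fin 3) (z : Space) : |yukGrad 0 a z| ≤ ‖z‖ ^ (-(2 : ℝ)) := by
  simpa using abs_yukGrad_le le_rfl a z

lemma integrable_kernel {K : Space → ℝ} (hK : Measurable K) {s : ℝ} {q : Space → ℝ}
    (hq : AEStronglyMeasurable q volume) (hb : ∀ z, |K z| ≤ ‖z‖ ^ (-s)) (x : Space)
    (hi : Integrable fun y => ‖x - y‖ ^ (-s) * |q y|) :
    Integrable (fun y => K (x - y) * q y) ∧
      |∫ y, K (x - y) * q y| ≤ ∫ y, ‖x - y‖ ^ (-s) * |q y| := by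
  have hle : ∀ y, ‖K (x - y) * q y‖ ≤ ‖x - y‖ ^ (-s) * |q y| := fun y => by
    rw [norm_mul, Real.norm_eq_abs, Real.norm_eq_abs]
    exact mul_le_mul_of_nonneg_right (hb _) (abs_nonneg _)
  refine ⟨hi.mono' ((hK.comp (measurable_const.sub measurable_id)).aestronglyMeasurable.mul hq)
    (ae_of_all _ hle), ?_⟩
  rw [← Real.norm_eq_abs]
  exact norm_integral_le_of_norm_le hi (ae_of_all _ hle)

/-- Newton potentials of `L^p` sources, `p > 3 / 2`, are Hölder continuous. -/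
theorem pot_holder {p : ℝ} (hp : 3 / 2 < p) {α : ℝ} (ha0 : 0 < α) (ha : α ≤ 1)
    (hap : 1 + α < 3 * (1 - 1 / p)) (R : ℝ) :
    ∃ C, 0 ≤ C ∧ ∀ (x₀ : Space) (q : Space → ℝ), Src p x₀ R q → ∀ x,
      Integrable (fun y => yuk 0 (x - y) * q y) ∧ |pot 0 q x| ≤ C * srcNorm p q ∧
        ∀ x', |pot 0 q x - pot 0 q x'| ≤ C * srcNorm p q * ‖x - x'‖ ^ α := by
  have hp1 : 1 < p := by linarith
  obtain ⟨C1, hC1, h1⟩ := src_riesz zero_le_one hp1 (by linarith) R
  obtain ⟨C2, hC2, h2⟩ := src_riesz (by linarith : (0 : ℝ) ≤ 1 + α) hp1 hap R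
  refine ⟨C1 + 2 * C2, by positivity, fun x₀ q hq x => ?_⟩
  have hqm := hq.mem.aestronglyMeasurable
  have hn := srcNorm_nonneg p q
  have hint : ∀ z, Integrable (fun y => yuk 0 (z - y) * q y) ∧
      |∫ y, yuk 0 (z - y) * q y| ≤ ∫ y, ‖z - y‖ ^ (-(1 : ℝ)) * |q y| := fun z =>
    integrable_kernel (measurable_yuk 0) hqm abs_yuk_zero_le z (h1 x₀ q hq z).1
  refine ⟨(hint x).1, ((hint x).2.trans (h1 x₀ q hq x).2).trans
    (mul_le_mul_of_nonneg_right (by linarith) hn), fun x' => ?_⟩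
  obtain ⟨i1, b1⟩ := h2 x₀ q hq x
  obtain ⟨i2, b2⟩ := h2 x₀ q hq x'
  rw [pot, pot, ← integral_sub (hint x).1 (hint x').1, ← Real.norm_eq_abs]
  refine (norm_integral_le_of_norm_le (g := fun y => ‖x - x'‖ ^ α *
    (‖x - y‖ ^ (-(1 + α)) * |q y| + ‖x' - y‖ ^ (-(1 + α)) * |q y|))
    ((i1.add i2).const_mul _) ?_).trans ?_
  · filter_upwards [Measure.ae_ne volume x, Measure.ae_ne volume x'] with y hy hy'
    have hu : 0 < ‖x - y‖ := norm_pos_iff.2 (sub_ne_zero.2 hy.symm)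
    have hv : 0 < ‖x' - y‖ := norm_pos_iff.2 (sub_ne_zero.2 hy'.symm)
    rw [← sub_mul, norm_mul, Real.norm_eq_abs, Real.norm_eq_abs, ← add_mul, ← mul_assoc]
    refine mul_le_mul_of_nonneg_right ?_ (abs_nonneg _)
    rw [yuk_zero_eq, yuk_zero_eq, ← sub_div, abs_div]
    refine (div_le_self (abs_nonneg _) (by
      rw [abs_of_pos (by positivity : (0 : ℝ) < 4 * Real.pi)]; nlinarith [Real.pi_gt_three])).trans ?_
    refine (inv_sub_inv_le hu hv ha0 ha).trans (mul_le_mul_of_nonneg_right ?_ (by positivity))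
    refine Real.rpow_le_rpow (abs_nonneg _) ((abs_norm_sub_norm_le _ _).trans ?_) ha0.le
    simp
  · rw [integral_const_mul, integral_add i1 i2]
    calc ‖x - x'‖ ^ α * ((∫ y, ‖x - y‖ ^ (-(1 + α)) * |q y|) + ∫ y, ‖x' - y‖ ^ (-(1 + α)) * |q y|)
        ≤ ‖x - x'‖ ^ α * (C2 * srcNorm p q + C2 * srcNorm p q) := by gcongr
      _ ≤ _ := by
          have := mul_nonneg (mul_nonneg hC1 hn) (Real.rpow_nonneg (norm_nonneg (x - x')) α)
          nlinarith

/-- Newton potentials of `L^p` sources, `p > 3`, are continuously differentiable. -/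
theorem pot_c1 {p : ℝ} (hp : 3 < p) {β : ℝ} (hb0 : 0 < β) (hb : β ≤ 1)
    (hbp : 2 + β < 3 * (1 - 1 / p)) (R : ℝ) :
    ∃ C, 0 ≤ C ∧ ∀ (x₀ : Space) (q : Space → ℝ), Src p x₀ R q → ∀ x,
      HasFDerivAt (pot 0 q) (∑ a, potGrad q a x • (EuclideanSpace.proj a : Space →L[ℝ] ℝ)) x ∧
        (∀ a, |potGrad q a x| ≤ C * srcNorm p q) ∧
        ∀ a x', |potGrad q a x - potGrad q a x'| ≤ C * srcNorm p q * ‖x - x'‖ ^ β := by
  have hp1 : 1 < p := by linarith
  obtain ⟨C0, hC0, h0⟩ := src_riesz zero_le_one hp1 (by linarith) R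
  obtain ⟨C1, hC1, h1⟩ := src_riesz zero_le_two hp1 (by linarith) R
  obtain ⟨C2, hC2, h2⟩ := src_riesz (by linarith : (0 : ℝ) ≤ 2 + β) hp1 hbp R
  refine ⟨C1 + 80 * C2, by positivity, fun x₀ q hq x => ?_⟩
  have hqm := hq.mem.aestronglyMeasurable
  have hn := srcNorm_nonneg p q
  have hy0 : ∀ z, Integrable fun y => yuk 0 (z - y) * q y := fun z =>
    (integrable_kernel (measurable_yuk 0) hqm abs_yuk_zero_le z (h0 x₀ q hq z).1).1
  have hg : ∀ a z, Integrable (fun y => yukGrad 0 a (z - y) * q y) ∧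
      |∫ y, yukGrad 0 a (z - y) * q y| ≤ ∫ y, ‖z - y‖ ^ (-(2 : ℝ)) * |q y| := fun a z =>
    integrable_kernel (measurable_yukGrad 0 a) hqm (abs_yukGrad_zero_le a) z (h1 x₀ q hq z).1
  have hpi : |(4 * Real.pi : ℝ)| = 4 * Real.pi := abs_of_pos (by positivity)
  have h4 : (1 : ℝ) ≤ 4 * Real.pi := by nlinarith [Real.pi_gt_three]
  refine ⟨?_, fun a => ((hg a x).2.trans (h1 x₀ q hq x).2).trans
    (mul_le_mul_of_nonneg_right (by linarith) hn), fun a x' => ?_⟩
  · rw [hasFDerivAt_iff_isLittleO_nhds_zero, Asymptotics.isLittleO_iff]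
    intro c hc
    set K := 80 * C2 * srcNorm p q
    have hK : 0 ≤ K := by positivity
    have hev : ∀ᶠ h : Space in 𝓝 0, ‖h‖ ^ β * K ≤ c := by
      have hcont : Continuous fun h : Space => ‖h‖ ^ β * K :=
        (continuous_norm.rpow_const fun _ => Or.inr hb0.le).mul continuous_const
      exact ((hcont.tendsto 0).eventually
        (gt_mem_nhds (show ‖(0 : Space)‖ ^ β * K < c by simpa [Real.zero_rpow hb0.ne'] using hc))).mono
          fun h hh => le_of_lt hh
    filter_upwards [hev] with h hh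
    obtain ⟨i1, b1⟩ := h2 x₀ q hq x
    obtain ⟨i2, b2⟩ := h2 x₀ q hq (x + h)
    have eL : (∑ a, potGrad q a x • (EuclideanSpace.proj a : Space →L[ℝ] ℝ)) h =
        ∫ y, ∑ a, h a * (yukGrad 0 a (x - y) * q y) := by
      rw [integral_finsetSum _ fun a _ => (hg a x).1.const_mul _]
      simp [potGrad, integral_const_mul, mul_comm]
    have is : Integrable fun y => ∑ a, h a * (yukGrad 0 a (x - y) * q y) :=
      integrable_finsetSum _ fun a _ => (hg a x).1.const_mul _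
    have iyy : Integrable fun y => yuk 0 (x + h - y) * q y - yuk 0 (x - y) * q y :=
      (hy0 (x + h)).sub (hy0 x)
    rw [eL, pot, pot, ← integral_sub (hy0 (x + h)) (hy0 x), ← integral_sub iyy is]
    refine (norm_integral_le_of_norm_le (g := fun y => 40 * (‖h‖ ^ β * ‖h‖) *
      (‖x - y‖ ^ (-(2 + β)) * |q y| + ‖x + h - y‖ ^ (-(2 + β)) * |q y|))
      ((i1.add i2).const_mul _) ?_).trans ?_
    · filter_upwards [Measure.ae_ne volume x, Measure.ae_ne volume (x + h)] with y hy hy'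
      have hz : x - y ≠ 0 := sub_ne_zero.2 hy.symm
      have hzh : x - y + h ≠ 0 := by
        rw [sub_add_eq_add_sub]; exact sub_ne_zero.2 hy'.symm
      have he := inv_expand hz hzh hb0 hb
      rw [show x - y + h = x + h - y by abel] at he
      have e : yuk 0 (x + h - y) * q y - yuk 0 (x - y) * q y -
          ∑ a, h a * (yukGrad 0 a (x - y) * q y) =
          (1 / ‖x + h - y‖ - 1 / ‖x - y‖ + inner ℝ (x - y) h / ‖x - y‖ ^ 3) / (4 * Real.pi) *
            q y := by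
        rw [yuk_zero_eq, yuk_zero_eq, PiLp.inner_apply]
        simp only [yukGrad_zero_eq, Fin.sum_univ_three, RCLike.inner_apply, conj_trivial]
        ring
      rw [e, norm_mul, Real.norm_eq_abs, Real.norm_eq_abs, abs_div, hpi, ← add_mul, ← mul_assoc]
      refine mul_le_mul_of_nonneg_right ((div_le_self (abs_nonneg _) h4).trans (he.trans
        (le_of_eq ?_))) (abs_nonneg _)
      ring
    · rw [integral_const_mul, integral_add i1 i2]
      calc 40 * (‖h‖ ^ β * ‖h‖) * ((∫ y, ‖x - y‖ ^ (-(2 + β)) * |q y|) +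
            ∫ y, ‖x + h - y‖ ^ (-(2 + β)) * |q y|)
          ≤ 40 * (‖h‖ ^ β * ‖h‖) * (C2 * srcNorm p q + C2 * srcNorm p q) := by gcongr
        _ = (‖h‖ ^ β * K) * ‖h‖ := by simp only [K]; ring
        _ ≤ c * ‖h‖ := mul_le_mul_of_nonneg_right hh (norm_nonneg _)
  · obtain ⟨i1, b1⟩ := h2 x₀ q hq x
    obtain ⟨i2, b2⟩ := h2 x₀ q hq x'
    rw [potGrad, potGrad, ← integral_sub (hg a x).1 (hg a x').1, ← Real.norm_eq_abs]
    refine (norm_integral_le_of_norm_le (g := fun y => 40 * ‖x - x'‖ ^ β *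
      (‖x - y‖ ^ (-(2 + β)) * |q y| + ‖x' - y‖ ^ (-(2 + β)) * |q y|))
      ((i1.add i2).const_mul _) ?_).trans ?_
    · filter_upwards [Measure.ae_ne volume x, Measure.ae_ne volume x'] with y hy hy'
      have he := grad_sub_le (sub_ne_zero.2 hy.symm) (sub_ne_zero.2 hy'.symm) hb0 hb a
      rw [sub_sub_sub_cancel_right] at he
      rw [← sub_mul, norm_mul, Real.norm_eq_abs, Real.norm_eq_abs, ← add_mul, ← mul_assoc]
      refine mul_le_mul_of_nonneg_right ?_ (abs_nonneg _)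
      rw [yukGrad_zero_eq, yukGrad_zero_eq, ← sub_div, abs_div, hpi, neg_sub_neg, abs_sub_comm]
      exact (div_le_self (abs_nonneg _) h4).trans (he.trans (le_of_eq (by ring)))
    · rw [integral_const_mul, integral_add i1 i2]
      calc 40 * ‖x - x'‖ ^ β * ((∫ y, ‖x - y‖ ^ (-(2 + β)) * |q y|) +
            ∫ y, ‖x' - y‖ ^ (-(2 + β)) * |q y|)
          ≤ 40 * ‖x - x'‖ ^ β * (C2 * srcNorm p q + C2 * srcNorm p q) := by gcongr
        _ ≤ _ := by
          have := mul_nonneg (mul_nonneg hC1 hn) (Real.rpow_nonneg (norm_nonneg (x - x')) β)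
          nlinarith

end Vale.Agent.P363.Yuk
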