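import Vale.Agent.P363.Tool.YukPot

/-!
P363: the Newton kernel: pointwise comparison at two points and integrals against functions
in `L^p`.
-/

noncomputable section

namespace Vale.Agent.P363.Yuk

open MeasureTheory Filter Metric
open scoped BigOperators Topology ENNReal

lemma pow_small {h a β : ℝ} (hh : 0 ≤ h) (ha : 0 < a) (hle : h ≤ a) (hb0 : 0 < β)
    (hb : β ≤ 1) : h / a ^ (3 : ℝ) ≤ h ^ β * a ^ (-(2 + β)) := by
  have e : h / a ^ (3 : ℝ) = (h / a) ^ (1 : ℝ) * a ^ (-(2 : ℝ)) := by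
    rw [Real.rpow_one, Real.rpow_neg ha.le, div_eq_mul_inv, div_eq_mul_inv, mul_assoc, ← mul_inv]
    congr 2
    rw [show (3 : ℝ) = 1 + 2 by norm_num, Real.rpow_add ha, Real.rpow_one]
  rw [e]
  refine (mul_le_mul_of_nonneg_right (Real.rpow_le_rpow_of_exponent_ge' (by positivity)
    ((div_le_one ha).2 hle) hb0.le hb) (Real.rpow_nonneg ha.le _)).trans (le_of_eq ?_)
  rw [Real.div_rpow hh ha.le, div_eq_mul_inv, mul_assoc, ← Real.rpow_neg ha.le, ← Real.rpow_add ha]
  congr 1
  ring_nf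

lemma pow_large {h a c β : ℝ} (hh : 0 ≤ h) (ha : 0 < a) (hle : a ≤ c * h) (hc : 1 ≤ c)
    (hb0 : 0 < β) (hb : β ≤ 1) : 1 / a ^ (2 : ℝ) ≤ c * (h ^ β * a ^ (-(2 + β))) := by
  have e : 1 / a ^ (2 : ℝ) = a ^ β * a ^ (-(2 + β)) := by
    rw [← Real.rpow_add ha, one_div, ← Real.rpow_neg ha.le]; ring_nf
  rw [e, ← mul_assoc]
  refine mul_le_mul_of_nonneg_right ?_ (Real.rpow_nonneg ha.le _)
  refine (Real.rpow_le_rpow ha.le hle hb0.le).trans ?_
  rw [Real.mul_rpow (by linarith) hh]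
  exact mul_le_mul_of_nonneg_right (Real.rpow_le_self_of_one_le hc hb) (Real.rpow_nonneg hh _)

/-- Two values of the Newton kernel. -/
lemma inv_sub_inv_le {u v α : ℝ} (hu : 0 < u) (hv : 0 < v) (ha0 : 0 < α) (ha : α ≤ 1) :
    |1 / u - 1 / v| ≤ |u - v| ^ α * (u ^ (-(1 + α)) + v ^ (-(1 + α))) := by
  wlog huv : u ≤ v generalizing u v
  · rw [abs_sub_comm, abs_sub_comm u v, add_comm]
    exact this hv hu (le_of_not_ge huv)
  rw [abs_of_nonneg (sub_nonneg.2 (one_div_le_one_div_of_le hu huv)), abs_sub_comm,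
    abs_of_nonneg (sub_nonneg.2 huv)]
  have e : 1 / u - 1 / v = ((v - u) / v) ^ (1 : ℝ) * (1 / u) := by
    rw [Real.rpow_one]; field_simp
  have hvu : 0 ≤ v - u := sub_nonneg.2 huv
  have hg : 0 ≤ v ^ (-(1 + α)) := Real.rpow_nonneg hv.le _
  rw [e, mul_add]
  refine le_add_of_le_of_nonneg ?_ (mul_nonneg (Real.rpow_nonneg hvu _) hg)
  refine (mul_le_mul_of_nonneg_right (Real.rpow_le_rpow_of_exponent_ge' (by positivity)
    ((div_le_one hv).2 (by linarith)) ha0.le ha) (by positivity)).trans ?_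
  rw [Real.div_rpow hvu hv.le, div_eq_mul_inv, mul_assoc,
    show -(1 + α) = -α + -1 by ring, Real.rpow_add hu, Real.rpow_neg_one, one_div]
  refine mul_le_mul_of_nonneg_left (mul_le_mul_of_nonneg_right ?_ (inv_nonneg.2 hu.le))
    (Real.rpow_nonneg hvu _)
  rw [← Real.rpow_neg hv.le]
  exact Real.rpow_le_rpow_of_nonpos hu huv (by linarith)

/-- The first order expansion of `1 / |z|`. -/
lemma inv_expand {z h : Space} (hz : z ≠ 0) (hzh : z + h ≠ 0) {β : ℝ} (hb0 : 0 < β) (hb : β ≤ 1) :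
    |1 / ‖z + h‖ - 1 / ‖z‖ + inner ℝ z h / ‖z‖ ^ 3| ≤
      40 * (‖h‖ ^ β * ‖h‖ * (‖z‖ ^ (-(2 + β)) + ‖z + h‖ ^ (-(2 + β)))) := by
  set a := ‖z‖ with had
  set b := ‖z + h‖ with hbd
  set H := ‖h‖
  have ha : 0 < a := norm_pos_iff.2 hz
  have hbp : 0 < b := norm_pos_iff.2 hzh
  have hH : 0 ≤ H := norm_nonneg h
  have hd : |b - a| ≤ H := by
    have := abs_norm_sub_norm_le (z + h) z
    simpa [add_sub_cancel_left, had, hbd] using this
  set p : ℝ := inner ℝ z h with hp
  have hin : |p| ≤ a * H := abs_real_inner_le_norm z h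
  have hA : 0 ≤ a ^ (-(2 + β)) := Real.rpow_nonneg ha.le _
  have hB : 0 ≤ b ^ (-(2 + β)) := Real.rpow_nonneg hbp.le _
  have hHb : 0 ≤ H ^ β := Real.rpow_nonneg hH _
  rcases le_or_gt (2 * H) a with hc | hc
  · have hab : a / 2 ≤ b := by linarith [(abs_le.1 hd).1]
    have hb2 : b ^ 2 = a ^ 2 + 2 * p + H ^ 2 := by
      simp only [had, hbd, hp, H]
      exact norm_add_sq_real z h
    have e : 1 / b - 1 / a + p / a ^ 3 =
        p * ((b - a) * (b + 2 * a)) / (a ^ 3 * b * (a + b)) - H ^ 2 / (a * b * (a + b)) := by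
      field_simp
      linear_combination (-(a ^ 2)) * hb2
    rw [e]
    have t1 : |p * ((b - a) * (b + 2 * a)) / (a ^ 3 * b * (a + b))| ≤ 6 * (H ^ 2 / a ^ 3) := by
      rw [abs_div, abs_mul, abs_mul, abs_of_pos (by positivity : (0 : ℝ) < a ^ 3 * b * (a + b)),
        abs_of_pos (by positivity : (0 : ℝ) < b + 2 * a), div_le_iff₀ (by positivity)]
      refine (mul_le_mul hin (mul_le_mul_of_nonneg_right hd (by positivity)) (by positivity)
        (by positivity)).trans ?_
      have e3 : 6 * (H ^ 2 / a ^ 3) * (a ^ 3 * b * (a + b)) = 6 * H ^ 2 * (b * (a + b)) := by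
        field_simp
      rw [e3, show a * H * (H * (b + 2 * a)) = H ^ 2 * (a * (b + 2 * a)) by ring,
        show 6 * H ^ 2 * (b * (a + b)) = H ^ 2 * (6 * (b * (a + b))) by ring]
      exact mul_le_mul_of_nonneg_left (by nlinarith) (sq_nonneg H)
    have t2 : |H ^ 2 / (a * b * (a + b))| ≤ 2 * (H ^ 2 / a ^ 3) := by
      rw [abs_of_nonneg (by positivity), div_le_iff₀ (by positivity)]
      have e3 : 2 * (H ^ 2 / a ^ 3) * (a * b * (a + b)) = H ^ 2 * (2 * (b * (a + b)) / a ^ 2) := by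
        field_simp
      rw [e3]
      refine le_mul_of_one_le_right (sq_nonneg H) ?_
      rw [le_div_iff₀ (by positivity)]
      nlinarith
    refine (abs_sub _ _).trans ((add_le_add t1 t2).trans ?_)
    have := mul_le_mul_of_nonneg_left (pow_small hH ha (by linarith) hb0 hb) hH
    rw [show ((3 : ℝ)) = ((3 : ℕ) : ℝ) by norm_num, Real.rpow_natCast] at this
    have e4 : H ^ 2 / a ^ 3 = H * (H / a ^ 3) := by ring
    rw [e4]
    nlinarith [mul_nonneg (mul_nonneg hHb hH) hA, mul_nonneg (mul_nonneg hHb hH) hB]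
  · have hb3 : b ≤ 3 * H := by linarith [(abs_le.1 hd).2]
    have la := pow_large hH ha (by linarith : a ≤ 2 * H) (by norm_num) hb0 hb
    have lb := pow_large hH hbp hb3 (by norm_num) hb0 hb
    rw [Real.rpow_two] at la lb
    have t1 : |1 / b - 1 / a| ≤ H * (1 / a ^ 2) + H * (1 / b ^ 2) := by
      rw [div_sub_div _ _ hbp.ne' ha.ne', abs_div, abs_of_pos (mul_pos hbp ha), one_mul, mul_one,
        div_le_iff₀ (mul_pos hbp ha), abs_sub_comm]
      have e3 : (H * (1 / a ^ 2) + H * (1 / b ^ 2)) * (b * a) = H * (b / a + a / b) := by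
        field_simp
      rw [e3]
      refine hd.trans (le_mul_of_one_le_right hH ?_)
      rw [div_add_div _ _ ha.ne' hbp.ne', le_div_iff₀ (mul_pos ha hbp)]
      nlinarith [sq_nonneg (a - b)]
    have t2 : |p / a ^ 3| ≤ H * (1 / a ^ 2) := by
      rw [abs_div, abs_of_pos (by positivity : (0 : ℝ) < a ^ 3), div_le_iff₀ (by positivity)]
      refine hin.trans (le_of_eq ?_)
      field_simp
    refine (abs_add_le _ _).trans ((add_le_add t1 t2).trans ?_)
    nlinarith [mul_le_mul_of_nonneg_left la hH, mul_le_mul_of_nonneg_left lb hH,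
      mul_nonneg (mul_nonneg hHb hH) hA, mul_nonneg (mul_nonneg hHb hH) hB]

/-- Two values of the gradient of `1 / |z|`. -/
lemma grad_sub_le {z w : Space} (hz : z ≠ 0) (hw : w ≠ 0) {β : ℝ} (hb0 : 0 < β) (hb : β ≤ 1)
    (c : Fin 3) : |z c / ‖z‖ ^ 3 - w c / ‖w‖ ^ 3| ≤
      40 * (‖z - w‖ ^ β * (‖z‖ ^ (-(2 + β)) + ‖w‖ ^ (-(2 + β)))) := by
  set a := ‖z‖ with had
  set b := ‖w‖ with hbd
  set H := ‖z - w‖ with hHd
  have ha : 0 < a := norm_pos_iff.2 hz
  have hbp : 0 < b := norm_pos_iff.2 hw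
  have hH : 0 ≤ H := norm_nonneg _
  have hd : |a - b| ≤ H := abs_norm_sub_norm_le z w
  have hzc : |z c| ≤ a := abs_coord_le z c
  have hwc : |w c| ≤ b := abs_coord_le w c
  have hdc : |z c - w c| ≤ H := by simpa using abs_coord_le (z - w) c
  have hA : 0 ≤ a ^ (-(2 + β)) := Real.rpow_nonneg ha.le _
  have hB : 0 ≤ b ^ (-(2 + β)) := Real.rpow_nonneg hbp.le _
  have hHb : 0 ≤ H ^ β := Real.rpow_nonneg hH _
  rcases le_or_gt (2 * H) a with hc | hc
  · have hab : a / 2 ≤ b := by linarith [(abs_le.1 hd).2]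
    have e : z c / a ^ 3 - w c / b ^ 3 =
        z c * ((b - a) * (b ^ 2 + a * b + a ^ 2)) / (a ^ 3 * b ^ 3) + (z c - w c) / b ^ 3 := by
      field_simp
      ring
    have key : |z c / a ^ 3 - w c / b ^ 3| ≤ 30 * (H / a ^ 3) := by
      rw [e]
      refine (abs_add_le _ _).trans ?_
      have hb3 : 1 / b ^ 3 ≤ 8 / a ^ 3 := by
        rw [div_le_div_iff₀ (by positivity) (by positivity), one_mul]
        nlinarith [pow_le_pow_left₀ (by positivity) hab 3]
      have i2 : |(z c - w c) / b ^ 3| ≤ 8 * (H / a ^ 3) := by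
        rw [abs_div, abs_of_pos (by positivity : (0 : ℝ) < b ^ 3), div_eq_mul_one_div]
        refine (mul_le_mul hdc hb3 (by positivity) hH).trans (le_of_eq ?_)
        ring
      have i1 : |z c * ((b - a) * (b ^ 2 + a * b + a ^ 2)) / (a ^ 3 * b ^ 3)| ≤
          22 * (H / a ^ 3) := by
        rw [abs_div, abs_mul, abs_mul, abs_of_pos (by positivity : (0 : ℝ) < a ^ 3 * b ^ 3),
          abs_of_pos (by positivity : (0 : ℝ) < b ^ 2 + a * b + a ^ 2),
          div_le_iff₀ (by positivity)]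
        refine (mul_le_mul hzc (mul_le_mul_of_nonneg_right ((abs_sub_comm b a).le.trans hd)
          (by positivity)) (by positivity) (by positivity)).trans ?_
        have e3 : 22 * (H / a ^ 3) * (a ^ 3 * b ^ 3) = H * (22 * b ^ 3) := by field_simp
        rw [e3, mul_left_comm]
        refine mul_le_mul_of_nonneg_left ?_ hH
        nlinarith [mul_le_mul_of_nonneg_left hab (sq_nonneg b), pow_le_pow_left₀ (by positivity) hab 2]
      linarith
    refine key.trans ?_
    have := pow_small hH ha (by linarith : H ≤ a) hb0 hb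
    rw [show ((3 : ℝ)) = ((3 : ℕ) : ℝ) by norm_num, Real.rpow_natCast] at this
    nlinarith [mul_nonneg hHb hA, mul_nonneg hHb hB]
  · have hb3 : b ≤ 3 * H := by linarith [(abs_le.1 hd).1]
    have la := pow_large hH ha (by linarith : a ≤ 2 * H) (by norm_num) hb0 hb
    have lb := pow_large hH hbp hb3 (by norm_num) hb0 hb
    rw [Real.rpow_two] at la lb
    have t : ∀ {u : ℝ} {r : ℝ}, 0 < r → |u| ≤ r → |u / r ^ 3| ≤ 1 / r ^ 2 := by
      intro u r hr hu
      rw [abs_div, abs_of_pos (by positivity : (0 : ℝ) < r ^ 3), div_le_div_iff₀ (by positivity)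
        (by positivity), one_mul]
      nlinarith [mul_le_mul_of_nonneg_right hu (sq_nonneg r)]
    refine (abs_sub _ _).trans ((add_le_add (t ha hzc) (t hbp hwc)).trans ?_)
    nlinarith [mul_nonneg hHb hA, mul_nonneg hHb hB]

lemma yuk_zero_eq (x : Space) : yuk 0 x = 1 / ‖x‖ / (4 * Real.pi) := by
  simp [yuk]; ring

lemma yukGrad_zero_eq (a : Fin 3) (x : Space) :
    yukGrad 0 a x = -(x a / ‖x‖ ^ 3) / (4 * Real.pi) := by
  simp [yukGrad]; ring

/-- Integrals of `|x - y|^(-s)` against `L^p` functions on a bounded set. -/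
lemma riesz_bound {s p : ℝ} (hs : 0 ≤ s) (hp : 1 < p) (hsp : s < 3 * (1 - 1 / p)) (V : ℝ) :
    ∃ C, 0 ≤ C ∧ ∀ (x : Space) (S : Set Space) (q : Space → ℝ), MeasurableSet S → volume S < ∞ →
      volume.real S ≤ V → MemLp q (ENNReal.ofReal p) (volume.restrict S) →
      IntegrableOn (fun y => ‖x - y‖ ^ (-s) * |q y|) S ∧
        ∫ y in S, ‖x - y‖ ^ (-s) * |q y| ≤
          C * (eLpNorm q (ENNReal.ofReal p) (volume.restrict S)).toReal := by
  set p' := Real.conjExponent p with hp'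
  have hpq : p.HolderConjugate p' := Real.HolderConjugate.conjExponent hp
  have hq1 : 1 < p' := hpq.symm.lt
  have hss : s * p' < 3 := by
    have h1 : 1 - 1 / p = 1 / p' := by
      have := hpq.inv_add_inv_eq_one
      rw [one_div, one_div]; linarith
    rw [h1] at hsp
    rw [mul_one_div, lt_div_iff₀ hpq.symm.pos] at hsp
    exact hsp
  obtain ⟨A, hA, hAb⟩ := setIntegral_rpow_le (mul_nonneg hs hpq.symm.nonneg) hss
  refine ⟨(A + |V|) ^ (1 / p'), by positivity, fun x S q hS hfin hV hq => ?_⟩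
  obtain ⟨hi, hle⟩ := hAb x S hS hfin
  set μ := volume.restrict S
  have hk : MemLp (fun y => ‖x - y‖ ^ (-s)) (ENNReal.ofReal p') μ := by
    have hm : AEStronglyMeasurable (fun y => ‖x - y‖ ^ (-s)) μ :=
      ((measurable_const.sub measurable_id).norm.pow_const (-s)).aestronglyMeasurable
    rw [← integrable_norm_rpow_iff hm
      (by simp [hpq.symm.pos]) ENNReal.ofReal_ne_top, ENNReal.toReal_ofReal hpq.symm.nonneg]
    refine hi.congr (ae_of_all _ fun y => ?_)
    simp only [Real.norm_eq_abs]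
    rw [abs_of_nonneg (Real.rpow_nonneg (norm_nonneg _) _), ← Real.rpow_mul (norm_nonneg _),
      neg_mul]
  haveI : ENNReal.HolderConjugate (ENNReal.ofReal p') (ENNReal.ofReal p) :=
    hpq.symm.ennrealOfReal
  refine ⟨hk.integrable_mul hq.abs, ?_⟩
  refine (integral_mul_le_Lp_mul_Lq_of_nonneg hpq.symm (ae_of_all _ fun y => Real.rpow_nonneg
    (norm_nonneg _) _) (ae_of_all _ fun y => abs_nonneg (q y)) hk hq.abs).trans ?_
  refine mul_le_mul ?_ (le_of_eq ?_)
    (Real.rpow_nonneg (integral_nonneg fun y => Real.rpow_nonneg (abs_nonneg _) _) _)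
    (by positivity)
  · refine Real.rpow_le_rpow (integral_nonneg fun y => Real.rpow_nonneg
      (Real.rpow_nonneg (norm_nonneg _) _) _) ?_ (one_div_nonneg.2 hpq.symm.nonneg)
    refine le_trans (le_of_eq ?_) (hle.trans (by linarith [le_abs_self V]))
    refine integral_congr_ae (ae_of_all _ fun y => ?_)
    simp only
    rw [← Real.rpow_mul (norm_nonneg _), neg_mul]
  · rw [hq.eLpNorm_eq_integral_rpow_norm (by simp; linarith) ENNReal.ofReal_ne_top,
      ENNReal.toReal_ofReal hpq.nonneg, ENNReal.toReal_ofReal (Real.rpow_nonneg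
        (integral_nonneg fun y => Real.rpow_nonneg (norm_nonneg _) _) _), one_div]
    simp [Real.norm_eq_abs]

end Vale.Agent.P363.Yuk
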